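import Vale.Agent.P159.H462.L1o
import Vale.Agent.P159.H43.Num
import Vale.Agent.P159.H363.Wde

/-!
P159 (helper462), P#, constant-averaged letters, part 1.

`Wb F = ∫₀¹ log Z(F + c) dc` (local, neutral), `Bf = log Z⁰ - Wb`.
* `Bf_nonneg`, `Bf_le` : `0 ≤ Bf ≤ omT²`;
* `Bf_sub` : `|Bf - |Φ₁|²| ≤ omT³ + 2 omT omH + omH²`.
-/

set_option linter.unusedSectionVars false
set_option linter.unusedVariables false

namespace Vale.Agent.P159.H462

open Finset MeasureTheory Matrix
open Vale.Agent.P159.TM.H104 (EM Ex Cv K3 Lg li nh Gr)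
open Vale.Agent.P159.H37
open Vale.Agent.P159.H896 (Ph WM om ph)
open Vale.Agent.P159.H43 (omT omH Phq Wq dW dL dL0 el el1)
open Vale.Agent.P159.H145 (LM L0 cs OscZ)
open Vale.Agent.P159.H363 (mainf ee Ch lf acl ti_acl Rcl Rcl_nonneg sym_acl_nonneg gm ti_gm pin ti_pin
  sym_pin Wcl one_le_Wcl wm_MC Nf)
open Vale.Agent.P159.TM.Spec (V)
open Vale.Agent.P159.TM.SpecC (Tor wT)
open Vale.Agent.P159.TM.H764 (EE cN dt)
open Vale.Agent.P159.H864 (TI sym mlt fc MC cobV cl)
open Vale.Agent.P159.H896 (pinK kap)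
open Vale.Agent.P159.H963 (PinC)
open scoped Real ComplexConjugate

noncomputable section

section gen

variable {V' : Type} [Fintype V'] {w : (V' → ℤ) → ℝ} {M : Matrix V' V' ℝ}

/-- `∫₀¹ log Z(F + c) dc` -/
def Wb (w : (V' → ℤ) → ℝ) (M : Matrix V' V' ℝ) (F : V' → ℝ) : ℝ :=
  ∫ c in (0 : ℝ)..1, LM w M (cs F c)

/-- its first derivative -/
def dWb (w : (V' → ℤ) → ℝ) (M : Matrix V' V' ℝ) (F g : V' → ℝ) : ℝ :=
  ∫ c in (0 : ℝ)..1, dL w M (cs F c) g

/-- `log Z⁰ - Wb` -/
def Bf (w : (V' → ℤ) → ℝ) (M : Matrix V' V' ℝ) (F : V' → ℝ) : ℝ := L0 w M F - Wb w M F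

lemma ph_zero (c : ℝ) : ph 0 c = 1 := by
  unfold H896.ph
  simp

lemma Wq_zero (F : V' → ℝ) : Wq w M 0 F = (Wb w M F : ℂ) := by
  unfold H43.Wq Wb
  rw [← intervalIntegral.integral_ofReal]
  exact intervalIntegral.integral_congr fun c _ => by simp only [ph_zero, mul_one]

lemma dW_zero (F g : V' → ℝ) : dW w M 0 F g = (dWb w M F g : ℂ) := by
  unfold H43.dW dWb
  rw [← intervalIntegral.integral_ofReal]
  exact intervalIntegral.integral_congr fun c _ => by simp only [ph_zero, mul_one]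

theorem hasDerivAt_Wb (hM : M.transpose = M) (hE : EM (wM w M)) (F g : V' → ℝ) (r : ℝ) :
    HasDerivAt (fun r : ℝ => Wb w M (F + r • g)) (dWb w M (F + r • g) g) r := by
  have h := H43.hasDerivAt_Wq hM hE 0 F g r
  simp only [Wq_zero, dW_zero] at h
  have h2 := Complex.reCLM.hasFDerivAt.comp_hasDerivAt r h
  have e1 : (⇑Complex.reCLM ∘ fun r : ℝ => ((Wb w M (F + r • g) : ℝ) : ℂ)) =
      fun r : ℝ => Wb w M (F + r • g) := by
    funext s
    simp
  rw [e1] at h2
  simpa using h2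

lemma Wb_cs (hp : H145.Per w) (F : V' → ℝ) (c : ℝ) : Wb w M (cs F c) = Wb w M F := by
  have hper := H43.LM_periodic (M := M) hp F
  have h1 : Wb w M (cs F c) = ∫ d in (0 : ℝ)..1, LM w M (cs F (d + c)) := by
    unfold Wb
    refine intervalIntegral.integral_congr fun d _ => ?_
    show LM w M (cs (cs F c) d) = LM w M (cs F (d + c))
    congr 1
    funext x
    unfold H145.cs
    ring
  rw [h1, intervalIntegral.integral_comp_add_right (fun d => LM w M (cs F d))]
  unfold Wb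
  have h2 := hper.intervalIntegral_add_eq c 0
  rw [zero_add] at h2 ⊢
  rw [add_comm 1 c]
  exact h2

lemma continuous_Wb (hM : M.transpose = M) (hE : EM (wM w M)) : Continuous (Wb w M) := by
  unfold Wb
  have h1 : Continuous (Function.uncurry fun (F : V' → ℝ) (c : ℝ) => LM w M (cs F c)) := by
    have h2 : Continuous fun p : (V' → ℝ) × ℝ => cs p.1 p.2 := by
      refine continuous_pi fun x => ?_
      simp only [cs]
      fun_prop
    exact (H43.continuous_LM hM hE).comp h2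
  exact intervalIntegral.continuous_parametric_intervalIntegral_of_continuous' h1 0 1

lemma continuous_dWb (hM : M.transpose = M) (hE : EM (wM w M)) (g : V' → ℝ) :
    Continuous fun F => dWb w M F g := by
  unfold dWb
  have h1 : Continuous (Function.uncurry fun (F : V' → ℝ) (c : ℝ) => dL w M (cs F c) g) := by
    have h2 : Continuous fun p : (V' → ℝ) × ℝ => cs p.1 p.2 := by
      refine continuous_pi fun x => ?_
      simp only [cs]
      fun_prop
    exact (H43.continuous_dL hE g).comp h2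
  exact intervalIntegral.continuous_parametric_intervalIntegral_of_continuous' h1 0 1

/-- `Z(F + c)/Z⁰(F) - 1` -/
def zt (w : (V' → ℤ) → ℝ) (M : Matrix V' V' ℝ) (F : V' → ℝ) (c : ℝ) : ℝ :=
  Real.exp (el w M F c) - 1

lemma continuous_zt (hM : M.transpose = M) (hE : EM (wM w M)) (F : V' → ℝ) :
    Continuous (zt w M F) :=
  (Real.continuous_exp.comp (H43.continuous_el hM hE F)).sub continuous_const

lemma int_zt (hM : M.transpose = M) (hE : EM (wM w M)) (F : V' → ℝ) :
    ∫ c in (0 : ℝ)..1, zt w M F c = 0 := by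
  unfold zt
  have c1 : Continuous fun c => Real.exp (el w M F c) :=
    Real.continuous_exp.comp (H43.continuous_el hM hE F)
  rw [intervalIntegral.integral_sub (c1.intervalIntegrable _ _)
    (continuous_const.intervalIntegrable _ _), H43.int_exp_el hM hE]
  simp

lemma zt_eq (hw : WM w M) (F : V' → ℝ) (c : ℝ) :
    zt w M F c = ZM w M (cs F c) / Zn w M F - 1 := by
  unfold zt
  rw [H43.exp_el hw.sym hw.em]

lemma zt_le (hw : WM w M) (F : V' → ℝ) (c : ℝ) : |zt w M F c| ≤ omT w M := by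
  rw [zt_eq hw]
  have h0 := H896.Zn_pos hw F
  have h1 := H43.oscZ_omT hw (cs F c) 0 ⟨le_rfl, zero_le_one⟩
  rw [H145.cs_zero, H145.Zn_cs hw.per] at h1
  have h2 : ZM w M (cs F c) / Zn w M F - 1 =
      (ZM w M (cs F c) - Zn w M F) / Zn w M F := by
    field_simp
  rw [h2, abs_div, abs_of_pos h0, div_le_iff₀ h0]
  exact h1

lemma Bf_eq (hM : M.transpose = M) (hE : EM (wM w M)) (F : V' → ℝ) :
    Bf w M F = ∫ c in (0 : ℝ)..1, -Real.log (1 + zt w M F c) := by
  unfold Bf Wb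
  have c2 : Continuous fun c : ℝ => LM w M (cs F c) :=
    (H43.continuous_LM hM hE).comp (H145.continuous_cs F)
  have h1 : ∀ c, -Real.log (1 + zt w M F c) = L0 w M F - LM w M (cs F c) := by
    intro c
    unfold zt
    rw [add_sub_cancel, Real.log_exp]
    unfold H43.el
    ring
  simp only [h1]
  rw [intervalIntegral.integral_sub (continuous_const.intervalIntegrable _ _)
    (c2.intervalIntegrable _ _)]
  simp

/-- third order Taylor of `-log (1 + x)` -/
lemma neglog_le {x : ℝ} (hx : |x| ≤ 1 / 2) : |-Real.log (1 + x) + x - x ^ 2 / 2| ≤ 2 * |x| ^ 3 := by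
  have h1 := Real.abs_log_sub_add_sum_range_le (x := -x) (by rw [abs_neg]; linarith) 2
  simp only [Finset.sum_range_succ, Finset.sum_range_zero, abs_neg] at h1
  have h2 : (0 : ℝ) + (-x) ^ (0 + 1) / ((0 : ℕ) + 1 : ℝ) + (-x) ^ (1 + 1) / ((1 : ℕ) + 1 : ℝ) +
      Real.log (1 - -x) = -(-Real.log (1 + x) + x - x ^ 2 / 2) := by
    rw [sub_neg_eq_add]
    push_cast
    ring
  rw [h2, abs_neg] at h1
  refine h1.trans ?_
  have h3 : 0 ≤ |x| := abs_nonneg x
  rw [div_le_iff₀ (by linarith)]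
  have h4 : 0 ≤ |x| ^ 3 := by positivity
  norm_num
  nlinarith

variable (w M) in
/-- mean square of `zt` -/
def zt2 (F : V' → ℝ) : ℝ := ∫ c in (0 : ℝ)..1, zt w M F c ^ 2

lemma Bf_sub_zt2 (hw : WM w M) (h1 : omT w M ≤ 1 / 2) (F : V' → ℝ) :
    |Bf w M F - zt2 w M F / 2| ≤ 2 * omT w M ^ 3 := by
  have hc := continuous_zt hw.sym hw.em F
  have hpos : ∀ c, 0 < 1 + zt w M F c := fun c => by
    have := (abs_le.1 ((zt_le hw F c).trans h1)).1
    linarith
  have hcl : Continuous fun c => -Real.log (1 + zt w M F c) :=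
    ((continuous_const.add hc).log fun c => (hpos c).ne').neg
  have e : Bf w M F - zt2 w M F / 2 =
      ∫ c in (0 : ℝ)..1, (-Real.log (1 + zt w M F c) + zt w M F c - zt w M F c ^ 2 / 2) := by
    rw [Bf_eq hw.sym hw.em]
    unfold zt2
    have i1 : IntervalIntegrable (fun c => -Real.log (1 + zt w M F c) + zt w M F c) volume 0 1 :=
      (hcl.add hc).intervalIntegrable _ _
    have i2 : IntervalIntegrable (fun c => zt w M F c ^ 2 / 2) volume 0 1 :=
      ((hc.pow 2).div_const 2).intervalIntegrable _ _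
    have i3 : IntervalIntegrable (fun c => -Real.log (1 + zt w M F c)) volume 0 1 :=
      hcl.intervalIntegrable _ _
    have i4 : IntervalIntegrable (fun c => zt w M F c) volume 0 1 := hc.intervalIntegrable _ _
    rw [intervalIntegral.integral_sub i1 i2, intervalIntegral.integral_add i3 i4,
      int_zt hw.sym hw.em, intervalIntegral.integral_div, add_zero]
  rw [e]
  have h2 := intervalIntegral.norm_integral_le_of_norm_le_const (a := (0 : ℝ)) (b := 1)
    (f := fun c => -Real.log (1 + zt w M F c) + zt w M F c - zt w M F c ^ 2 / 2)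
    (C := 2 * omT w M ^ 3) (fun c _ => by
      rw [Real.norm_eq_abs]
      have h3 := zt_le hw F c
      refine (neglog_le (h3.trans h1)).trans ?_
      have := pow_le_pow_left₀ (abs_nonneg _) h3 3
      linarith)
  simpa using h2

lemma zt2_nonneg (F : V' → ℝ) : 0 ≤ zt2 w M F :=
  intervalIntegral.integral_nonneg zero_le_one fun c _ => sq_nonneg _

lemma zt2_le (hw : WM w M) (F : V' → ℝ) : zt2 w M F ≤ omT w M ^ 2 := by
  have h2 := intervalIntegral.norm_integral_le_of_norm_le_const (a := (0 : ℝ)) (b := 1)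
    (f := fun c => zt w M F c ^ 2) (C := omT w M ^ 2) (fun c _ => by
      rw [norm_pow, Real.norm_eq_abs]
      exact pow_le_pow_left₀ (abs_nonneg _) (zt_le hw F c) 2)
  have h3 := le_abs_self (zt2 w M F)
  simp only [sub_zero, abs_one, mul_one, Real.norm_eq_abs] at h2
  exact h3.trans h2

theorem Bf_nonneg (hw : WM w M) (h1 : omT w M ≤ 1 / 2) (F : V' → ℝ) : 0 ≤ Bf w M F := by
  rw [Bf_eq hw.sym hw.em]
  have hc := continuous_zt hw.sym hw.em F
  have hpos : ∀ c, 0 < 1 + zt w M F c := fun c => by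
    have := (abs_le.1 ((zt_le hw F c).trans h1)).1
    linarith
  have hcl : Continuous fun c => -Real.log (1 + zt w M F c) :=
    ((continuous_const.add hc).log fun c => (hpos c).ne').neg
  have h2 : (∫ c in (0 : ℝ)..1, -zt w M F c) ≤ ∫ c in (0 : ℝ)..1, -Real.log (1 + zt w M F c) := by
    refine intervalIntegral.integral_mono_on zero_le_one (hc.neg.intervalIntegrable _ _)
      (hcl.intervalIntegrable _ _) fun c _ => ?_
    have := Real.log_le_sub_one_of_pos (hpos c)
    linarith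
  rw [intervalIntegral.integral_neg, int_zt hw.sym hw.em, neg_zero] at h2
  exact h2

/-- **`0 ≤ Bf ≤ 2 omT²`** for all fields -/
theorem Bf_le (hw : WM w M) (h1 : omT w M ≤ 1 / 2) (F : V' → ℝ) :
    Bf w M F ≤ 2 * omT w M ^ 2 := by
  have h2 := (abs_le.1 (Bf_sub_zt2 hw h1 F)).2
  have h3 := zt2_le hw F
  have h4 := H43.omT_nonneg hw
  nlinarith [sq_nonneg (omT w M)]

lemma Phq_cs (hw : WM w M) (F : V' → ℝ) (c : ℝ) :
    Phq w M 1 (cs F c) = ph (-1) c * Phq w M 1 F := by
  unfold H43.Phq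
  have h1 := H896.Zq_shift hw 1 F c
  have h2 : Zq w M 1 (cs F c) = ph (-1) c * Zq w M 1 F := h1
  rw [h2, H145.Zn_cs hw.per, mul_div_assoc]

lemma int_ph_sq (z : ℂ) :
    ∫ c in (0 : ℝ)..1, (2 * (ph (-1) c * z).re) ^ 2 = 2 * ‖z‖ ^ 2 := by
  have e : ∀ c : ℝ, (2 * (ph (-1) c * z).re) ^ 2 =
      2 * ‖z‖ ^ 2 + 2 * (ph (-2) c * z ^ 2).re := by
    intro c
    have h1 : ph (-2) c = ph (-1) c * ph (-1) c := by
      unfold H896.ph
      rw [← Complex.exp_add]
      congr 1
      push_cast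
      ring
    have h2 : ‖ph (-1) c * z‖ = ‖z‖ := by rw [norm_mul, H896.norm_ph, one_mul]
    set u := ph (-1) c * z with hu
    have h3 : ph (-2) c * z ^ 2 = u ^ 2 := by rw [h1, hu]; ring
    rw [← h2]
    have h4 : ‖u‖ ^ 2 = u.re ^ 2 + u.im ^ 2 := by
      rw [← Complex.normSq_eq_norm_sq, Complex.normSq_apply]
      ring
    have h5 : (u ^ 2).re = u.re ^ 2 - u.im ^ 2 := by
      rw [pow_two, Complex.mul_re]
      ring
    rw [h3, h4, h5]
    ring
  simp only [e]
  have c1 : Continuous fun c : ℝ => 2 * (ph (-2) c * z ^ 2).re := by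
    have := H896.continuous_ph (-2)
    fun_prop
  rw [intervalIntegral.integral_add (continuous_const.intervalIntegrable _ _)
    (c1.intervalIntegrable _ _), intervalIntegral.integral_const_mul 2
      (fun c : ℝ => (ph (-2) c * z ^ 2).re)]
  have h6 : ∫ c in (0 : ℝ)..1, (ph (-2) c * z ^ 2).re = 0 := by
    have h7 : ∫ c in (0 : ℝ)..1, ph (-2) c * z ^ 2 = 0 := by
      rw [intervalIntegral.integral_mul_const, H43.int_ph (-2) (by norm_num), zero_mul]
    have c2 : Continuous fun c : ℝ => ph (-2) c * z ^ 2 := by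
      have := H896.continuous_ph (-2)
      fun_prop
    have h8 := Complex.reCLM.intervalIntegral_comp_comm (c2.intervalIntegrable 0 1)
      (μ := volume)
    rw [h7] at h8
    simpa using h8
  rw [h6]
  simp

theorem zt2_sub (hw : WM w M) (F : V' → ℝ) :
    |zt2 w M F / 2 - ‖Phq w M 1 F‖ ^ 2| ≤ omT w M * omH w M + omH w M ^ 2 := by
  have hH := H43.omH_nonneg hw
  have hT := H43.omT_nonneg hw
  have hc := continuous_zt hw.sym hw.em F
  have c1 : Continuous fun c : ℝ => 2 * (ph (-1) c * Phq w M 1 F).re := by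
    have := H896.continuous_ph (-1)
    fun_prop
  have e : zt2 w M F / 2 - ‖Phq w M 1 F‖ ^ 2 = (1 / 2) * ∫ c in (0 : ℝ)..1,
      (zt w M F c ^ 2 - (2 * (ph (-1) c * Phq w M 1 F).re) ^ 2) := by
    have i1 : IntervalIntegrable (fun c => zt w M F c ^ 2) volume 0 1 :=
      (hc.pow 2).intervalIntegrable _ _
    have i2 : IntervalIntegrable (fun c => (2 * (ph (-1) c * Phq w M 1 F).re) ^ 2) volume 0 1 :=
      (c1.pow 2).intervalIntegrable _ _
    rw [intervalIntegral.integral_sub i1 i2, int_ph_sq]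
    unfold zt2
    ring
  have h2 := intervalIntegral.norm_integral_le_of_norm_le_const (a := (0 : ℝ)) (b := 1)
    (f := fun c => zt w M F c ^ 2 - (2 * (ph (-1) c * Phq w M 1 F).re) ^ 2)
    (C := omH w M * (2 * omT w M + omH w M)) (fun c _ => by
      rw [Real.norm_eq_abs]
      have h3 := zt_le hw F c
      have h4 : |zt w M F c - 2 * (ph (-1) c * Phq w M 1 F).re| ≤ omH w M := by
        have h5 := H43.Z_sub_le hw (cs F c)
        rw [Phq_cs hw, H145.Zn_cs hw.per, ← zt_eq hw] at h5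
        exact h5
      have h6 : |2 * (ph (-1) c * Phq w M 1 F).re| ≤ omT w M + omH w M := by
        have := abs_sub_abs_le_abs_sub (2 * (ph (-1) c * Phq w M 1 F).re) (zt w M F c)
        rw [abs_sub_comm] at this
        linarith
      rw [sq_sub_sq, abs_mul, mul_comm]
      refine mul_le_mul h4 ((abs_add_le _ _).trans (by linarith)) (abs_nonneg _) hH)
  rw [e, abs_mul, abs_of_pos (by norm_num : (0 : ℝ) < 1 / 2)]
  simp only [sub_zero, abs_one, mul_one, Real.norm_eq_abs] at h2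
  nlinarith [mul_nonneg hT hH]

/-- **`Bf = |Φ₁|²` up to third order** -/
theorem Bf_sub (hw : WM w M) (h1 : omT w M ≤ 1 / 2) (F : V' → ℝ) :
    |Bf w M F - ‖Phq w M 1 F‖ ^ 2| ≤
      2 * omT w M ^ 3 + omT w M * omH w M + omH w M ^ 2 := by
  have h2 := Bf_sub_zt2 hw h1 F
  have h3 := zt2_sub hw F
  have e : Bf w M F - ‖Phq w M 1 F‖ ^ 2 =
      (Bf w M F - zt2 w M F / 2) + (zt2 w M F / 2 - ‖Phq w M 1 F‖ ^ 2) := by ring
  rw [e]
  refine (abs_add_le _ _).trans ?_
  linarith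

end gen

/-! ### the letters on the cell torus -/

section torus

variable {N l : ℕ} [NeZero N] [NeZero (N / l)] {b T : ℝ}

/-- constant-averaged `log Z` of a cell field at scalar mass `T` -/
def Wbl (N l : ℕ) [NeZero N] [NeZero (N / l)] (b T : ℝ) (F : V (N / l) → ℝ) : ℝ :=
  Wb (wT b N) (MC N l T T) (lf N l F)

/-- `log Z⁰ - Wbl` -/
def Bfl (N l : ℕ) [NeZero N] [NeZero (N / l)] (b T : ℝ) (F : V (N / l) → ℝ) : ℝ :=
  Bf (wT b N) (MC N l T T) (lf N l F)

/-- local neutral remainder, `W - W(0) + F A F / 2` -/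
def V0l (N l : ℕ) [NeZero N] [NeZero (N / l)] (b T : ℝ) (F : V (N / l) → ℝ) : ℝ :=
  Wbl N l b T F - Wbl N l b T 0 + qf (acl N l b T T) F / 2

/-- first derivative of `Wbl` in the direction of the cell `x` -/
def Mx (N l : ℕ) [NeZero N] [NeZero (N / l)] (b T : ℝ) (x : V (N / l)) (F : V (N / l) → ℝ) : ℝ :=
  dWb (wT b N) (MC N l T T) (lf N l F) (H552.idc (cl : V N → V (N / l)) x)

/-- `|ĝ(k)|² / n² - 1` -/
def hk {n : ℕ} [NeZero n] (k : V n) (g : V n → ℝ) : ℝ :=
  ((n : ℝ) ^ 2)⁻¹ * ∑ x, ∑ y, g x * g y * cN (dt k (x - y)) - 1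

/-- mean of `u hk` in the law of `C g` -/
def mh {n : ℕ} [NeZero n] (C : Matrix (V n) (V n) ℝ) (u : (V n → ℝ) → ℝ) (k : V n) : ℝ :=
  ∫ g, u (C *ᵥ g) * hk k g ∂(gau (V n))

/-- **the kernel** `q(z) = - E ∂₀ ∂_z Wbl` (one integration by parts), typical pinned law -/
def qz (N l : ℕ) [NeZero N] [NeZero (N / l)] (b T : ℝ) (z : V (N / l)) : ℝ :=
  -∫ g, Mx N l b T 0 (pin (acl N l b T T) *ᵥ g) *
    (acl N l b T T *ᵥ (pin (acl N l b T T) *ᵥ g)) z ∂(gau (V (N / l)))

/-- **the sharp letter** : half of the second moment of `-q` -/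
def aq (N l : ℕ) [NeZero N] [NeZero (N / l)] (b T : ℝ) : ℝ :=
  -(1 / 2) * ∑ z : V (N / l), (z.1.valMinAbs : ℝ) ^ 2 * qz N l b T z

lemma lf_zero : lf N l (0 : V (N / l) → ℝ) = 0 := rfl

/-- `V0 = R - (B - B(0))` -/
lemma V0l_eq (hb : 0 ≤ b) (hl : l ∣ N) (hT : 0 < T) (F : V (N / l) → ℝ) :
    V0l N l b T F = Rcl N l b T T F - (Bfl N l b T F - Bfl N l b T 0) := by
  have hw := wm_MC (b := b) hb hl hT (le_refl T)
  have h1 := H363.Zn_lf (b := b) hb hl hT (le_refl T) F
  have h0 := H896.Zn_pos hw (0 : V N → ℝ)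
  have h2 : L0 (wT b N) (MC N l T T) (lf N l F) = L0 (wT b N) (MC N l T T) 0 +
      (-(qf (acl N l b T T) F / 2) + Rcl N l b T T F) := by
    unfold H145.L0
    rw [h1, Real.log_mul h0.ne' (mul_pos (Real.exp_pos _) (Real.exp_pos _)).ne', ← Real.exp_add,
      Real.log_exp]
  unfold V0l Bfl Wbl Bf
  rw [h2, lf_zero]
  ring

lemma Bfl_nonneg (hb : 0 ≤ b) (hl : l ∣ N) (hT : 0 < T) (h1 : oT N l b T ≤ 1 / 2)
    (F : V (N / l) → ℝ) : 0 ≤ Bfl N l b T F :=
  Bf_nonneg (wm_MC hb hl hT (le_refl T)) h1 _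

lemma Bfl_le (hb : 0 ≤ b) (hl : l ∣ N) (hT : 0 < T) (h1 : oT N l b T ≤ 1 / 2)
    (F : V (N / l) → ℝ) : Bfl N l b T F ≤ 2 * oT N l b T ^ 2 :=
  Bf_le (wm_MC hb hl hT (le_refl T)) h1 _

/-- the error of `Bf = |Φ|²` -/
def oB (N l : ℕ) [NeZero N] [NeZero (N / l)] (b T : ℝ) : ℝ :=
  2 * oT N l b T ^ 3 + oT N l b T * omH (wT b N) (MC N l T T) + omH (wT b N) (MC N l T T) ^ 2

theorem Bfl_sub (hb : 0 ≤ b) (hl : l ∣ N) (hT : 0 < T) (h1 : oT N l b T ≤ 1 / 2)
    (F : V (N / l) → ℝ) : |Bfl N l b T F - ‖Phl N l b T F‖ ^ 2| ≤ oB N l b T :=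
  Bf_sub (wm_MC hb hl hT (le_refl T)) h1 _

lemma continuous_Wbl (hb : 0 ≤ b) (hl : l ∣ N) (hT : 0 < T) : Continuous (Wbl N l b T) := by
  have hw := wm_MC (b := b) hb hl hT (le_refl T)
  exact (continuous_Wb hw.sym hw.em).comp H363.continuous_lf

lemma continuous_V0l (hb : 0 ≤ b) (hl : l ∣ N) (hT : 0 < T) : Continuous (V0l N l b T) := by
  have h := continuous_Wbl (N := N) (l := l) hb hl hT
  have h2 : Continuous fun F : V (N / l) → ℝ => qf (acl N l b T T) F := by
    unfold H37.qf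
    fun_prop
  exact (h.sub continuous_const).add (h2.div_const 2)

lemma continuous_Bfl (hb : 0 ≤ b) (hl : l ∣ N) (hT : 0 < T) : Continuous (Bfl N l b T) := by
  have hw := wm_MC (b := b) hb hl hT (le_refl T)
  have h2 : Continuous fun F : V (N / l) → ℝ => L0 (wT b N) (MC N l T T) (lf N l F) :=
    ((H363.continuous_Zn hw).comp H363.continuous_lf).log fun F => (H896.Zn_pos hw _).ne'
  exact h2.sub (continuous_Wbl hb hl hT)

lemma continuous_Mx (hb : 0 ≤ b) (hl : l ∣ N) (hT : 0 < T) (x : V (N / l)) :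
    Continuous (Mx N l b T x) := by
  have hw := wm_MC (b := b) hb hl hT (le_refl T)
  exact (continuous_dWb hw.sym hw.em _).comp H363.continuous_lf

/-- derivative of `Wbl` in a cell direction -/
theorem hasDerivAt_Wbl (hb : 0 ≤ b) (hl : l ∣ N) (hT : 0 < T) (x : V (N / l))
    (F : V (N / l) → ℝ) (r : ℝ) :
    HasDerivAt (fun r : ℝ => Wbl N l b T (F + r • Pi.single x 1))
      (Mx N l b T x (F + r • Pi.single x 1)) r := by
  have hw := wm_MC (b := b) hb hl hT (le_refl T)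
  have e : ∀ r : ℝ, lf N l (F + r • Pi.single x 1) =
      lf N l F + r • H552.idc (cl : V N → V (N / l)) x := by
    intro r
    funext v
    unfold H363.lf H552.idc
    simp only [Pi.add_apply, Pi.smul_apply, smul_eq_mul, Pi.single_apply]
  have h := hasDerivAt_Wb (w := wT b N) (M := MC N l T T) hw.sym hw.em (lf N l F)
    (H552.idc (cl : V N → V (N / l)) x) r
  unfold Wbl Mx
  simp only [e]
  exact h

lemma Wbl_const (hb : 0 ≤ b) (hl : l ∣ N) (hT : 0 < T) (F : V (N / l) → ℝ) (c : ℝ) :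
    Wbl N l b T (fun x => F x + c) = Wbl N l b T F := by
  have hw := wm_MC (b := b) hb hl hT (le_refl T)
  exact Wb_cs hw.per (lf N l F) c

end torus

end

end Vale.Agent.P159.H462
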