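import Vale.Agent.P159.H462.Q1
import Vale.Agent.P159.H708.Stein
import Vale.Agent.P159.H159.Grow

/-!
P159 (helper462), P#, constant-averaged letters, part 2: growth, derivatives in all directions,
translation covariance, Gaussian integration by parts: **the transform of the kernel `qz`**.
-/

set_option linter.unusedSectionVars false
set_option linter.unusedVariables false

namespace Vale.Agent.P159.H462

open Finset MeasureTheory Matrix
open Vale.Agent.P159.TM.H104 (EM Ex Cv K3 Lg li nh Gr)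
open Vale.Agent.P159.H37
open Vale.Agent.P159.H896 (Ph WM om ph)
open Vale.Agent.P159.H43 (omT omH Phq Wq dW dL dL0 el el1)
open Vale.Agent.P159.H145 (LM L0 cs OscZ mt)
open Vale.Agent.P159.H363 (mainf ee Ch lf acl ti_acl Rcl Rcl_nonneg sym_acl_nonneg gm ti_gm pin ti_pin
  sym_pin Wcl one_le_Wcl wm_MC Nf sh sh_mulVec gau_permE sh_eq)
open Vale.Agent.P159.TM.Spec (V)
open Vale.Agent.P159.TM.SpecC (Tor wT)
open Vale.Agent.P159.TM.H764 (EE cN dt)
open Vale.Agent.P159.H864 (TI sym mlt fc MC cobV cl tra up CT)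
open Vale.Agent.P159.H896 (pinK kap)
open Vale.Agent.P159.H963 (PinC)
open Vale.Agent.P159.H552 (lft idc)
open Vale.Agent.P159.H159 (GT egr_Ex egr_Lg egr_bf egr_qf egr_sum egr_coord egr_lin gt_wM)
open scoped Real ComplexConjugate

noncomputable section

/-! ### growth -/

section grow

variable {V' : Type} [Fintype V'] {w : (V' → ℤ) → ℝ} {M : Matrix V' V' ℝ}

/-- average over the constant -/
lemma egr_int {Φ : (V' → ℝ) → ℝ} (hΦ : EGr Φ) (hc : Continuous Φ) :
    EGr fun F => ∫ c in (0 : ℝ)..1, Φ (cs F c) := by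
  obtain ⟨C, hC, h⟩ := hΦ.bdd
  have h1 : Continuous (Function.uncurry fun (F : V' → ℝ) (c : ℝ) => Φ (cs F c)) := by
    have h2 : Continuous fun p : (V' → ℝ) × ℝ => cs p.1 p.2 := by
      refine continuous_pi fun x => ?_
      simp only [cs]
      fun_prop
    exact hc.comp h2
  have hm : Continuous fun F => ∫ c in (0 : ℝ)..1, Φ (cs F c) :=
    intervalIntegral.continuous_parametric_intervalIntegral_of_continuous' h1 0 1
  refine EGr.mk' hm.measurable (A := C * Real.exp (C * Fintype.card V')) (B := C) fun F => ?_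
  have h3 := intervalIntegral.norm_integral_le_of_norm_le_const (a := (0 : ℝ)) (b := 1)
    (f := fun c => Φ (cs F c)) (C := C * Real.exp (C * Fintype.card V') *
      Real.exp (C * ∑ x, |F x|)) (fun c hc => by
      rw [Real.norm_eq_abs]
      refine (h _).trans ?_
      rw [mul_assoc, ← Real.exp_add, ← mul_add]
      refine mul_le_mul_of_nonneg_left (Real.exp_le_exp.2
        (mul_le_mul_of_nonneg_left ?_ hC)) hC
      rw [Set.uIoc_of_le zero_le_one] at hc
      have e : (Fintype.card V' : ℝ) = ∑ _x : V', (1 : ℝ) := by simp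
      rw [e, ← Finset.sum_add_distrib]
      refine Finset.sum_le_sum fun x _ => ?_
      unfold H145.cs
      refine (abs_add_le _ _).trans ?_
      rw [abs_of_pos hc.1]
      linarith [hc.2])
  simpa using h3

/-- functions of a lifted cell field -/
lemma egr_lft {Λ : Type} [Fintype Λ] {cl : V' → Λ} {Φ : (V' → ℝ) → ℝ} (hΦ : EGr Φ) :
    EGr fun F : Λ → ℝ => Φ (lft cl F) := by
  obtain ⟨C, hC, h⟩ := hΦ.bdd
  have hm : Measurable fun F : Λ → ℝ => lft cl F :=
    measurable_pi_lambda _ fun v => measurable_pi_apply _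
  refine EGr.mk' (hΦ.meas.comp hm) (A := C) (B := C * Fintype.card V') fun F => ?_
  refine (h _).trans (mul_le_mul_of_nonneg_left (Real.exp_le_exp.2 ?_) hC)
  rw [mul_assoc]
  refine mul_le_mul_of_nonneg_left ?_ hC
  calc ∑ v, |lft cl F v| ≤ ∑ _v : V', ∑ x, |F x| := by
        refine Finset.sum_le_sum fun v _ => ?_
        exact Finset.single_le_sum (f := fun x => |F x|) (fun _ _ => abs_nonneg _)
          (Finset.mem_univ (cl v))
    _ = Fintype.card V' * ∑ x, |F x| := by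
        rw [Finset.sum_const, Finset.card_univ, nsmul_eq_mul]

lemma egr_mv {Φ : (V' → ℝ) → ℝ} (hΦ : EGr Φ) {W : Type*} [Fintype W] (A : Matrix V' W ℝ) :
    EGr fun J : W → ℝ => Φ (A *ᵥ J) := by
  have := egr_lin hΦ 0 A
  simpa only [zero_add] using this

lemma egr_LM (hM : M.transpose = M) (hE : EM (wM w M)) (hG : GT (wM w M)) :
    EGr fun F => LM w M F := by
  have e : (fun F => LM w M F) = fun F => Lg (wM w M) (M *ᵥ F) - (1 / 2) * qf M F := by
    funext F
    rw [H145.LM_eq hM hE]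
    ring
  rw [e]
  exact (egr_mv (egr_Lg hE hG) M).sub ((egr_qf M).cmul _)

lemma egr_dL (hM : M.transpose = M) (hE : EM (wM w M)) (hG : GT (wM w M)) (g : V' → ℝ) :
    EGr fun F => dL w M F g := by
  unfold H43.dL
  have h1 : EGr fun F => bf M F g := by
    have e : (fun F => bf M F g) = fun F => ∑ x, F x * (M *ᵥ g) x := by
      funext F
      rw [H37.bf_eq]
      rfl
    rw [e]
    exact egr_sum _ fun x _ => (egr_coord x).mul (EGr.const _)
  exact (egr_mv (egr_Ex hE hG (Gr.li (M.mulVec g))) M).sub h1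

end grow

/-! ### directions and symmetries -/

section dir

variable {V' : Type} [Fintype V'] {w : (V' → ℤ) → ℝ} {M : Matrix V' V' ℝ}

lemma dWb_lft (hM : M.transpose = M) (hE : EM (wM w M)) {Λ : Type} [Fintype Λ] [DecidableEq Λ]
    {cl : V' → Λ} (F : V' → ℝ) (G : Λ → ℝ) :
    dWb w M F (lft cl G) = ∑ x, G x * dWb w M F (idc cl x) := by
  have h1 : ∀ g, ((dWb w M F g : ℝ) : ℂ) = dW w M 0 F g := fun g => (dW_zero F g).symm
  have h2 : ((dWb w M F (lft cl G) : ℝ) : ℂ) = ((∑ x, G x * dWb w M F (idc cl x) : ℝ) : ℂ) := by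
    classical
    rw [h1, H363.lft_eq_sum G, H43.dW_sum_dir hM hE]
    push_cast
    refine Finset.sum_congr rfl fun x _ => ?_
    rw [H363.dW_smul_dir, h1]
  exact_mod_cast h2

lemma dWb_sym (h : WM w M) (e : V' ≃ V') (hw : ∀ h : V' → ℤ, w (fun v => h (e v)) = w h)
    (hM : ∀ x y, M (e x) (e y) = M x y) (F g : V' → ℝ) :
    dWb w M (fun v => F (e v)) (fun v => g (e v)) = dWb w M F g := by
  have h1 := H43.dW_sym h e hw hM 0 F g
  rw [dW_zero, dW_zero] at h1
  exact_mod_cast h1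

end dir

section torus

variable {N l : ℕ} [NeZero N] [NeZero (N / l)] {b T : ℝ}

lemma gt_MC (hb : 0 ≤ b) (hl : l ∣ N) (hT : 0 < T) : GT (wM (wT b N) (MC N l T T)) := by
  refine gt_wM (H789.wT_le hb) hT fun u => ?_
  rw [H864.MC_self]
  refine le_of_eq ?_
  rw [H37.qf_eq, smul_mulVec, one_mulVec, dotProduct_smul, smul_eq_mul]
  congr 1
  exact Finset.sum_congr rfl fun x _ => pow_two _

/-- derivative in all directions -/
theorem hasDerivAt_Wbl' (hb : 0 ≤ b) (hl : l ∣ N) (hT : 0 < T) (F G : V (N / l) → ℝ) :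
    HasDerivAt (fun r : ℝ => Wbl N l b T (F + r • G)) (∑ x, G x * Mx N l b T x F) 0 := by
  have hw := wm_MC (b := b) hb hl hT (le_refl T)
  have h := hasDerivAt_Wb (w := wT b N) (M := MC N l T T) hw.sym hw.em (lf N l F) (lf N l G) 0
  rw [zero_smul, add_zero] at h
  have e2 : dWb (wT b N) (MC N l T T) (lf N l F) (lf N l G) = ∑ x, G x * Mx N l b T x F :=
    dWb_lft hw.sym hw.em (lf N l F) G
  rw [e2] at h
  exact h

/-- gradient of `V0l` -/
def V0x (N l : ℕ) [NeZero N] [NeZero (N / l)] (b T : ℝ) (x : V (N / l)) (F : V (N / l) → ℝ) : ℝ :=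
  Mx N l b T x F + (acl N l b T T *ᵥ F) x

theorem hasDerivAt_V0l (hb : 0 ≤ b) (hl : l ∣ N) (hT : 0 < T) (F G : V (N / l) → ℝ) :
    HasDerivAt (fun r : ℝ => V0l N l b T (F + r • G)) (∑ x, G x * V0x N l b T x F) 0 := by
  have h1 := hasDerivAt_Wbl' (b := b) hb hl hT F G
  have h2 := (H43.hasDerivAt_qf (ti_acl hb hl hT (le_refl T)).transpose F G 0).div_const 2
  rw [zero_smul, add_zero] at h2
  have h3 := (h1.sub_const (Wbl N l b T 0)).add h2
  unfold V0l V0x
  refine h3.congr_deriv ?_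
  have e : bf (acl N l b T T) F G = ∑ x, G x * (acl N l b T T *ᵥ F) x := by
    rw [H37.bf_eq, dotProduct_mulVec, ← mulVec_transpose, (ti_acl hb hl hT (le_refl T)).transpose,
      dotProduct_comm]
    rfl
  rw [e, mul_div_cancel_left₀ _ (two_ne_zero), ← Finset.sum_add_distrib]
  exact Finset.sum_congr rfl fun x _ => by ring

/-- translation covariance -/
theorem Mx_sh (hb : 0 ≤ b) (hl : l ∣ N) (hT : 0 < T) (a x : V (N / l)) (F : V (N / l) → ℝ) :
    Mx N l b T (x + a) F = Mx N l b T x (sh a F) := by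
  have hw := wm_MC (b := b) hb hl hT (le_refl T)
  have hCT : CT l (MC N l T T) := by
    rw [H864.MC_self]
    exact H864.CT.one.smul T
  have h := dWb_sym hw (tra (up a : V N)) (fun h => H864.tinv_wT b (up a : V N) h)
    (fun u v => hCT.tr a u v) (lf N l F) (idc (cl : V N → V (N / l)) (x + a))
  unfold Mx
  rw [← h]
  have e1 : (fun v => lf N l F (tra (up a : V N) v)) = lf N l (sh a F) := by
    funext v
    show F (cl (tra (up a : V N) v)) = F (cl v + a)
    rw [H864.cl_tra hl, H864.tra_apply]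
  have e2 : (fun v => idc (cl : V N → V (N / l)) (x + a) (tra (up a : V N) v)) =
      idc (cl : V N → V (N / l)) x := by
    funext v
    unfold H552.idc
    rw [H864.cl_tra hl, H864.tra_apply]
    by_cases hv : (cl v : V (N / l)) = x
    · rw [if_pos hv, if_pos (by rw [hv])]
    · rw [if_neg hv, if_neg fun h => hv (add_right_cancel h)]
  rw [e1, e2]

theorem V0x_sh (hb : 0 ≤ b) (hl : l ∣ N) (hT : 0 < T) (a x : V (N / l)) (F : V (N / l) → ℝ) :
    V0x N l b T (x + a) F = V0x N l b T x (sh a F) := by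
  unfold V0x
  rw [Mx_sh hb hl hT]
  congr 1
  exact congrFun (sh_mulVec (ti_acl hb hl hT (le_refl T)) a F) x

lemma egr_Wbl (hb : 0 ≤ b) (hl : l ∣ N) (hT : 0 < T) : EGr (Wbl N l b T) := by
  have hw := wm_MC (b := b) hb hl hT (le_refl T)
  have h1 := egr_int (egr_LM hw.sym hw.em (gt_MC hb hl hT)) (H43.continuous_LM hw.sym hw.em)
  exact egr_lft (cl := (cl : V N → V (N / l))) h1

lemma egr_Mx (hb : 0 ≤ b) (hl : l ∣ N) (hT : 0 < T) (x : V (N / l)) : EGr (Mx N l b T x) := by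
  have hw := wm_MC (b := b) hb hl hT (le_refl T)
  have h1 := egr_int (egr_dL hw.sym hw.em (gt_MC hb hl hT)
    (idc (cl : V N → V (N / l)) x)) (H43.continuous_dL hw.em _)
  exact egr_lft (cl := (cl : V N → V (N / l))) h1

lemma egr_lin' {n : ℕ} [NeZero n] (A : Matrix (V n) (V n) ℝ) (x : V n) :
    EGr fun F : V n → ℝ => (A *ᵥ F) x :=
  egr_mv (egr_coord x) A

lemma egr_V0l (hb : 0 ≤ b) (hl : l ∣ N) (hT : 0 < T) : EGr (V0l N l b T) := by
  have e : V0l N l b T = fun F => Wbl N l b T F - Wbl N l b T 0 +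
      (1 / 2) * qf (acl N l b T T) F := by
    funext F
    unfold V0l
    ring
  rw [e]
  exact ((egr_Wbl hb hl hT).sub (EGr.const _)).add ((egr_qf _).cmul _)

lemma egr_V0x (hb : 0 ≤ b) (hl : l ∣ N) (hT : 0 < T) (x : V (N / l)) : EGr (V0x N l b T x) :=
  (egr_Mx hb hl hT x).add (egr_lin' _ x)

end torus

/-! ### integration by parts -/

section ibp

variable {n : ℕ} [NeZero n]

/-- the form of the mode `k` -/
def Bk (k : V n) : Matrix (V n) (V n) ℝ := Matrix.of fun x y => ((n : ℝ) ^ 2)⁻¹ * cN (dt k (y - x))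

lemma cN_dt_neg (k z : V n) : cN (dt k (-z)) = cN (dt k z) := by
  rw [H864.dt_neg, TM.H764.cN_neg]

lemma ti_Bk (k : V n) : TI (Bk k) :=
  TI.of_ker (K := fun z => ((n : ℝ) ^ 2)⁻¹ * cN (dt k z)) fun z => by rw [cN_dt_neg]

lemma cardVr (n : ℕ) [NeZero n] : (Fintype.card (V n) : ℝ) = (n : ℝ) ^ 2 := by
  rw [card_Vn]
  push_cast
  ring

lemma hk_eq (k : V n) (g : V n → ℝ) : hk k g = ∑ x, g x * (Bk k *ᵥ g) x - 1 := by
  unfold hk Bk
  rw [Finset.mul_sum]
  congr 1
  refine Finset.sum_congr rfl fun x _ => ?_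
  simp only [mulVec, dotProduct, Matrix.of_apply]
  rw [Finset.mul_sum, Finset.mul_sum]
  refine Finset.sum_congr rfl fun y _ => ?_
  rw [← cN_dt_neg k (x - y), neg_sub]
  ring

lemma sum_Bk (k : V n) : ∑ x, Bk k x x = 1 := by
  have h : ∀ x : V n, Bk k x x = ((n : ℝ) ^ 2)⁻¹ := by
    intro x
    unfold Bk
    rw [Matrix.of_apply, sub_self, H864.dt_zero, TM.H764.cN_zero, mul_one]
  rw [Finset.sum_congr rfl fun x _ => h x, Finset.sum_const, Finset.card_univ, nsmul_eq_mul,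
    cardVr]
  exact mul_inv_cancel₀ H864.N_pos.ne'

/-- **integration by parts of the second Hermite function of the mode `k`** -/
theorem herm_ibp {C : Matrix (V n) (V n) ℝ} (hC : TI C) {u : (V n → ℝ) → ℝ}
    {uD : V n → (V n → ℝ) → ℝ} (hu : EGr u) (hD : ∀ z, EGr (uD z))
    (hd : ∀ F G, HasDerivAt (fun r : ℝ => u (F + r • G)) (∑ z, G z * uD z F) 0) (k : V n) :
    mh C u k = ∫ g, ∑ z, (Bk k *ᵥ (C *ᵥ g)) z * uD z (C *ᵥ g) ∂(gau (V n)) := by
  classical
  set U : (V n → ℝ) → ℝ := fun g => u (C *ᵥ g) with hU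
  have eU : EGr U := egr_mv hu C
  have eD : ∀ z, EGr fun g : V n → ℝ => uD z (C *ᵥ g) := fun z => egr_mv (hD z) C
  set Fx : V n → (V n → ℝ) → ℝ := fun x g => (Bk k *ᵥ g) x * U g with hFx
  set Fx' : V n → (V n → ℝ) → ℝ := fun x g =>
    Bk k x x * U g + (Bk k *ᵥ g) x * ∑ z, C z x * uD z (C *ᵥ g) with hFx'
  have e1 : ∀ x, EGr (Fx x) := fun x => (egr_lin' (Bk k) x).mul eU
  have e2 : ∀ x, EGr (Fx' x) := fun x =>
    (eU.cmul _).add ((egr_lin' (Bk k) x).mul (egr_sum _ fun z _ => (eD z).cmul _))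
  have hst : ∀ x, ∫ g, g x * Fx x g ∂(gau (V n)) = ∫ g, Fx' x g ∂(gau (V n)) := by
    intro x
    have h := H708.stein (e1 x) (e2 x) (Pi.single x 1) (fun g => ?_)
    · have e : ∀ g : V n → ℝ, ∑ i, (Pi.single x (1 : ℝ) : V n → ℝ) i * g i = g x := by
        intro g
        simp [Pi.single_apply]
      simp only [e] at h
      exact h
    · have d1 : HasDerivAt (fun s : ℝ => (Bk k *ᵥ (g + s • (Pi.single x (1 : ℝ) : V n → ℝ))) x)
          (Bk k x x) 0 := by
        have e : (fun s : ℝ => (Bk k *ᵥ (g + s • (Pi.single x (1 : ℝ) : V n → ℝ))) x) =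
            fun s => (Bk k *ᵥ g) x + s * Bk k x x := by
          funext s
          rw [mulVec_add, mulVec_smul, Pi.add_apply, Pi.smul_apply, smul_eq_mul,
            mulVec_single_one]
          rfl
        rw [e]
        have := ((hasDerivAt_id (0 : ℝ)).mul_const (Bk k x x)).const_add ((Bk k *ᵥ g) x)
        simpa using this
      have d2 : HasDerivAt (fun s : ℝ => U (g + s • (Pi.single x (1 : ℝ) : V n → ℝ)))
          (∑ z, C z x * uD z (C *ᵥ g)) 0 := by
        have h2 := hd (C *ᵥ g) (C *ᵥ (Pi.single x (1 : ℝ) : V n → ℝ))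
        have e : (fun s : ℝ => U (g + s • (Pi.single x (1 : ℝ) : V n → ℝ))) =
            fun r : ℝ => u (C *ᵥ g + r • (C *ᵥ (Pi.single x (1 : ℝ) : V n → ℝ))) := by
          funext s
          rw [hU]
          simp only
          rw [mulVec_add, mulVec_smul]
        rw [e]
        refine h2.congr_deriv (Finset.sum_congr rfl fun z _ => ?_)
        rw [mulVec_single_one]
        rfl
      have d3 := d1.mul d2
      simp only [zero_smul, add_zero] at d3
      exact d3
  have iU : Integrable U (gau (V n)) := H708.egr_integrable eU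
  have i1 : ∀ x, Integrable (fun g : V n → ℝ => g x * Fx x g) (gau (V n)) := fun x =>
    H708.egr_integrable ((egr_coord x).mul (e1 x))
  have i2 : ∀ x, Integrable (Fx' x) (gau (V n)) := fun x => H708.egr_integrable (e2 x)
  have s1 : mh C u k = ∑ x, ∫ g, g x * Fx x g ∂(gau (V n)) - ∫ g, U g ∂(gau (V n)) := by
    rw [← integral_finsetSum _ fun x _ => i1 x, ← integral_sub (integrable_finsetSum _
      fun x _ => i1 x) iU]
    unfold mh
    refine integral_congr_ae (Filter.Eventually.of_forall fun g => ?_)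
    simp only
    rw [hk_eq, mul_sub, mul_one, Finset.mul_sum]
    congr 1
    refine Finset.sum_congr rfl fun x _ => ?_
    rw [hFx]
    ring
  rw [s1, Finset.sum_congr rfl fun x _ => hst x, ← integral_finsetSum _ fun x _ => i2 x,
    ← integral_sub (integrable_finsetSum _ fun x _ => i2 x) iU]
  refine integral_congr_ae (Filter.Eventually.of_forall fun g => ?_)
  simp only [hFx']
  rw [Finset.sum_add_distrib, ← Finset.sum_mul, sum_Bk, one_mul, add_sub_cancel_left]
  have e3 : Bk k *ᵥ (C *ᵥ g) = C *ᵥ (Bk k *ᵥ g) := by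
    rw [mulVec_mulVec, mulVec_mulVec, (ti_Bk k).comm hC]
  rw [e3]
  have e4 : ∀ z, (C *ᵥ (Bk k *ᵥ g)) z * uD z (C *ᵥ g) =
      ∑ x, (Bk k *ᵥ g) x * (C z x * uD z (C *ᵥ g)) := by
    intro z
    show (∑ x, C z x * (Bk k *ᵥ g) x) * uD z (C *ᵥ g) = _
    rw [Finset.sum_mul]
    exact Finset.sum_congr rfl fun x _ => by ring
  rw [Finset.sum_congr rfl fun z _ => e4 z, Finset.sum_comm]
  refine Finset.sum_congr rfl fun x _ => ?_
  rw [Finset.mul_sum]

end ibp

/-! ### the transform of the kernel -/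

section kernel

variable {N l : ℕ} [NeZero N] [NeZero (N / l)] {b T : ℝ}

/-- `A pin A pin A = 1` off the constants -/
lemma pin_A_pin {n : ℕ} [NeZero n] {A : Matrix (V n) (V n) ℝ} (hA : TI A)
    (h0 : ∀ k, 0 ≤ sym A k) (hp : ∀ k, k ≠ 0 → 0 < sym A k) {B : Matrix (V n) (V n) ℝ}
    (hB : TI B) (hB0 : sym B 0 = 0) : ((pin A) * B * (A * pin A)) = B := by
  refine H864.sym_inj (((ti_pin A).mul hB).mul (hA.mul (ti_pin A))) hB fun k => ?_
  rw [H864.sym_mul ((ti_pin A).mul hB) (hA.mul (ti_pin A)), H864.sym_mul (ti_pin A) hB,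
    H864.sym_mul hA (ti_pin A), sym_pin]
  by_cases hk : k = 0
  · rw [hk, hB0]
    ring
  · have h1 := hp k hk
    have h2 : √((sym A k)⁻¹) * √((sym A k)⁻¹) = (sym A k)⁻¹ :=
      Real.mul_self_sqrt (inv_nonneg.2 (h0 k))
    calc √((sym A k)⁻¹) * sym B k * (sym A k * √((sym A k)⁻¹)) =
        (√((sym A k)⁻¹) * √((sym A k)⁻¹)) * sym A k * sym B k := by ring
      _ = sym B k := by rw [h2, inv_mul_cancel₀ h1.ne', one_mul]

lemma int_hk {n : ℕ} [NeZero n] (k : V n) :
    ∫ g, (∑ x, g x * (Bk k *ᵥ g) x) ∂(gau (V n)) = 1 := by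
  have h := herm_ibp (C := (1 : Matrix (V n) (V n) ℝ)) TI.one (u := fun _ => 1)
    (uD := fun _ _ => 0) (EGr.const 1) (fun _ => EGr.const 0) (fun F G => by
      simpa using hasDerivAt_const (0 : ℝ) (1 : ℝ)) k
  simp only [mul_zero, Finset.sum_const_zero, integral_zero] at h
  unfold mh at h
  simp only [one_mul] at h
  have i1 : Integrable (fun g : V n → ℝ => ∑ x, g x * (Bk k *ᵥ g) x) (gau (V n)) :=
    H708.egr_integrable (egr_sum _ fun x _ => (egr_coord x).mul (egr_lin' _ x))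
  simp only [hk_eq] at h
  rw [integral_sub i1 (integrable_const _)] at h
  simp at h
  linarith

lemma sym_Bk_zero {n : ℕ} [NeZero n] {k : V n} (hk : k ≠ 0) : sym (Bk k) 0 = 0 := by
  rw [H864.sym_def]
  have e : ∀ z : V n, Bk k 0 z * cN (dt 0 z) = ((n : ℝ) ^ 2)⁻¹ * cN (dt k z) := by
    intro z
    unfold Bk
    rw [Matrix.of_apply, sub_zero, H864.dt_zero_left, TM.H764.cN_zero, mul_one]
  rw [Finset.sum_congr rfl fun z _ => e z, ← Finset.mul_sum, H864.sum_cN, if_neg hk, mul_zero]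

lemma int_sh {n : ℕ} [NeZero n] {C : Matrix (V n) (V n) ℝ} (hC : TI C)
    {φ : V n → (V n → ℝ) → ℝ} (hφ : ∀ a x F, φ (x + a) F = φ x (sh a F)) (x : V n) :
    ∫ g, φ x (C *ᵥ g) ∂(gau (V n)) = ∫ g, φ 0 (C *ᵥ g) ∂(gau (V n)) := by
  rw [← gau_permE (Equiv.addRight x) fun g : V n → ℝ => φ 0 (C *ᵥ g)]
  refine integral_congr_ae (Filter.Eventually.of_forall fun g => ?_)
  simp only
  rw [← sh_eq, ← sh_mulVec hC, ← hφ, zero_add]

lemma sum_cN_mv {n : ℕ} [NeZero n] {A : Matrix (V n) (V n) ℝ} (hA : TI A) (k : V n)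
    (F : V n → ℝ) :
    ∑ z, cN (dt k z) * (A *ᵥ F) z = sym A k * ∑ y, cN (dt k y) * F y := by
  have h1 : ∑ z, cN (dt k z) * (A *ᵥ F) z = (fun z => cN (dt k z)) ⬝ᵥ (A *ᵥ F) := rfl
  have h2 := hA.mulVec_cN k
  rw [h1, dotProduct_mulVec, ← mulVec_transpose, hA.transpose, h2]
  show ∑ y, _ = _
  rw [Finset.mul_sum]
  refine Finset.sum_congr rfl fun y _ => ?_
  simp only [Pi.smul_apply, smul_eq_mul]
  ring

/-- **the transform of the kernel `qz`** : exact identity -/
theorem qz_hat (hb : 0 ≤ b) (hl : l ∣ N) (hT : 0 < T) (hN : Nf (acl N l b T T))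
    {k : V (N / l)} (hk : k ≠ 0) :
    ∑ z, qz N l b T z * cN (dt k z) = sym (acl N l b T T) k *
      (1 - mh (pin (acl N l b T T)) (V0l N l b T) k) := by
  set A := acl N l b T T with hA
  set C := pin A with hC
  have hAt : TI A := ti_acl hb hl hT (le_refl T)
  have hCt : TI C := ti_pin A
  have h0 : ∀ k, 0 ≤ sym A k := sym_acl_nonneg hb hl hT (le_refl T)
  have hp : ∀ k, k ≠ 0 → 0 < sym A k := hN.pos
  have hB := ti_Bk k
  have i1 : ∀ z, Integrable (fun g : V (N / l) → ℝ => (Bk k *ᵥ (C *ᵥ g)) z *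
      Mx N l b T z (C *ᵥ g)) (gau (V (N / l))) := fun z =>
    H708.egr_integrable ((egr_mv (egr_lin' (Bk k) z) C).mul (egr_mv (egr_Mx hb hl hT z) C))
  have i2 : ∀ z, Integrable (fun g : V (N / l) → ℝ => (Bk k *ᵥ (C *ᵥ g)) z *
      (A *ᵥ (C *ᵥ g)) z) (gau (V (N / l))) := fun z =>
    H708.egr_integrable ((egr_mv (egr_lin' (Bk k) z) C).mul (egr_mv (egr_lin' A z) C))
  have s1 : mh C (V0l N l b T) k = ∑ z, ∫ g, (Bk k *ᵥ (C *ᵥ g)) z * Mx N l b T z (C *ᵥ g)
      ∂(gau (V (N / l))) + ∫ g, ∑ z, (Bk k *ᵥ (C *ᵥ g)) z * (A *ᵥ (C *ᵥ g)) z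
      ∂(gau (V (N / l))) := by
    rw [herm_ibp hCt (egr_V0l hb hl hT) (egr_V0x hb hl hT) (hasDerivAt_V0l hb hl hT) k,
      ← integral_finsetSum _ fun z _ => i1 z,
      ← integral_add (integrable_finsetSum _ fun z _ => i1 z)
        (integrable_finsetSum _ fun z _ => i2 z)]
    refine integral_congr_ae (Filter.Eventually.of_forall fun g => ?_)
    simp only
    rw [← Finset.sum_add_distrib]
    refine Finset.sum_congr rfl fun z _ => ?_
    unfold V0x
    ring
  have s2 : ∫ g, ∑ z, (Bk k *ᵥ (C *ᵥ g)) z * (A *ᵥ (C *ᵥ g)) z ∂(gau (V (N / l))) = 1 := by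
    rw [← int_hk k]
    refine integral_congr_ae (Filter.Eventually.of_forall fun g => ?_)
    simp only
    have e1 : ∑ z, (Bk k *ᵥ (C *ᵥ g)) z * (A *ᵥ (C *ᵥ g)) z =
        (Bk k *ᵥ (C *ᵥ g)) ⬝ᵥ (A *ᵥ (C *ᵥ g)) := rfl
    have e2 := pin_A_pin hAt h0 hp hB (sym_Bk_zero hk)
    have e3 : (Bk k *ᵥ (C *ᵥ g)) ⬝ᵥ (A *ᵥ (C *ᵥ g)) = g ⬝ᵥ (Bk k *ᵥ g) := by
      have c1 : (A * C)ᵀ * (Bk k * C) = Bk k := by
        calc (A * C)ᵀ * (Bk k * C) = C * A * (Bk k * C) := by
              rw [transpose_mul, hCt.transpose, hAt.transpose]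
          _ = C * (A * Bk k) * C := by simp only [Matrix.mul_assoc]
          _ = C * (Bk k * A) * C := by rw [hAt.comm hB]
          _ = C * Bk k * (A * C) := by simp only [Matrix.mul_assoc]
          _ = Bk k := e2
      rw [mulVec_mulVec, mulVec_mulVec, dotProduct_mulVec, ← mulVec_transpose, mulVec_mulVec,
        c1, dotProduct_comm]
    rw [e1, e3]
    rfl
  have s3 : ∀ z, ∫ g, (Bk k *ᵥ (C *ᵥ g)) z * Mx N l b T z (C *ᵥ g) ∂(gau (V (N / l))) =
      ∫ g, (Bk k *ᵥ (C *ᵥ g)) 0 * Mx N l b T 0 (C *ᵥ g) ∂(gau (V (N / l))) := fun z =>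
    int_sh hCt (φ := fun z F => (Bk k *ᵥ F) z * Mx N l b T z F) (fun a x F => by
      rw [Mx_sh hb hl hT]
      congr 1
      exact congrFun (sh_mulVec hB a F) x) z
  have s4 : ∑ z, qz N l b T z * cN (dt k z) = -(sym A k * ((N / l : ℕ) : ℝ) ^ 2 *
      ∫ g, (Bk k *ᵥ (C *ᵥ g)) 0 * Mx N l b T 0 (C *ᵥ g) ∂(gau (V (N / l)))) := by
    have i3 : ∀ z, Integrable (fun g : V (N / l) → ℝ => Mx N l b T 0 (C *ᵥ g) *
        (A *ᵥ (C *ᵥ g)) z * cN (dt k z)) (gau (V (N / l))) := fun z =>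
      H708.egr_integrable (((egr_mv (egr_Mx hb hl hT 0) C).mul
        (egr_mv (egr_lin' A z) C)).mul (EGr.const _))
    have e1 : ∀ z, qz N l b T z * cN (dt k z) = -∫ g, Mx N l b T 0 (C *ᵥ g) *
        (A *ᵥ (C *ᵥ g)) z * cN (dt k z) ∂(gau (V (N / l))) := by
      intro z
      unfold qz
      rw [neg_mul, ← integral_mul_const]
    rw [Finset.sum_congr rfl fun z _ => e1 z, Finset.sum_neg_distrib,
      ← integral_finsetSum _ fun z _ => i3 z, ← integral_const_mul]
    congr 1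
    refine integral_congr_ae (Filter.Eventually.of_forall fun g => ?_)
    simp only
    have e2 := sum_cN_mv hAt k (C *ᵥ g)
    have e3 : (Bk k *ᵥ (C *ᵥ g)) 0 = (((N / l : ℕ) : ℝ) ^ 2)⁻¹ *
        ∑ y, cN (dt k y) * (C *ᵥ g) y := by
      unfold Bk
      simp only [mulVec, dotProduct, Matrix.of_apply, sub_zero]
      rw [Finset.mul_sum]
      exact Finset.sum_congr rfl fun y _ => by ring
    have hn : (((N / l : ℕ) : ℝ) ^ 2) ≠ 0 := H864.N_pos.ne'
    rw [e3]
    have e4 : ∑ z, Mx N l b T 0 (C *ᵥ g) * (A *ᵥ (C *ᵥ g)) z * cN (dt k z) =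
        Mx N l b T 0 (C *ᵥ g) * ∑ z, cN (dt k z) * (A *ᵥ (C *ᵥ g)) z := by
      rw [Finset.mul_sum]
      exact Finset.sum_congr rfl fun z _ => by ring
    have e5 : ∀ a s m S : ℝ, m ≠ 0 → a * (s * S) = s * m * (m⁻¹ * S * a) := by
      intro a s m S hm
      field_simp
    rw [e4, e2]
    exact e5 _ _ _ _ hn
  rw [s4, s1, s2, Finset.sum_congr rfl fun z _ => s3 z, Finset.sum_const, Finset.card_univ,
    nsmul_eq_mul, cardVr]
  ring

/-- (H1) -/
theorem sum_qz (hb : 0 ≤ b) (hl : l ∣ N) (hT : 0 < T) : ∑ z, qz N l b T z = 0 := by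
  set A := acl N l b T T with hA
  have hAt : TI A := ti_acl hb hl hT (le_refl T)
  have i3 : ∀ z, Integrable (fun g : V (N / l) → ℝ => Mx N l b T 0 (pin A *ᵥ g) *
      (A *ᵥ (pin A *ᵥ g)) z) (gau (V (N / l))) := fun z =>
    H708.egr_integrable (((egr_mv (egr_Mx hb hl hT 0) (pin A)).mul
      (egr_mv (egr_lin' A z) (pin A))))
  unfold qz
  rw [Finset.sum_neg_distrib, ← integral_finsetSum _ fun z _ => i3 z, neg_eq_zero]
  rw [integral_eq_zero_of_ae]
  refine Filter.Eventually.of_forall fun g => ?_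
  simp only [Pi.zero_apply]
  rw [← Finset.mul_sum]
  have h := sum_cN_mv hAt 0 (pin A *ᵥ g)
  simp only [H864.dt_zero_left, TM.H764.cN_zero, one_mul] at h
  rw [h, hA, H363.sym_acl_zero hl hb hT (le_refl T), zero_mul, mul_zero]

end kernel

end

end Vale.Agent.P159.H462
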