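import Vale.Agent.P159.H462.Q2
import Vale.Agent.P159.H612.Nker2
import Vale.Agent.P159.H889.Vreal

/-!
P159 (helper462), P#, constant-averaged letters, part 3: **gradient bounds of `V0l`**, all fields.

* `dBf_le` : `|D_g (log Z⁰ - Wb)| ≤ 2 |Φ₁| |D_g W₁| + omH sd2`,
* `V0x_le` : `|Σ G_x V0x_x F| ≤ (1 + omH) (R(F + G) + R(F - G)) + omT |D_G W₁| +
  omH (T l² |G|² + 8 omT)`.
-/

set_option linter.unusedSectionVars false
set_option linter.unusedVariables false

namespace Vale.Agent.P159.H462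

open Finset MeasureTheory Matrix
open Vale.Agent.P159.TM.H104 (EM Ex Cv K3 Lg li nh Gr)
open Vale.Agent.P159.H37
open Vale.Agent.P159.H896 (Ph WM om ph)
open Vale.Agent.P159.H43 (omT omH Phq Wq dW dL dL0 el el1)
open Vale.Agent.P159.H145 (LM L0 cs OscZ)
open Vale.Agent.P159.H363 (mainf ee Ch lf acl ti_acl Rcl Rcl_nonneg sym_acl_nonneg gm ti_gm pin ti_pin
  sym_pin Wcl one_le_Wcl wm_MC Nf sh sh_eq sh_mulVec gau_permE)
open Vale.Agent.P159.H552 (lft idc)
open Vale.Agent.P159.TM.Spec (V)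
open Vale.Agent.P159.TM.SpecC (Tor wT)
open Vale.Agent.P159.TM.H764 (EE cN sN dt)
open Vale.Agent.P159.H864 (TI sym mlt fc MC cobV cl CT up tra)
open Vale.Agent.P159.H963 (PinC Pn)
open scoped Real ComplexConjugate

noncomputable section

section gen

variable {V' : Type} [Fintype V'] {w : (V' → ℤ) → ℝ} {M : Matrix V' V' ℝ}

/-- tangent of `log Z + qf M / 2` -/
lemma dL_tan (hM : M.transpose = M) (hE : EM (wM w M)) (F g : V' → ℝ) :
    dL w M F g ≤ LM w M (F + g) - LM w M F + qf M g / 2 := by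
  have h := H612.Lg_tangent hE (M *ᵥ F) (M *ᵥ g)
  have h1 := H145.LM_eq hM hE F
  have h2 := H145.LM_eq hM hE (F + g)
  have h3 := H37.qf_add_vec hM F g
  rw [Matrix.mulVec_add] at h2
  unfold H43.dL
  rw [h1, h2, h3]
  linarith

lemma dL_neg' (hM : M.transpose = M) (hE : EM (wM w M)) (F g : V' → ℝ) :
    dL w M F (-g) = -dL w M F g := by
  have h := H363.dL_smul_dir (w := w) (M := M) (-1) F g
  rwa [neg_one_smul, neg_one_mul] at h

lemma LM_cs_sub (hw : WM w M) (h1 : omT w M ≤ 1 / 2) (F : V' → ℝ) (c : ℝ) :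
    |LM w M (cs F c) - L0 w M F| ≤ 2 * omT w M := by
  have h2 := zt_le hw F c
  have h3 : LM w M (cs F c) - L0 w M F = Real.log (1 + zt w M F c) := by
    unfold zt
    rw [add_sub_cancel, Real.log_exp]
    rfl
  rw [h3]
  set x := zt w M F c with hx
  have h4 := abs_le.1 (h2.trans h1)
  have h5 : 0 < 1 + x := by linarith
  have h6 := Real.log_le_sub_one_of_pos h5
  have h7 := Real.one_sub_inv_le_log_of_pos h5
  have h8 := abs_le.1 h2
  have h0 := H43.omT_nonneg hw
  rw [abs_le]
  constructor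
  · have e : 1 - (1 + x)⁻¹ = x / (1 + x) := by
      field_simp
      ring
    rw [e] at h7
    have h9 : -(2 * omT w M) ≤ x / (1 + x) := by
      rw [le_div_iff₀ h5]
      rcases le_total 0 x with hx0 | hx0
      · nlinarith
      · nlinarith
    linarith
  · linarith

/-- second difference of `log Z⁰`, in the form which bounds the oscillation of the derivative -/
def sd2 (w : (V' → ℤ) → ℝ) (M : Matrix V' V' ℝ) (F g : V' → ℝ) : ℝ :=
  L0 w M (F + g) + L0 w M (F - g) - 2 * L0 w M F + qf M g + 8 * omT w M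

lemma cs_add' (F g : V' → ℝ) (c : ℝ) : cs F c + g = cs (F + g) c := by
  funext x
  simp only [H145.cs, Pi.add_apply]
  ring

lemma dL_cs_le (hw : WM w M) (h1 : omT w M ≤ 1 / 2) (F g : V' → ℝ) (c : ℝ) :
    dL w M (cs F c) g ≤ L0 w M (F + g) - L0 w M F + qf M g / 2 + 4 * omT w M := by
  have h2 := dL_tan hw.sym hw.em (cs F c) g
  rw [cs_add'] at h2
  have h3 := abs_le.1 (LM_cs_sub hw h1 (F + g) c)
  have h4 := abs_le.1 (LM_cs_sub hw h1 F c)
  linarith [h3.2, h4.1]

lemma qf_neg' (g : V' → ℝ) : qf M (-g) = qf M g := by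
  rw [H37.qf_eq, H37.qf_eq, mulVec_neg, neg_dotProduct, dotProduct_neg, neg_neg]

lemma dL_cs_ge (hw : WM w M) (h1 : omT w M ≤ 1 / 2) (F g : V' → ℝ) (c : ℝ) :
    -(L0 w M (F - g) - L0 w M F + qf M g / 2 + 4 * omT w M) ≤ dL w M (cs F c) g := by
  have h2 := dL_cs_le hw h1 F (-g) c
  rw [dL_neg' hw.sym hw.em, ← sub_eq_add_neg, qf_neg'] at h2
  linarith

lemma dWb_le (hw : WM w M) (h1 : omT w M ≤ 1 / 2) (F g : V' → ℝ) :
    dWb w M F g ≤ L0 w M (F + g) - L0 w M F + qf M g / 2 + 4 * omT w M := by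
  have c1 : Continuous fun c : ℝ => dL w M (cs F c) g :=
    (H43.continuous_dL hw.em g).comp (H145.continuous_cs F)
  have h := intervalIntegral.integral_mono_on (μ := volume) zero_le_one
    (c1.intervalIntegrable 0 1) (continuous_const.intervalIntegrable 0 1)
    fun c _ => dL_cs_le hw h1 F g c
  unfold dWb
  simpa using h

lemma dWb_ge (hw : WM w M) (h1 : omT w M ≤ 1 / 2) (F g : V' → ℝ) :
    -(L0 w M (F - g) - L0 w M F + qf M g / 2 + 4 * omT w M) ≤ dWb w M F g := by
  have c1 : Continuous fun c : ℝ => dL w M (cs F c) g :=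
    (H43.continuous_dL hw.em g).comp (H145.continuous_cs F)
  have h := intervalIntegral.integral_mono_on (μ := volume) zero_le_one
    (continuous_const.intervalIntegrable 0 1) (c1.intervalIntegrable 0 1)
    fun c _ => dL_cs_ge hw h1 F g c
  unfold dWb
  simpa using h

/-- oscillation of the derivative in the constant -/
lemma dL_osc (hw : WM w M) (h1 : omT w M ≤ 1 / 2) (F g : V' → ℝ) (c : ℝ) :
    |dL w M (cs F c) g - dWb w M F g| ≤ sd2 w M F g := by
  have h2 := dL_cs_le hw h1 F g c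
  have h3 := dL_cs_ge hw h1 F g c
  have h4 := dWb_le hw h1 F g
  have h5 := dWb_ge hw h1 F g
  unfold sd2
  rw [abs_le]
  constructor <;> linarith

lemma sd2_nonneg (hw : WM w M) (h1 : omT w M ≤ 1 / 2) (F g : V' → ℝ) : 0 ≤ sd2 w M F g :=
  (abs_nonneg _).trans (dL_osc hw h1 F g 0)

lemma dW_conj (hw : WM w M) (F g : V' → ℝ) :
    dW w M (-1) F g = conj (dW w M 1 F g) := by
  unfold H43.dW
  rw [← intervalIntegral.intervalIntegral_conj]
  refine intervalIntegral.integral_congr fun c _ => ?_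
  simp only [map_mul, Complex.conj_ofReal, H896.conj_ph]

/-- **derivative of `Bf`** -/
theorem dBf_le (hw : WM w M) (h1 : omT w M ≤ 1 / 2) (F g : V' → ℝ) :
    |dL0 w M F g - dWb w M F g| ≤ omT w M * ‖dW w M 1 F g‖ + omH w M * sd2 w M F g := by
  have hH := H43.omH_nonneg hw
  set κ := dWb w M F g with hκ
  set z := Phq w M 1 F with hz
  have cL : Continuous fun c : ℝ => dL w M (cs F c) g :=
    (H43.continuous_dL hw.em g).comp (H145.continuous_cs F)
  have cz := continuous_zt hw.sym hw.em F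
  have cp := H896.continuous_ph (-1)
  have cu : Continuous fun c : ℝ => 2 * (ph (-1) c * z).re := by fun_prop
  -- `dL0 - dWb = ∫ zt (dL - κ)`
  have e1 : dL0 w M F g - κ = ∫ c in (0 : ℝ)..1, zt w M F c * (dL w M (cs F c) g - κ) := by
    have e2 : ∀ c, zt w M F c * (dL w M (cs F c) g - κ) =
        (Real.exp (el w M F c) * dL w M (cs F c) g - dL w M (cs F c) g) - κ * zt w M F c := by
      intro c
      unfold zt
      ring
    have cE : Continuous fun c => Real.exp (el w M F c) :=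
      Real.continuous_exp.comp (H43.continuous_el hw.sym hw.em F)
    have i1 : IntervalIntegrable (fun c => Real.exp (el w M F c) * dL w M (cs F c) g -
        dL w M (cs F c) g) volume 0 1 := ((cE.mul cL).sub cL).intervalIntegrable _ _
    have i2 : IntervalIntegrable (fun c => κ * zt w M F c) volume 0 1 :=
      (continuous_const.mul cz).intervalIntegrable _ _
    rw [intervalIntegral.integral_congr fun c _ => e2 c, intervalIntegral.integral_sub i1 i2,
      intervalIntegral.integral_const_mul, int_zt hw.sym hw.em, mul_zero, sub_zero]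
    have i3 : IntervalIntegrable (fun c => Real.exp (el w M F c) * dL w M (cs F c) g)
      volume 0 1 := (cE.mul cL).intervalIntegrable _ _
    rw [intervalIntegral.integral_sub i3 (cL.intervalIntegrable _ _)]
    rfl
  -- the first harmonic
  have e3 : ∫ c in (0 : ℝ)..1, 2 * (ph (-1) c * z).re * (dL w M (cs F c) g - κ) =
      2 * (z * dW w M (-1) F g).re := by
    have e4 : ∀ c : ℝ, 2 * (ph (-1) c * z).re * (dL w M (cs F c) g - κ) =
        2 * (z * ((dL w M (cs F c) g : ℂ) * ph (-1) c)).re - κ * (2 * (z * ph (-1) c).re) := by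
      intro c
      simp only [Complex.mul_re, Complex.mul_im, Complex.ofReal_re, Complex.ofReal_im]
      ring
    have i1 : IntervalIntegrable (fun c : ℝ => 2 * (z * ((dL w M (cs F c) g : ℂ) *
        ph (-1) c)).re) volume 0 1 := by
      refine Continuous.intervalIntegrable ?_ _ _
      have : Continuous fun c : ℝ => ((dL w M (cs F c) g : ℝ) : ℂ) :=
        Complex.continuous_ofReal.comp cL
      fun_prop
    have i2 : IntervalIntegrable (fun c : ℝ => κ * (2 * (z * ph (-1) c).re)) volume 0 1 := by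
      refine Continuous.intervalIntegrable ?_ _ _
      fun_prop
    rw [intervalIntegral.integral_congr fun c _ => e4 c, intervalIntegral.integral_sub i1 i2,
      intervalIntegral.integral_const_mul, intervalIntegral.integral_const_mul,
      intervalIntegral.integral_const_mul]
    have r1 : ∫ c in (0 : ℝ)..1, (z * ((dL w M (cs F c) g : ℂ) * ph (-1) c)).re =
        (z * dW w M (-1) F g).re := by
      have c2 : Continuous fun c : ℝ => z * (((dL w M (cs F c) g : ℝ) : ℂ) * ph (-1) c) := by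
        have : Continuous fun c : ℝ => ((dL w M (cs F c) g : ℝ) : ℂ) :=
          Complex.continuous_ofReal.comp cL
        fun_prop
      have h8 := Complex.reCLM.intervalIntegral_comp_comm (c2.intervalIntegrable 0 1)
        (μ := volume)
      simp only [Complex.reCLM_apply] at h8
      rw [h8, intervalIntegral.integral_const_mul]
      rfl
    have r2 : ∫ c in (0 : ℝ)..1, (z * ph (-1) c).re = 0 := by
      have c2 : Continuous fun c : ℝ => z * ph (-1) c := by fun_prop
      have h8 := Complex.reCLM.intervalIntegral_comp_comm (c2.intervalIntegrable 0 1)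
        (μ := volume)
      simp only [Complex.reCLM_apply] at h8
      rw [h8, intervalIntegral.integral_const_mul, H43.int_ph (-1) (by norm_num), mul_zero,
        Complex.zero_re]
    rw [r1, r2]
    ring
  -- split
  have e5 : dL0 w M F g - κ = 2 * (z * dW w M (-1) F g).re +
      ∫ c in (0 : ℝ)..1, (zt w M F c - 2 * (ph (-1) c * z).re) * (dL w M (cs F c) g - κ) := by
    rw [e1, ← e3, ← intervalIntegral.integral_add]
    · refine intervalIntegral.integral_congr fun c _ => ?_
      ring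
    · exact (cu.mul (cL.sub continuous_const)).intervalIntegrable _ _
    · exact ((cz.sub cu).mul (cL.sub continuous_const)).intervalIntegrable _ _
  have h2 := intervalIntegral.norm_integral_le_of_norm_le_const (a := (0 : ℝ)) (b := 1)
    (f := fun c => (zt w M F c - 2 * (ph (-1) c * z).re) * (dL w M (cs F c) g - κ))
    (C := omH w M * sd2 w M F g) (fun c _ => by
      rw [norm_mul, Real.norm_eq_abs, Real.norm_eq_abs]
      have h4 : |zt w M F c - 2 * (ph (-1) c * z).re| ≤ omH w M := by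
        have h5 := H43.Z_sub_le hw (cs F c)
        rw [Phq_cs hw, H145.Zn_cs hw.per, ← zt_eq hw] at h5
        exact h5
      exact mul_le_mul h4 (dL_osc hw h1 F g c) (abs_nonneg _) hH)
  simp only [sub_zero, abs_one, mul_one, Real.norm_eq_abs] at h2
  have h3 : |2 * (z * dW w M (-1) F g).re| ≤ omT w M * ‖dW w M 1 F g‖ := by
    have a1 : |(z * dW w M (-1) F g).re| ≤ ‖z‖ * ‖dW w M 1 F g‖ := by
      refine (Complex.abs_re_le_norm _).trans ?_
      rw [norm_mul, dW_conj hw, Complex.norm_conj]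
    have a2 : ‖z‖ ≤ om w M 1 := H43.norm_Phq_om hw 1 F
    have a3 := H43.omT_eq hw
    have a4 := norm_nonneg (dW w M 1 F g)
    rw [abs_mul, abs_of_pos (by norm_num : (0 : ℝ) < 2)]
    nlinarith [mul_le_mul_of_nonneg_right a2 a4, mul_nonneg hH a4]
  rw [e5]
  exact (abs_add_le _ _).trans (add_le_add h3 h2)

end gen

section torus

variable {N l : ℕ} [NeZero N] [NeZero (N / l)] {b T : ℝ}

lemma L0_lf (hb : 0 ≤ b) (hl : l ∣ N) (hT : 0 < T) (F : V (N / l) → ℝ) :
    L0 (wT b N) (MC N l T T) (lf N l F) = L0 (wT b N) (MC N l T T) 0 +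
      (-(qf (acl N l b T T) F / 2) + Rcl N l b T T F) := by
  have hw := wm_MC (b := b) hb hl hT (le_refl T)
  have h1 := H363.Zn_lf (b := b) hb hl hT (le_refl T) F
  have h0 := H896.Zn_pos hw (0 : V N → ℝ)
  unfold H145.L0
  rw [h1, Real.log_mul h0.ne' (mul_pos (Real.exp_pos _) (Real.exp_pos _)).ne', ← Real.exp_add,
    Real.log_exp]

lemma Rcl_convex (hb : 0 ≤ b) (hl : l ∣ N) (hT : 0 < T) :
    ConvexOn ℝ Set.univ (Rcl N l b T T) := by
  have h := H789.Rs_convex ((H963.gw_wT hb).em_nM (H963.mf_MC hl hT (le_refl T)) 0)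
    ((H963.gw_wT hb).ev_nM (MC N l T T) T 0)
    ((H963.gw_wT hb).pk_nM (H963.mf_MC hl hT (le_refl T)) 0)
  refine ⟨convex_univ, fun X _ Y _ p q hp hq hpq => ?_⟩
  have h2 := h.2 (Set.mem_univ (H963.ntr (MC N l T T) T *ᵥ lf N l X))
    (Set.mem_univ (H963.ntr (MC N l T T) T *ᵥ lf N l Y)) hp hq hpq
  have e : H963.ntr (MC N l T T) T *ᵥ lf N l (p • X + q • Y) =
      p • (H963.ntr (MC N l T T) T *ᵥ lf N l X) + q • (H963.ntr (MC N l T T) T *ᵥ lf N l Y) := by
    rw [← mulVec_smul, ← mulVec_smul, ← mulVec_add]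
    rfl
  unfold H363.Rcl
  rw [e]
  exact h2

/-- derivative of `Rcl` -/
def dRcl (N l : ℕ) [NeZero N] [NeZero (N / l)] (b T : ℝ) (F G : V (N / l) → ℝ) : ℝ :=
  dL0 (wT b N) (MC N l T T) (lf N l F) (lf N l G) + ∑ x, G x * (acl N l b T T *ᵥ F) x

lemma bf_acl (hb : 0 ≤ b) (hl : l ∣ N) (hT : 0 < T) (F G : V (N / l) → ℝ) :
    bf (acl N l b T T) F G = ∑ x, G x * (acl N l b T T *ᵥ F) x := by
  rw [H37.bf_eq, dotProduct_mulVec, ← mulVec_transpose, (ti_acl hb hl hT (le_refl T)).transpose,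
    dotProduct_comm]
  rfl

theorem hasDerivAt_Rcl (hb : 0 ≤ b) (hl : l ∣ N) (hT : 0 < T) (F G : V (N / l) → ℝ) :
    HasDerivAt (fun r : ℝ => Rcl N l b T T (F + r • G)) (dRcl N l b T F G) 0 := by
  have hw := wm_MC (b := b) hb hl hT (le_refl T)
  have h1 := H43.hasDerivAt_L0 (w := wT b N) (M := MC N l T T) hw.sym hw.em (lf N l F) (lf N l G) 0
  have h2 := (H43.hasDerivAt_qf (ti_acl hb hl hT (le_refl T)).transpose F G 0).div_const 2
  rw [zero_smul, add_zero] at h1 h2
  have e : (fun r : ℝ => Rcl N l b T T (F + r • G)) = fun r : ℝ =>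
      (L0 (wT b N) (MC N l T T) (lf N l F + r • lf N l G) -
        L0 (wT b N) (MC N l T T) 0) + qf (acl N l b T T) (F + r • G) / 2 := by
    funext r
    have h3 := L0_lf (b := b) hb hl hT (F + r • G)
    have e2 : lf N l (F + r • G) = lf N l F + r • lf N l G := rfl
    rw [← e2, h3]
    ring
  rw [e]
  refine ((h1.sub_const _).add h2).congr_deriv ?_
  unfold dRcl
  rw [bf_acl hb hl hT, mul_div_cancel_left₀ _ (two_ne_zero)]

lemma dRcl_le (hb : 0 ≤ b) (hl : l ∣ N) (hT : 0 < T) (F G : V (N / l) → ℝ) :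
    dRcl N l b T F G ≤ Rcl N l b T T (F + G) - Rcl N l b T T F := by
  have hc : ConvexOn ℝ Set.univ fun r : ℝ => Rcl N l b T T (F + r • G) := by
    refine ⟨convex_univ, fun x _ y _ p q hp hq hpq => ?_⟩
    have h2 := (Rcl_convex hb hl hT).2 (Set.mem_univ (F + x • G)) (Set.mem_univ (F + y • G))
      hp hq hpq
    have e : p • (F + x • G) + q • (F + y • G) = F + (p • x + q • y) • G := by
      rw [smul_add, smul_add, smul_smul, smul_smul, add_smul]
      have : p • F + q • F = F := by rw [← add_smul, hpq, one_smul]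
      calc p • F + (p * x) • G + (q • F + (q * y) • G) =
          (p • F + q • F) + ((p * x) • G + (q * y) • G) := by abel
        _ = _ := by rw [this]; rfl
    rw [e] at h2
    exact h2
  have h := hc.le_slope_of_hasDerivAt (Set.mem_univ 0) (Set.mem_univ 1) zero_lt_one
    (hasDerivAt_Rcl hb hl hT F G)
  rw [slope_def_field] at h
  simpa using h

lemma dRcl_neg (hb : 0 ≤ b) (hl : l ∣ N) (hT : 0 < T) (F G : V (N / l) → ℝ) :
    dRcl N l b T F (-G) = -dRcl N l b T F G := by
  have h1 := hasDerivAt_Rcl (b := b) hb hl hT F (-G)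
  have h2 := hasDerivAt_Rcl (b := b) hb hl hT F G
  have h3 : HasDerivAt (fun r : ℝ => Rcl N l b T T (F + r • (-G))) (-dRcl N l b T F G) 0 := by
    have h4 : HasDerivAt (fun r : ℝ => -r) (-1) 0 := hasDerivAt_neg 0
    have h5 : HasDerivAt (fun r : ℝ => Rcl N l b T T (F + r • G)) (dRcl N l b T F G) (-0) := by
      rw [neg_zero]; exact h2
    have h6 := h5.comp (0 : ℝ) h4
    have e : ((fun r : ℝ => Rcl N l b T T (F + r • G)) ∘ fun r : ℝ => -r) =
        fun r : ℝ => Rcl N l b T T (F + r • (-G)) := by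
      funext r
      simp only [Function.comp, neg_smul, smul_neg]
    rw [e] at h6
    simpa using h6
  exact h1.unique h3

lemma dRcl_abs (hb : 0 ≤ b) (hl : l ∣ N) (hT : 0 < T) (F G : V (N / l) → ℝ) :
    |dRcl N l b T F G| ≤ Rcl N l b T T (F + G) + Rcl N l b T T (F - G) := by
  have h1 := dRcl_le (b := b) hb hl hT F G
  have h2 := dRcl_le (b := b) hb hl hT F (-G)
  rw [dRcl_neg hb hl hT, ← sub_eq_add_neg] at h2
  have h0 := Rcl_nonneg (N := N) (l := l) hb hl hT (le_refl T) F
  have h3 := Rcl_nonneg (N := N) (l := l) hb hl hT (le_refl T) (F + G)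
  have h4 := Rcl_nonneg (N := N) (l := l) hb hl hT (le_refl T) (F - G)
  rw [abs_le]
  constructor <;> linarith

/-- the gradient of `V0l` -/
lemma sum_V0x (hb : 0 ≤ b) (hl : l ∣ N) (hT : 0 < T) (F G : V (N / l) → ℝ) :
    ∑ x, G x * V0x N l b T x F = dRcl N l b T F G -
      (dL0 (wT b N) (MC N l T T) (lf N l F) (lf N l G) -
        dWb (wT b N) (MC N l T T) (lf N l F) (lf N l G)) := by
  have hw := wm_MC (b := b) hb hl hT (le_refl T)
  have e2 : dWb (wT b N) (MC N l T T) (lf N l F) (lf N l G) = ∑ x, G x * Mx N l b T x F :=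
    dWb_lft hw.sym hw.em (lf N l F) G
  rw [e2]
  unfold dRcl V0x
  rw [sub_sub_eq_add_sub, add_comm, add_sub_right_comm, sub_eq_add_neg]
  simp only [mul_add, Finset.sum_add_distrib]
  ring

/-- second difference on cells -/
lemma sd2_lf (hb : 0 ≤ b) (hl : l ∣ N) (hT : 0 < T) (F G : V (N / l) → ℝ) :
    sd2 (wT b N) (MC N l T T) (lf N l F) (lf N l G) =
      Rcl N l b T T (F + G) + Rcl N l b T T (F - G) - 2 * Rcl N l b T T F -
        qf (acl N l b T T) G + T * (l : ℝ) ^ 2 * ∑ x, G x ^ 2 + 8 * oT N l b T := by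
  have hA := (ti_acl (N := N) (l := l) (b := b) hb hl hT (le_refl T)).transpose
  have h1 := L0_lf (b := b) hb hl hT (F + G)
  have h2 := L0_lf (b := b) hb hl hT (F - G)
  have h3 := L0_lf (b := b) hb hl hT F
  have e1 : lf N l (F + G) = lf N l F + lf N l G := rfl
  have e2 : lf N l (F - G) = lf N l F - lf N l G := rfl
  rw [e1] at h1
  rw [e2] at h2
  have q1 := H37.qf_add_vec hA F G
  have q2 := H37.qf_sub_vec hA F G
  have q3 : qf (MC N l T T) (lf N l G) = T * (l : ℝ) ^ 2 * ∑ x, G x ^ 2 := by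
    rw [H864.MC_self, H37.qf_eq, smul_mulVec, one_mulVec, dotProduct_smul, smul_eq_mul, mul_assoc]
    congr 1
    show ∑ v, lf N l G v * lf N l G v = _
    rw [Finset.mul_sum, ← Finset.sum_fiberwise univ (fun v : V N => (cl v : V (N / l)))]
    refine Finset.sum_congr rfl fun x _ => ?_
    rw [Finset.sum_congr rfl fun v hv => by
      show lf N l G v * lf N l G v = G x ^ 2
      unfold H363.lf
      rw [(Finset.mem_filter.1 hv).2, pow_two], Finset.sum_const, nsmul_eq_mul,
      H864.card_cell hl]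
  unfold sd2
  rw [h1, h2, h3, q1, q2, q3]
  unfold oT
  ring

/-- **gradient bound of `V0l`, all fields** -/
theorem V0x_le (hb : 0 ≤ b) (hl : l ∣ N) (hT : 0 < T) (h1 : oT N l b T ≤ 1 / 2)
    (F G : V (N / l) → ℝ) :
    |∑ x, G x * V0x N l b T x F| ≤
      (1 + omH (wT b N) (MC N l T T)) * (Rcl N l b T T (F + G) + Rcl N l b T T (F - G)) +
      oT N l b T * ‖dW (wT b N) (MC N l T T) 1 (lf N l F) (lf N l G)‖ +
      omH (wT b N) (MC N l T T) * (T * (l : ℝ) ^ 2 * ∑ x, G x ^ 2 + 8 * oT N l b T) := by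
  have hw := wm_MC (N := N) (l := l) (b := b) hb hl hT (le_refl T)
  have hH := H43.omH_nonneg hw
  have h2 := dRcl_abs (b := b) hb hl hT F G
  have h3 := dBf_le hw h1 (lf N l F) (lf N l G)
  have h4 := sd2_lf (b := b) hb hl hT F G
  have h5 : 0 ≤ qf (acl N l b T T) G :=
    (H864.psd_iff (ti_acl hb hl hT (le_refl T))).2 (sym_acl_nonneg hb hl hT (le_refl T)) G
  have h6 := Rcl_nonneg (N := N) (l := l) hb hl hT (le_refl T) F
  have h7 : omH (wT b N) (MC N l T T) * sd2 (wT b N) (MC N l T T) (lf N l F) (lf N l G) ≤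
      omH (wT b N) (MC N l T T) * ((Rcl N l b T T (F + G) + Rcl N l b T T (F - G)) +
        (T * (l : ℝ) ^ 2 * ∑ x, G x ^ 2 + 8 * oT N l b T)) := by
    refine mul_le_mul_of_nonneg_left ?_ hH
    rw [h4]
    linarith
  have e : oT N l b T = omT (wT b N) (MC N l T T) := rfl
  rw [sum_V0x hb hl hT]
  refine (abs_sub _ _).trans ?_
  rw [e] at h7 ⊢
  linarith

/-- `R ≤ F A F / 2` -/
lemma Rcl_le_qf (hb : 0 ≤ b) (hl : l ∣ N) (hT : 0 < T) (F : V (N / l) → ℝ) :
    Rcl N l b T T F ≤ qf (acl N l b T T) F / 2 := by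
  have h1 := H363.Un_lf (b := b) hb hl hT (le_refl T) F
  have h2 := (H963.gw_wT hb).Un_nonneg (H963.mf_MC (N := N) (l := l) hl hT (le_refl T)) (lf N l F)
  linarith

lemma qf_acl_le (hb : 0 ≤ b) (hl : l ∣ N) (hT : 0 < T) (F : V (N / l) → ℝ) :
    qf (acl N l b T T) F ≤ T * (l : ℝ) ^ 2 * ∑ x, F x ^ 2 := by
  have h := (H864.qf_le_iff (ti_acl (N := N) (l := l) (b := b) hb hl hT (le_refl T))
    (TI.one.smul (T * (l : ℝ) ^ 2))).2 (fun k => by
      rw [H864.sym_smul, H864.sym_one, mul_one]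
      exact H363.sym_acl_le hb hl hT (le_refl T) k) F
  refine h.trans (le_of_eq ?_)
  rw [H37.qf_eq, smul_mulVec, one_mulVec, dotProduct_smul, smul_eq_mul]
  congr 1
  exact Finset.sum_congr rfl fun x _ => (pow_two _).symm

lemma qf_acl_nonneg (hb : 0 ≤ b) (hl : l ∣ N) (hT : 0 < T) (F : V (N / l) → ℝ) :
    0 ≤ qf (acl N l b T T) F :=
  (H864.psd_iff (ti_acl hb hl hT (le_refl T))).2 (sym_acl_nonneg hb hl hT (le_refl T)) F

/-- the first harmonic of the gradient through the cell densities -/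
lemma norm_dW_uc (hb : 0 ≤ b) (hl : l ∣ N) (hT : 0 < T) (F G : V (N / l) → ℝ) :
    ‖dW (wT b N) (MC N l T T) 1 (lf N l F) (lf N l G)‖ =
      2 * Real.pi * ‖∑ x, (G x : ℂ) * H889.uc N l b T x F‖ := by
  classical
  have hw := wm_MC (N := N) (l := l) (b := b) hb hl hT (le_refl T)
  have e1 : dW (wT b N) (MC N l T T) 1 (lf N l F) (lf N l G) =
      ∑ x, (G x : ℂ) * dW (wT b N) (MC N l T T) 1 (lf N l F) (idc (cl : V N → V (N / l)) x) := by
    have h2 : lf N l G = lft (cl : V N → V (N / l)) G := rfl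
    rw [h2, H363.lft_eq_sum G, H43.dW_sum_dir hw.sym hw.em]
    exact Finset.sum_congr rfl fun x _ => H363.dW_smul_dir _ _ _ _
  have e2 : ∀ x, H889.uc N l b T x F = (2 * Real.pi * Complex.I)⁻¹ *
      dW (wT b N) (MC N l T T) 1 (lf N l F) (idc (cl : V N → V (N / l)) x) := by
    intro x
    unfold H889.uc H552.ut H552.uq
    rw [H864.MC_self]
    rfl
  have e3 : ∑ x, (G x : ℂ) * H889.uc N l b T x F = (2 * Real.pi * Complex.I)⁻¹ *
      dW (wT b N) (MC N l T T) 1 (lf N l F) (lf N l G) := by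
    rw [e1, Finset.mul_sum]
    refine Finset.sum_congr rfl fun x _ => ?_
    rw [e2]
    ring
  rw [e3, norm_mul, H552.norm_two_pi_I_inv, ← mul_assoc, mul_inv_cancel₀ (by positivity), one_mul]

/-- **gradient bound of `V0l`, with the cell densities** -/
theorem V0x_le_uc (hb : 0 ≤ b) (hl : l ∣ N) (hT : 0 < T) (h1 : oT N l b T ≤ 1 / 2)
    (F G : V (N / l) → ℝ) :
    |∑ x, G x * V0x N l b T x F| ≤
      (1 + omH (wT b N) (MC N l T T)) * (Rcl N l b T T (F + G) + Rcl N l b T T (F - G)) +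
      oT N l b T * (2 * Real.pi * ‖∑ x, (G x : ℂ) * H889.uc N l b T x F‖) +
      omH (wT b N) (MC N l T T) * (T * (l : ℝ) ^ 2 * ∑ x, G x ^ 2 + 8 * oT N l b T) := by
  have h := V0x_le hb hl hT h1 F G
  rwa [norm_dW_uc hb hl hT] at h

/-- crude bound, all fields -/
theorem V0x_crude (hb : 0 ≤ b) (hl : l ∣ N) (hT : 0 < T) (h1 : oT N l b T ≤ 1 / 2)
    (x : V (N / l)) (F : V (N / l) → ℝ) :
    |V0x N l b T x F| ≤ 2 * qf (acl N l b T T) F + 3 * (T * (l : ℝ) ^ 2) + 2 := by
  classical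
  have hw := wm_MC (N := N) (l := l) (b := b) hb hl hT (le_refl T)
  have hH := H43.omH_nonneg hw
  have hT0 := H43.omT_nonneg hw
  have hE := H43.omT_eq hw
  have hom : 0 ≤ om (wT b N) (MC N l T T) 1 :=
    (norm_nonneg _).trans (H43.norm_Phq_om hw 1 (0 : V N → ℝ))
  have eo : oT N l b T = omT (wT b N) (MC N l T T) := rfl
  set G : V (N / l) → ℝ := Pi.single x 1 with hG
  have h2 := V0x_le_uc hb hl hT h1 F G
  have e1 : ∑ y, G y * V0x N l b T y F = V0x N l b T x F := by
    rw [Finset.sum_eq_single x]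
    · rw [hG, Pi.single_eq_same, one_mul]
    · intro y _ hy
      rw [hG, Pi.single_eq_of_ne hy, zero_mul]
    · intro h
      exact absurd (Finset.mem_univ x) h
  have e2 : ∑ y, (G y : ℂ) * H889.uc N l b T y F = H889.uc N l b T x F := by
    rw [Finset.sum_eq_single x]
    · rw [hG, Pi.single_eq_same, Complex.ofReal_one, one_mul]
    · intro y _ hy
      rw [hG, Pi.single_eq_of_ne hy, Complex.ofReal_zero, zero_mul]
    · intro h
      exact absurd (Finset.mem_univ x) h
  have e3 : ∑ y, G y ^ 2 = 1 := by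
    rw [Finset.sum_eq_single x]
    · rw [hG, Pi.single_eq_same, one_pow]
    · intro y _ hy
      rw [hG, Pi.single_eq_of_ne hy]
      norm_num
    · intro h
      exact absurd (Finset.mem_univ x) h
  rw [e1, e2, e3, mul_one] at h2
  have h3 := Rcl_le_qf (N := N) (l := l) hb hl hT (F + G)
  have h4 := Rcl_le_qf (N := N) (l := l) hb hl hT (F - G)
  have hA := (ti_acl (N := N) (l := l) (b := b) hb hl hT (le_refl T)).transpose
  have q1 := H37.qf_add_vec hA F G
  have q2 := H37.qf_sub_vec hA F G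
  have q3 := qf_acl_le (N := N) (l := l) hb hl hT G
  rw [e3, mul_one] at q3
  have q0 := qf_acl_nonneg (N := N) (l := l) hb hl hT F
  have h5 := H889.norm_uc_le hb hT hl x F
  have hπ := Real.pi_pos
  have h6 : 2 * Real.pi * ‖H889.uc N l b T x F‖ ≤ T * (l : ℝ) ^ 2 := by
    calc 2 * Real.pi * ‖H889.uc N l b T x F‖ ≤
        2 * Real.pi * ((2 * Real.pi)⁻¹ * (T * (l : ℝ) ^ 2)) :=
          mul_le_mul_of_nonneg_left h5 (by positivity)
      _ = T * (l : ℝ) ^ 2 := by field_simp
  set H := omH (wT b N) (MC N l T T) with hHd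
  set ν := T * (l : ℝ) ^ 2 with hν
  have hν0 : 0 ≤ ν := by positivity
  have hH2 : H ≤ 1 / 2 := by
    rw [eo, hE] at h1
    linarith
  have hS : Rcl N l b T T (F + G) + Rcl N l b T T (F - G) ≤ qf (acl N l b T T) F + ν := by
    linarith
  have t1 : (1 + H) * (Rcl N l b T T (F + G) + Rcl N l b T T (F - G)) ≤
      (3 / 2) * (qf (acl N l b T T) F + ν) := by
    have a1 := Rcl_nonneg (N := N) (l := l) hb hl hT (le_refl T) (F + G)
    have a2 := Rcl_nonneg (N := N) (l := l) hb hl hT (le_refl T) (F - G)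
    exact mul_le_mul (by linarith) hS (by linarith) (by norm_num)
  have o0 : 0 ≤ oT N l b T := by rw [eo]; exact hT0
  have t2 : oT N l b T * (2 * Real.pi * ‖H889.uc N l b T x F‖) ≤ (1 / 2) * ν :=
    mul_le_mul h1 h6 (by positivity) (by norm_num)
  have t3 : H * (ν + 8 * oT N l b T) ≤ (1 / 2) * (ν + 4) :=
    mul_le_mul hH2 (by linarith) (by linarith) (by norm_num)
  linarith

end torus

end

end Vale.Agent.P159.H462
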