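import Vale.Agent.P159.H462.Q3
import Vale.Agent.P159.H358.Um1
import Vale.Agent.P159.H733.Vt1
import Vale.Agent.P159.H767.Nr3

/-!
P159 (helper462), P#, **(P6)**: the torus change of the letter `aq`, hypotheses.

`N1` is the base torus: `R` is typical there only. All letters at scalar mass `T`, cells `l`,
law `pin (acl N l b T T)`.
-/

set_option linter.unusedSectionVars false
set_option linter.unusedVariables false

namespace Vale.Agent.P159.H462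

open Finset MeasureTheory Matrix
open Vale.Agent.P159.H37
open Vale.Agent.P159.H43 (omT omH)
open Vale.Agent.P159.H363 (acl Rcl pin)
open Vale.Agent.P159.TM.Spec (V)
open Vale.Agent.P159.TM.SpecC (Tor wT)
open Vale.Agent.P159.H864 (TI sym MC cl)
open Vale.Agent.P159.H358 (cutm av)
open Vale.Agent.P159.H733.Torg (ip)
open Vale.Agent.P159.H733.Vt (zb trp iw incr_of_ent)
open Vale.Agent.P159.H767 (Sk)

noncomputable section

/-- window increments (half side `D`) of the typical laws of two tori are close in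
Hilbert-Schmidt norm -/
def WinHS {n1 n2 : ℕ} [NeZero n1] [NeZero n2] (D : ℕ) (A1 : Matrix (V n1) (V n1) ℝ)
    (A2 : Matrix (V n2) (V n2) ℝ) (η : ℝ) : Prop :=
  ∃ H : Matrix (V n1) (V n1) ℝ, Hᵀ = H ∧
    (iw D (0 : V n2) * pin A2) * (iw D (0 : V n2) * pin A2)ᵀ =
      (iw D (0 : V n1) * pin A1) * (1 + H) * (iw D (0 : V n1) * pin A1)ᵀ ∧
    ∑ x, ∑ y, H x y ^ 2 ≤ η ^ 2

/-- from the entries of the covariances -/
theorem winHS_of_ent {n1 n2 : ℕ} [NeZero n1] [NeZero n2] {A1 : Matrix (V n1) (V n1) ℝ}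
    {A2 : Matrix (V n2) (V n2) ℝ} {ν c c2 e η : ℝ} (h1 : Dom A1 ν c) (h2 : Dom A2 ν c2) {D : ℕ}
    (hD : 2 * D < n1)
    (hent : ∀ ζ ∈ zb (2 * D), |((pin A2 * (pin A2)ᵀ) 0 (ip n2 ζ) - (pin A2 * (pin A2)ᵀ) 0 0)
      - ((pin A1 * (pin A1)ᵀ) 0 (ip n1 ζ) - (pin A1 * (pin A1)ᵀ) 0 0)| ≤ e)
    (he0 : 0 ≤ e) (he : 3 * ν * (2 * D + 1) ^ 2 * e ≤ η) : WinHS D A1 A2 η := by
  have hν := h1.hν
  have k1 : H733.Torg.Cv 0 A1 (pin A1 * (pin A1)ᵀ) := by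
    rw [H363.pin_mul h1.ti h1.nn]
    refine ⟨H864.ti_fc _ _, fun k _ => ?_⟩
    rw [H864.sym_fc, add_zero]
  have k2 : TI (pin A2 * (pin A2)ᵀ) := by
    rw [H363.pin_mul h2.ti h2.nn]
    exact H864.ti_fc _ _
  have k0 : 0 ≤ sym (pin A1 * (pin A1)ᵀ) 0 := by
    rw [H363.pin_mul h1.ti h1.nn, H864.sym_fc]
    exact inv_nonneg.2 (h1.nn 0)
  obtain ⟨H, hH, hG, hS⟩ := incr_of_ent (B1 := iw D (0 : V n1) * pin A1) k1 h1 (le_refl 0) k0 k2 hD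
    hent 0 (0 : V n2) (by
      rw [Matrix.transpose_mul]
      simp only [Matrix.mul_assoc])
  refine ⟨H, hH, ?_, hS.trans (pow_le_pow_left₀ (by positivity) ?_ 2)⟩
  · rw [← hG, Matrix.transpose_mul]
    simp only [Matrix.mul_assoc]
  · rwa [add_zero]

section loc

/-- the derivative of the mean letter of the torus `B` at the centre of a window field read on the
torus `M` at `x` -/
def fL (B M l : ℕ) [NeZero B] [NeZero M] [NeZero (B / l)] [NeZero (M / l)] (b T : ℝ) (D0 : ℕ)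
    (x : V (M / l)) (F : V (M / l) → ℝ) : ℝ :=
  Mx B l b T 0 (cutm D0 0 (trp D0 (0 : V (B / l)) x F))

/-- the same for the remainder `V0l` -/
def rL (B M l : ℕ) [NeZero B] [NeZero M] [NeZero (B / l)] [NeZero (M / l)] (b T : ℝ) (D0 : ℕ)
    (x : V (M / l)) (F : V (M / l) → ℝ) : ℝ :=
  V0x B l b T 0 (cutm D0 0 (trp D0 (0 : V (B / l)) x F))

/-- the inputs of one torus -/
structure P6t (B M l : ℕ) [NeZero B] [NeZero M] [NeZero (B / l)] [NeZero (M / l)] (b T : ℝ)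
    (D0 m : ℕ) (c e0 W : ℝ) : Prop where
  hl : l ∣ M
  dom : Dom (acl M l b T T) (T * (l : ℝ) ^ 2) c
  fit : 4 * (D0 + m) < M / l
  loc : ∀ x, ∫ g, (Mx M l b T x (pin (acl M l b T T) *ᵥ g) -
    fL B M l b T D0 x (pin (acl M l b T T) *ᵥ g)) ^ 2 ∂(gau (V (M / l))) ≤ e0 ^ 2
  W : ((M / l : ℕ) : ℝ) ^ 2 ≤ W

/-- **hypotheses of (P6)** -/
structure P6h (N1 N2 N3 l : ℕ) [NeZero N1] [NeZero N2] [NeZero N3] [NeZero (N1 / l)]
    [NeZero (N2 / l)] [NeZero (N3 / l)] (b T : ℝ) (D0 m : ℕ)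
    (c W e0 δ εA Yu εH η12 η23 : ℝ) : Prop where
  hb : 0 ≤ b
  hT : 0 < T
  /-- constants -/
  W1 : 1 ≤ W
  Wν : (T * (l : ℝ) ^ 2)⁻¹ ≤ W
  Wc : c⁻¹ ≤ W
  ν1 : T * (l : ℝ) ^ 2 ≤ 1
  /-- the block -/
  hm : 1 ≤ m
  hνm : T * (l : ℝ) ^ 2 * (m : ℝ) ^ 2 ≤ 1
  /-- the tori -/
  t1 : P6t N1 N1 l b T D0 m c e0 W
  t2 : P6t N1 N2 l b T D0 m c e0 W
  t3 : P6t N1 N3 l b T D0 m c e0 W
  he0 : 0 ≤ e0
  /-- the base torus: typical size of `R` -/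
  typ : ∀ G : V (N1 / l) → ℝ, T * (l : ℝ) ^ 2 * ∑ x, G x ^ 2 ≤ 1 →
    ∫ g, Rcl N1 l b T T (pin (acl N1 l b T T) *ᵥ g + G) ^ 2 ∂(gau (V (N1 / l))) ≤ δ ^ 2
  hδ : 0 ≤ δ
  /-- the base torus: the form outside the window -/
  out : ∀ x, ∫ g, ((acl N1 l b T T *ᵥ cutm D0 x (pin (acl N1 l b T T) *ᵥ g)) x -
    (acl N1 l b T T *ᵥ (pin (acl N1 l b T T) *ᵥ g)) x) ^ 2 ∂(gau (V (N1 / l))) ≤
      (T * (l : ℝ) ^ 2 * εA) ^ 2
  hεA : 0 ≤ εA
  /-- the base torus: oscillation in the constant -/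
  oT1 : oT N1 l b T ≤ 1 / 2
  oH : omH (wT b N1) (MC N1 l T T) ≤ εH
  /-- the base torus: cell densities -/
  uc : ∀ x, ∫ g, ‖H889.uc N1 l b T x (pin (acl N1 l b T T) *ᵥ g)‖ ^ 2 ∂(gau (V (N1 / l))) ≤
    (T * (l : ℝ) ^ 2 * Yu) ^ 2
  hYu : 0 ≤ Yu
  /-- window laws -/
  h12 : WinHS (D0 + m) (acl N1 l b T T) (acl N2 l b T T) η12
  h23 : WinHS (D0 + m) (acl N2 l b T T) (acl N3 l b T T) η23
  η12p : 0 < η12
  η12s : η12 ≤ 1 / 2
  η23p : 0 ≤ η23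
  η23s : 8 * η23 ≤ 1

/-- the size of the remainder -/
def R6 (N1 l : ℕ) [NeZero N1] [NeZero (N1 / l)] (b T δ εA Yu εH W e0 : ℝ) : ℝ :=
  4 * δ + 7 * oT N1 l b T * Yu + 5 * εH + εA + W * e0

/-- the super small error -/
def E6 (W e0 η12 Λ lam : ℝ) : ℝ :=
  e0 + lam * Real.exp (-(Λ / 2)) + lam * (4 : ℝ) ^ (-(1 / (4 * η12))) + 1 / lam

end loc

end

end Vale.Agent.P159.H462
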