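import Vale.Agent.P159.H864.Fou0
import Vale.Agent.P159.TM.H764.Inh

/-!
P159, module IN3 (helper462), part 1: lattice sums on the torus `V N`, uniform in `N`.

* `sum_inv_sq` : `∑_{k ≠ 0} 1/(λ(k)+x)² ≤ 5 N²/x` for all `x > 0`;
* `sum_high`   : `∑_{λ(k) ≥ ν} 1/λ(k)² ≤ 20 N²/ν`;
* `card_low`   : `#{k ≠ 0 : λ(k) < ν} ≤ 20 ν N²`;
* `sum_log`    : `∑_{k ≠ 0, λ(k) < ν} 1/(λ(k)+m) ≤ 25 N² (1 + log (1 + ν/m))`.
-/

set_option linter.unusedSectionVars false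

namespace Vale.Agent.P159.H462

open Finset
open Vale.Agent.P159.TM.H764 (cN EE)
open Vale.Agent.P159.TM.Spec (V)

noncomputable section

variable {N : ℕ} [NeZero N]

/-- one dimensional symbol -/
def mu1 (j : ZMod N) : ℝ := 2 * (1 - cN j)

lemma EE_eq (k : V N) : EE k = mu1 k.1 + mu1 k.2 := rfl

lemma mu1_nonneg (j : ZMod N) : 0 ≤ mu1 j := by
  unfold mu1
  have := TM.H764.cN_le_one j
  linarith

lemma EE_nonneg (k : V N) : 0 ≤ EE k := by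
  rw [EE_eq]
  exact add_nonneg (mu1_nonneg _) (mu1_nonneg _)

lemma N_pos' : (0 : ℝ) < (N : ℝ) := by exact_mod_cast NeZero.pos N

lemma mu1_ge (j : ZMod N) : 16 / (N : ℝ) ^ 2 * (j.val : ℝ) ^ 2 ≤ mu1 j ∨
    16 / (N : ℝ) ^ 2 * ((N : ℝ) - (j.val : ℝ)) ^ 2 ≤ mu1 j := by
  have hN : (0 : ℝ) < N := N_pos'
  have hpi := Real.pi_pos
  have hv : (j.val : ℝ) < N := by exact_mod_cast ZMod.val_lt j
  have hv0 : (0 : ℝ) ≤ (j.val : ℝ) := Nat.cast_nonneg _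
  have key : ∀ v : ℝ, 0 ≤ v → v ≤ N / 2 →
      16 / (N : ℝ) ^ 2 * v ^ 2 ≤ 2 * (1 - Real.cos (2 * Real.pi * v / N)) := by
    intro v h0 h1
    have h2 : |2 * Real.pi * v / N| ≤ Real.pi := by
      rw [abs_of_nonneg (by positivity), div_le_iff₀ hN]
      nlinarith
    have h3 := TM.H764.one_sub_cos_low h2
    have h4 : 2 / Real.pi ^ 2 * (2 * Real.pi * v / N) ^ 2 = 8 / (N : ℝ) ^ 2 * v ^ 2 := by
      field_simp
      ring
    rw [h4] at h3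
    calc 16 / (N : ℝ) ^ 2 * v ^ 2 = 2 * (8 / (N : ℝ) ^ 2 * v ^ 2) := by ring
      _ ≤ _ := by linarith
  rcases le_total (j.val : ℝ) (N / 2) with h | h
  · left
    exact key _ hv0 h
  · right
    have h1 := key ((N : ℝ) - j.val) (by linarith) (by linarith)
    have h2 : Real.cos (2 * Real.pi * ((N : ℝ) - j.val) / N) = cN j := by
      unfold TM.H764.cN
      have : 2 * Real.pi * ((N : ℝ) - j.val) / N = 2 * Real.pi - 2 * Real.pi * (j.val : ℝ) / N := by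
        field_simp
      rw [this, Real.cos_two_pi_sub]
    rw [h2] at h1
    exact h1

/-- telescoping -/
lemma tele (n : ℕ) {x a : ℝ} (hx : 0 < x) (ha : 0 < a) :
    ∑ v ∈ range n, (x + a ^ 2 * ((v : ℝ) + 1) ^ 2)⁻¹ ≤ 2 / (a * Real.sqrt x) := by
  set r := Real.sqrt x with hr
  have hr0 : 0 < r := Real.sqrt_pos.2 hx
  have hrx : r ^ 2 = x := Real.sq_sqrt hx.le
  have h1 : ∀ v : ℕ, (x + a ^ 2 * ((v : ℝ) + 1) ^ 2)⁻¹ ≤
      (2 / a) * ((r + a * (v : ℝ))⁻¹) - (2 / a) * ((r + a * ((v + 1 : ℕ) : ℝ))⁻¹) := by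
    intro v
    have hv : (0 : ℝ) ≤ v := Nat.cast_nonneg v
    have h2 : 0 < r + a * (v : ℝ) := by positivity
    have h3 : 0 < r + a * ((v : ℝ) + 1) := by positivity
    have h4 : (2 / a) * ((r + a * (v : ℝ))⁻¹) - (2 / a) * ((r + a * ((v + 1 : ℕ) : ℝ))⁻¹) =
        2 / ((r + a * (v : ℝ)) * (r + a * ((v : ℝ) + 1))) := by
      push_cast
      field_simp
      ring
    rw [h4, inv_eq_one_div, div_le_div_iff₀ (by positivity) (by positivity), ← hrx]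
    nlinarith [sq_nonneg (r - a * (v : ℝ)), sq_nonneg (r - a * ((v : ℝ) + 1)), mul_pos hr0 ha,
      mul_nonneg (mul_pos ha ha).le hv, mul_nonneg (mul_pos hr0 ha).le hv,
      mul_nonneg (mul_pos ha ha).le (mul_nonneg hv hv)]
  calc ∑ v ∈ range n, (x + a ^ 2 * ((v : ℝ) + 1) ^ 2)⁻¹
      ≤ ∑ v ∈ range n, ((2 / a) * ((r + a * (v : ℝ))⁻¹) -
        (2 / a) * ((r + a * ((v + 1 : ℕ) : ℝ))⁻¹)) := Finset.sum_le_sum fun v _ => h1 v
    _ = (2 / a) * ((r + a * ((0 : ℕ) : ℝ))⁻¹) - (2 / a) * ((r + a * (n : ℝ))⁻¹) :=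
        Finset.sum_range_sub' (fun v : ℕ => (2 / a) * ((r + a * (v : ℝ))⁻¹)) n
    _ ≤ (2 / a) * ((r + a * ((0 : ℕ) : ℝ))⁻¹) := by
        have : 0 ≤ (2 / a) * ((r + a * (n : ℝ))⁻¹) := by positivity
        linarith
    _ = 2 / (a * r) := by
        simp
        field_simp

lemma sum_val (f : ℕ → ℝ) : ∑ j : ZMod N, f j.val = ∑ v ∈ range N, f v := by
  refine Finset.sum_nbij (fun j => j.val) ?_ ?_ ?_ ?_
  · intro j _
    exact Finset.mem_range.2 (ZMod.val_lt j)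
  · intro a _ b _ h
    exact ZMod.val_injective N h
  · intro v hv
    rw [Finset.coe_range, Set.mem_Iio] at hv
    exact ⟨(v : ZMod N), by simp, ZMod.val_cast_of_lt hv⟩
  · intro j _
    rfl

/-- the one dimensional sum -/
lemma sum1 {x : ℝ} (hx : 0 < x) : ∑ j : ZMod N, (x + mu1 j)⁻¹ ≤ 1 / x + N / Real.sqrt x := by
  have hN : (0 : ℝ) < N := N_pos'
  have hs : 0 < Real.sqrt x := Real.sqrt_pos.2 hx
  set a : ℝ := 4 / N with ha
  have ha0 : 0 < a := by positivity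
  have ha2 : a ^ 2 = 16 / (N : ℝ) ^ 2 := by rw [ha]; ring
  have h1 : ∀ j : ZMod N, (x + mu1 j)⁻¹ ≤ (x + a ^ 2 * (j.val : ℝ) ^ 2)⁻¹ +
      (x + a ^ 2 * ((N : ℝ) - (j.val : ℝ)) ^ 2)⁻¹ := by
    intro j
    rcases mu1_ge j with h | h
    · rw [← ha2] at h
      have h2 : (x + mu1 j)⁻¹ ≤ (x + a ^ 2 * (j.val : ℝ) ^ 2)⁻¹ :=
        inv_anti₀ (by positivity) (by linarith)
      have h3 : 0 ≤ (x + a ^ 2 * ((N : ℝ) - (j.val : ℝ)) ^ 2)⁻¹ := by positivity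
      linarith
    · rw [← ha2] at h
      have h2 : (x + mu1 j)⁻¹ ≤ (x + a ^ 2 * ((N : ℝ) - (j.val : ℝ)) ^ 2)⁻¹ :=
        inv_anti₀ (by positivity) (by linarith)
      have h3 : 0 ≤ (x + a ^ 2 * (j.val : ℝ) ^ 2)⁻¹ := by positivity
      linarith
  have h2 : ∑ j : ZMod N, (x + a ^ 2 * (j.val : ℝ) ^ 2)⁻¹ ≤ 1 / x + 2 / (a * Real.sqrt x) := by
    rw [sum_val (fun v => (x + a ^ 2 * (v : ℝ) ^ 2)⁻¹)]
    have hN1 : N = (N - 1) + 1 := (Nat.succ_pred_eq_of_pos (NeZero.pos N)).symm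
    rw [hN1, Finset.sum_range_succ']
    have h3 := tele (N - 1) hx ha0
    have h4 : (x + a ^ 2 * ((0 : ℕ) : ℝ) ^ 2)⁻¹ = 1 / x := by
      simp
    rw [h4]
    push_cast
    linarith
  have h3 : ∑ j : ZMod N, (x + a ^ 2 * ((N : ℝ) - (j.val : ℝ)) ^ 2)⁻¹ ≤
      2 / (a * Real.sqrt x) := by
    rw [sum_val (fun v => (x + a ^ 2 * ((N : ℝ) - (v : ℝ)) ^ 2)⁻¹)]
    have h4 := tele N hx ha0
    rw [← Finset.sum_range_reflect] at h4
    refine le_trans (le_of_eq ?_) h4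
    refine Finset.sum_congr rfl fun v hv => ?_
    have h5 : v + 1 ≤ N := Finset.mem_range.1 hv
    have h6 : ((N - 1 - v : ℕ) : ℝ) = (N : ℝ) - 1 - v := by
      rw [Nat.sub_sub, Nat.cast_sub (by omega)]
      push_cast
      ring
    rw [h6]
    congr 3
    ring
  have h4 : 2 / (a * Real.sqrt x) = N / Real.sqrt x / 2 := by
    rw [ha]
    field_simp
    ring
  calc ∑ j : ZMod N, (x + mu1 j)⁻¹ ≤ ∑ j : ZMod N, ((x + a ^ 2 * (j.val : ℝ) ^ 2)⁻¹ +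
      (x + a ^ 2 * ((N : ℝ) - (j.val : ℝ)) ^ 2)⁻¹) := Finset.sum_le_sum fun j _ => h1 j
    _ = _ := Finset.sum_add_distrib
    _ ≤ 1 / x + 2 / (a * Real.sqrt x) + 2 / (a * Real.sqrt x) := add_le_add h2 h3
    _ = 1 / x + N / Real.sqrt x := by rw [h4]; ring

/-- the two dimensional sum, all modes -/
lemma sum2 {x : ℝ} (hx : 0 < x) :
    ∑ k : V N, ((EE k + x) ^ 2)⁻¹ ≤ (1 / x + N / Real.sqrt x) ^ 2 := by
  have h1 : ∀ k : V N, ((EE k + x) ^ 2)⁻¹ ≤ (x + mu1 k.1)⁻¹ * (x + mu1 k.2)⁻¹ := by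
    intro k
    have h2 := mu1_nonneg k.1
    have h3 := mu1_nonneg k.2
    rw [← mul_inv]
    refine inv_anti₀ (by positivity) ?_
    rw [EE_eq]
    nlinarith [mul_nonneg h2 h3]
  have h4 : ∑ k : V N, (x + mu1 k.1)⁻¹ * (x + mu1 k.2)⁻¹ = (∑ j : ZMod N, (x + mu1 j)⁻¹) ^ 2 := by
    rw [Fintype.sum_prod_type, sq, Finset.sum_mul_sum]
  calc ∑ k : V N, ((EE k + x) ^ 2)⁻¹ ≤ ∑ k : V N, (x + mu1 k.1)⁻¹ * (x + mu1 k.2)⁻¹ :=
        Finset.sum_le_sum fun k _ => h1 k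
    _ = (∑ j : ZMod N, (x + mu1 j)⁻¹) ^ 2 := h4
    _ ≤ _ := by
        refine pow_le_pow_left₀ ?_ (sum1 hx) 2
        exact Finset.sum_nonneg fun j _ => inv_nonneg.2 (add_nonneg hx.le (mu1_nonneg j))

lemma EE_gap {k : V N} (hk : k ≠ 0) : 16 / (N : ℝ) ^ 2 ≤ EE k := by
  have hN : (0 : ℝ) < N := N_pos'
  have h1 : ∀ j : ZMod N, j ≠ 0 → 16 / (N : ℝ) ^ 2 ≤ mu1 j := by
    intro j hj
    have h2 : 1 ≤ j.val := Nat.one_le_iff_ne_zero.2 fun h => hj ((ZMod.val_eq_zero j).1 h)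
    have h3 : j.val + 1 ≤ N := ZMod.val_lt j
    have h2' : (1 : ℝ) ≤ j.val := by exact_mod_cast h2
    have h3' : (j.val : ℝ) + 1 ≤ N := by exact_mod_cast h3
    have hc : (0 : ℝ) ≤ 16 / (N : ℝ) ^ 2 := by positivity
    rcases mu1_ge j with h | h
    · refine le_trans ?_ h
      nlinarith [mul_le_mul_of_nonneg_left (one_le_pow₀ h2' (n := 2)) hc]
    · refine le_trans ?_ h
      have h4 : (1 : ℝ) ≤ (N : ℝ) - j.val := by linarith
      nlinarith [mul_le_mul_of_nonneg_left (one_le_pow₀ h4 (n := 2)) hc]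
  rw [EE_eq]
  by_cases h : k.1 = 0
  · have h5 : k.2 ≠ 0 := fun h6 => hk (Prod.ext h h6)
    have := h1 _ h5
    have := mu1_nonneg k.1
    linarith
  · have := h1 _ h
    have := mu1_nonneg k.2
    linarith

lemma EE_pos {k : V N} (hk : k ≠ 0) : 0 < EE k :=
  lt_of_lt_of_le (by have : (0 : ℝ) < N := N_pos'; positivity) (EE_gap hk)

lemma EE_zero : EE (0 : V N) = 0 := by
  unfold TM.H764.EE
  simp [TM.H764.cN_zero]

/-- `∑_{k ≠ 0} 1/(λ+x)² ≤ 5 N²/x` -/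
theorem sum_inv_sq {x : ℝ} (hx : 0 < x) :
    ∑ k ∈ univ.filter (fun k : V N => k ≠ 0), ((EE k + x) ^ 2)⁻¹ ≤ 5 * (N : ℝ) ^ 2 / x := by
  have hN : (0 : ℝ) < N := N_pos'
  rcases le_total (1 / (N : ℝ) ^ 2) x with h | h
  · have h1 : ∑ k ∈ univ.filter (fun k : V N => k ≠ 0), ((EE k + x) ^ 2)⁻¹ ≤
        ∑ k : V N, ((EE k + x) ^ 2)⁻¹ :=
      Finset.sum_le_sum_of_subset_of_nonneg (Finset.filter_subset _ _)
        fun k _ _ => by positivity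
    refine le_trans h1 (le_trans (sum2 hx) ?_)
    set r := Real.sqrt x with hr
    have hr0 : 0 < r := Real.sqrt_pos.2 hx
    have hrx : r ^ 2 = x := Real.sq_sqrt hx.le
    have h2 : 1 / (N : ℝ) ≤ r := by
      rw [hr]
      refine Real.le_sqrt_of_sq_le ?_
      rw [div_pow, one_pow]
      exact h
    have h3 : 1 / x ≤ N / r := by
      rw [← hrx, div_le_div_iff₀ (by positivity) hr0]
      rw [div_le_iff₀ hN] at h2
      nlinarith
    have h4 : (1 / x + N / r) ^ 2 ≤ (2 * (N / r)) ^ 2 := by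
      refine pow_le_pow_left₀ (by positivity) ?_ 2
      linarith
    refine le_trans h4 ?_
    have h5 : (2 * (N / r)) ^ 2 = 4 * (N : ℝ) ^ 2 / x := by
      rw [← hrx]
      field_simp
      ring
    rw [h5]
    exact div_le_div_of_nonneg_right (by nlinarith [sq_nonneg (N : ℝ)]) hx.le
  · set y : ℝ := 1 / (N : ℝ) ^ 2 with hy
    have hy0 : 0 < y := by positivity
    have h1 : ∀ k ∈ univ.filter (fun k : V N => k ≠ 0), ((EE k + x) ^ 2)⁻¹ ≤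
        (17 / 16) ^ 2 * ((EE k + y) ^ 2)⁻¹ := by
      intro k hk
      have hk' : k ≠ 0 := (Finset.mem_filter.1 hk).2
      have h2 := EE_gap hk'
      have h3 : 16 * y ≤ EE k := by rw [hy]; linarith [h2, (by ring : 16 * (1 / (N : ℝ) ^ 2) =
        16 / (N : ℝ) ^ 2)]
      have h4 : EE k + y ≤ 17 / 16 * (EE k + x) := by linarith
      have h5 : 0 < EE k + y := by linarith [EE_nonneg k]
      have h6 : 0 < EE k + x := by linarith [EE_nonneg k]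
      rw [← inv_inv ((17 / 16 : ℝ) ^ 2), ← mul_inv]
      refine inv_anti₀ (by positivity) ?_
      have h7 := pow_le_pow_left₀ h5.le h4 2
      rw [inv_mul_le_iff₀ (by positivity)]
      calc (EE k + y) ^ 2 ≤ (17 / 16 * (EE k + x)) ^ 2 := h7
        _ = _ := by ring
    have h2 : ∑ k ∈ univ.filter (fun k : V N => k ≠ 0), ((EE k + y) ^ 2)⁻¹ ≤
        ∑ k : V N, ((EE k + y) ^ 2)⁻¹ :=
      Finset.sum_le_sum_of_subset_of_nonneg (Finset.filter_subset _ _)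
        fun k _ _ => by positivity
    have h3 := sum2 (N := N) hy0
    have h4 : Real.sqrt y = 1 / N := by
      rw [hy, Real.sqrt_div (by norm_num), Real.sqrt_one, Real.sqrt_sq hN.le]
    have h5 : (1 / y + N / Real.sqrt y) ^ 2 = 4 * (N : ℝ) ^ 2 * (N : ℝ) ^ 2 := by
      rw [h4, hy]
      field_simp
      ring
    rw [h5] at h3
    calc ∑ k ∈ univ.filter (fun k : V N => k ≠ 0), ((EE k + x) ^ 2)⁻¹
        ≤ ∑ k ∈ univ.filter (fun k : V N => k ≠ 0), (17 / 16) ^ 2 * ((EE k + y) ^ 2)⁻¹ :=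
          Finset.sum_le_sum h1
      _ = (17 / 16) ^ 2 * ∑ k ∈ univ.filter (fun k : V N => k ≠ 0), ((EE k + y) ^ 2)⁻¹ := by
          rw [Finset.mul_sum]
      _ ≤ (17 / 16) ^ 2 * (4 * (N : ℝ) ^ 2 * (N : ℝ) ^ 2) :=
          mul_le_mul_of_nonneg_left (h2.trans h3) (by norm_num)
      _ ≤ 5 * (N : ℝ) ^ 2 * (N : ℝ) ^ 2 := by
          nlinarith [mul_nonneg (sq_nonneg (N : ℝ)) (sq_nonneg (N : ℝ))]
      _ ≤ 5 * (N : ℝ) ^ 2 * (1 / x) := by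
          refine mul_le_mul_of_nonneg_left ?_ (by positivity)
          rw [hy, le_div_iff₀ (by positivity)] at h
          rw [le_div_iff₀ hx]
          linarith
      _ = 5 * (N : ℝ) ^ 2 / x := by ring

/-- `∑_{λ ≥ ν} 1/λ² ≤ 20 N²/ν` -/
theorem sum_high {ν : ℝ} (hν : 0 < ν) :
    ∑ k ∈ univ.filter (fun k : V N => ν ≤ EE k), (EE k ^ 2)⁻¹ ≤ 20 * (N : ℝ) ^ 2 / ν := by
  have h1 : ∀ k ∈ univ.filter (fun k : V N => ν ≤ EE k), (EE k ^ 2)⁻¹ ≤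
      4 * ((EE k + ν) ^ 2)⁻¹ := by
    intro k hk
    have h2 : ν ≤ EE k := (Finset.mem_filter.1 hk).2
    have h3 : 0 < EE k := by linarith
    rw [← div_eq_mul_inv, inv_eq_one_div, div_le_div_iff₀ (by positivity) (by positivity)]
    nlinarith
  have hsub : univ.filter (fun k : V N => ν ≤ EE k) ⊆ univ.filter (fun k : V N => k ≠ 0) := by
    intro k hk
    have h2 : ν ≤ EE k := (Finset.mem_filter.1 hk).2
    refine Finset.mem_filter.2 ⟨Finset.mem_univ _, fun h => ?_⟩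
    rw [h, EE_zero] at h2
    linarith
  calc ∑ k ∈ univ.filter (fun k : V N => ν ≤ EE k), (EE k ^ 2)⁻¹
      ≤ ∑ k ∈ univ.filter (fun k : V N => ν ≤ EE k), 4 * ((EE k + ν) ^ 2)⁻¹ :=
        Finset.sum_le_sum h1
    _ ≤ ∑ k ∈ univ.filter (fun k : V N => k ≠ 0), 4 * ((EE k + ν) ^ 2)⁻¹ :=
        Finset.sum_le_sum_of_subset_of_nonneg hsub fun k _ _ => by positivity
    _ = 4 * ∑ k ∈ univ.filter (fun k : V N => k ≠ 0), ((EE k + ν) ^ 2)⁻¹ := by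
        rw [Finset.mul_sum]
    _ ≤ 4 * (5 * (N : ℝ) ^ 2 / ν) := mul_le_mul_of_nonneg_left (sum_inv_sq hν) (by norm_num)
    _ = 20 * (N : ℝ) ^ 2 / ν := by ring

/-- low modes -/
def low (N : ℕ) [NeZero N] (ν : ℝ) : Finset (V N) := univ.filter (fun k : V N => k ≠ 0 ∧ EE k < ν)

/-- `#{k ≠ 0 : λ(k) < ν} ≤ 20 ν N²` -/
theorem card_low {ν : ℝ} (hν : 0 < ν) : ((low N ν).card : ℝ) ≤ 20 * ν * (N : ℝ) ^ 2 := by
  have h1 : ∀ k ∈ low N ν, (1 : ℝ) ≤ 4 * ν ^ 2 * ((EE k + ν) ^ 2)⁻¹ := by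
    intro k hk
    have h2 : EE k < ν := (Finset.mem_filter.1 hk).2.2
    have h3 := EE_nonneg k
    rw [← div_eq_mul_inv, le_div_iff₀ (by positivity)]
    nlinarith
  have hsub : low N ν ⊆ univ.filter (fun k : V N => k ≠ 0) := fun k hk =>
    Finset.mem_filter.2 ⟨Finset.mem_univ _, (Finset.mem_filter.1 hk).2.1⟩
  calc ((low N ν).card : ℝ) = ∑ k ∈ low N ν, (1 : ℝ) := by simp
    _ ≤ ∑ k ∈ low N ν, 4 * ν ^ 2 * ((EE k + ν) ^ 2)⁻¹ := Finset.sum_le_sum h1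
    _ ≤ ∑ k ∈ univ.filter (fun k : V N => k ≠ 0), 4 * ν ^ 2 * ((EE k + ν) ^ 2)⁻¹ :=
        Finset.sum_le_sum_of_subset_of_nonneg hsub fun k _ _ => by positivity
    _ = 4 * ν ^ 2 * ∑ k ∈ univ.filter (fun k : V N => k ≠ 0), ((EE k + ν) ^ 2)⁻¹ := by
        rw [Finset.mul_sum]
    _ ≤ 4 * ν ^ 2 * (5 * (N : ℝ) ^ 2 / ν) :=
        mul_le_mul_of_nonneg_left (sum_inv_sq hν) (by positivity)
    _ = 20 * ν * (N : ℝ) ^ 2 := by
        field_simp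
        ring

/-- dyadic telescoping -/
lemma dyad {l m : ℝ} (hl : 0 ≤ l) (hm : 0 < m) (J : ℕ) :
    (l + m)⁻¹ ≤ ∑ i ∈ range J, (2 ^ i * m) * ((l + 2 ^ i * m) ^ 2)⁻¹ + (l + 2 ^ J * m)⁻¹ := by
  induction J with
  | zero => simp
  | succ J ih =>
    rw [Finset.sum_range_succ]
    have hx : 0 < (2 : ℝ) ^ J * m := by positivity
    have h1 : (l + 2 ^ J * m)⁻¹ - (l + 2 ^ (J + 1) * m)⁻¹ ≤
        (2 ^ J * m) * ((l + 2 ^ J * m) ^ 2)⁻¹ := by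
      have h2 : (2 : ℝ) ^ (J + 1) * m = 2 * (2 ^ J * m) := by ring
      rw [h2]
      set x : ℝ := 2 ^ J * m with hxdef
      have h3 : (l + x)⁻¹ - (l + 2 * x)⁻¹ = x / ((l + x) * (l + 2 * x)) := by
        field_simp
        ring
      rw [h3, ← div_eq_mul_inv]
      refine div_le_div_of_nonneg_left hx.le (by positivity) ?_
      nlinarith
    linarith

/-- `∑_{k ≠ 0, λ(k) < ν} 1/(λ(k)+m) ≤ 25 N² (1 + log (1 + ν/m))` -/
theorem sum_log {ν m : ℝ} (hν : 0 < ν) (hm : 0 < m) :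
    ∑ k ∈ low N ν, (EE k + m)⁻¹ ≤ 25 * (N : ℝ) ^ 2 * (1 + Real.log (1 + ν / m)) := by
  have hN : (0 : ℝ) < N := N_pos'
  have hq : 0 < ν / m := by positivity
  set J : ℕ := ⌈Real.log (1 + ν / m) / Real.log 2⌉₊ with hJ
  have hl2 : 0 < Real.log 2 := Real.log_pos (by norm_num)
  have hl0 : 0 ≤ Real.log (1 + ν / m) := Real.log_nonneg (by linarith)
  have h1 : (J : ℝ) ≤ Real.log (1 + ν / m) / Real.log 2 + 1 :=
    (Nat.ceil_lt_add_one (by positivity)).le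
  have h2 : Real.log (1 + ν / m) / Real.log 2 ≤ J := Nat.le_ceil _
  have h3 : 1 + ν / m ≤ 2 ^ J := by
    rw [div_le_iff₀ hl2, ← Real.log_pow] at h2
    exact (Real.log_le_log_iff (by linarith) (by positivity)).1 h2
  have h4 : ν ≤ 2 ^ J * m := by
    have h5 : ν / m ≤ 2 ^ J := by linarith
    rwa [div_le_iff₀ hm] at h5
  have hsub : low N ν ⊆ univ.filter (fun k : V N => k ≠ 0) := fun k hk =>
    Finset.mem_filter.2 ⟨Finset.mem_univ _, (Finset.mem_filter.1 hk).2.1⟩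
  have h5 : ∀ i ∈ range J, ∑ k ∈ low N ν, (2 ^ i * m) * ((EE k + 2 ^ i * m) ^ 2)⁻¹ ≤
      5 * (N : ℝ) ^ 2 := by
    intro i _
    have hx : 0 < (2 : ℝ) ^ i * m := by positivity
    calc ∑ k ∈ low N ν, (2 ^ i * m) * ((EE k + 2 ^ i * m) ^ 2)⁻¹
        ≤ ∑ k ∈ univ.filter (fun k : V N => k ≠ 0), (2 ^ i * m) * ((EE k + 2 ^ i * m) ^ 2)⁻¹ :=
          Finset.sum_le_sum_of_subset_of_nonneg hsub fun k _ _ => by positivity
      _ = (2 ^ i * m) * ∑ k ∈ univ.filter (fun k : V N => k ≠ 0), ((EE k + 2 ^ i * m) ^ 2)⁻¹ := by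
          rw [Finset.mul_sum]
      _ ≤ (2 ^ i * m) * (5 * (N : ℝ) ^ 2 / (2 ^ i * m)) :=
          mul_le_mul_of_nonneg_left (sum_inv_sq hx) hx.le
      _ = 5 * (N : ℝ) ^ 2 := by field_simp
  have h6 : ∑ k ∈ low N ν, (EE k + 2 ^ J * m)⁻¹ ≤ 20 * (N : ℝ) ^ 2 := by
    have hx : 0 < (2 : ℝ) ^ J * m := by positivity
    calc ∑ k ∈ low N ν, (EE k + 2 ^ J * m)⁻¹ ≤ ∑ k ∈ low N ν, ν⁻¹ := by
          refine Finset.sum_le_sum fun k _ => inv_anti₀ hν ?_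
          linarith [EE_nonneg k]
      _ = (low N ν).card * ν⁻¹ := by rw [Finset.sum_const, nsmul_eq_mul]
      _ ≤ 20 * ν * (N : ℝ) ^ 2 * ν⁻¹ := mul_le_mul_of_nonneg_right (card_low hν) (by positivity)
      _ = 20 * (N : ℝ) ^ 2 := by field_simp
  have h7 : ∑ k ∈ low N ν, (EE k + m)⁻¹ ≤ J * (5 * (N : ℝ) ^ 2) + 20 * (N : ℝ) ^ 2 := by
    calc ∑ k ∈ low N ν, (EE k + m)⁻¹
        ≤ ∑ k ∈ low N ν, (∑ i ∈ range J, (2 ^ i * m) * ((EE k + 2 ^ i * m) ^ 2)⁻¹ +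
          (EE k + 2 ^ J * m)⁻¹) := Finset.sum_le_sum fun k _ => dyad (EE_nonneg k) hm J
      _ = ∑ i ∈ range J, ∑ k ∈ low N ν, (2 ^ i * m) * ((EE k + 2 ^ i * m) ^ 2)⁻¹ +
          ∑ k ∈ low N ν, (EE k + 2 ^ J * m)⁻¹ := by
          rw [Finset.sum_add_distrib, Finset.sum_comm]
      _ ≤ ∑ i ∈ range J, (5 * (N : ℝ) ^ 2) + 20 * (N : ℝ) ^ 2 :=
          add_le_add (Finset.sum_le_sum h5) h6
      _ = J * (5 * (N : ℝ) ^ 2) + 20 * (N : ℝ) ^ 2 := by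
          rw [Finset.sum_const, Finset.card_range, nsmul_eq_mul]
  have h8 : Real.log (1 + ν / m) / Real.log 2 ≤ 2 * Real.log (1 + ν / m) := by
    rw [div_le_iff₀ hl2]
    have := Real.log_two_gt_d9
    nlinarith
  have h9 : (0 : ℝ) < (N : ℝ) ^ 2 := by positivity
  nlinarith [mul_le_mul_of_nonneg_right (h1.trans (add_le_add_left h8 1)) h9.le,
    mul_nonneg hl0 h9.le]

end

end Vale.Agent.P159.H462
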