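import Vale.Agent.P159.H663.Prop
import Vale.Agent.P159.H114.Cell1

/-!
P159 (helper462), P#2 part a: the law of the channel as a probability measure, and the `L²` core.

* `chm μ' J₁ P` : probability measure on `I → ℝ` with density `Zs (post μ' P) (J₁ + Pᵀ g) / norm`
  with respect to `gau I`; `Ech_chm : Ech μ' J₁ P Φ = ∫ Φ (J₁ + Pᵀ g) d chm`;
* `chI_iff` : `ChI μ' J₁ P Φ ↔ Integrable (Φ (J₁ + Pᵀ g)) chm`;
* `l2_core` : if `n = r + a + Y`, `n ⟂ a`, `|⟨r,a⟩| ≤ δ |r| |a|` then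
  `| |n|² - |r|² | ≤ 2 |r| |Y| + 3 |Y|² + 2 δ² |r|²`.
-/

set_option linter.unusedSectionVars false

namespace Vale.Agent.P159.H462

open Finset Matrix MeasureTheory
open Vale.Agent.P159.TM.H104 (EM Ex Cv K3 Lg li nh Gr)
open Vale.Agent.P159.H37
open Vale.Agent.P159.H663 (ChI)

noncomputable section

/-! ### the `L²` core -/

section core

variable {Ω : Type*} [MeasurableSpace Ω] {ρ : Measure Ω}

/-- `L²` norm of a real function -/
def nr (ρ : Measure Ω) (f : Ω → ℝ) : ℝ := Real.sqrt (∫ x, f x ^ 2 ∂ρ)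

lemma nr_nonneg (f : Ω → ℝ) : 0 ≤ nr ρ f := Real.sqrt_nonneg _

lemma nr_sq (f : Ω → ℝ) : nr ρ f ^ 2 = ∫ x, f x ^ 2 ∂ρ :=
  Real.sq_sqrt (integral_nonneg fun _ => sq_nonneg _)

lemma int_mul {f g : Ω → ℝ} (hf : MemLp f 2 ρ) (hg : MemLp g 2 ρ) :
    Integrable (fun x => f x * g x) ρ := hf.integrable_mul hg

lemma int_sq {f : Ω → ℝ} (hf : MemLp f 2 ρ) : Integrable (fun x => f x ^ 2) ρ :=
  hf.integrable_sq

lemma int3 {f g h : Ω → ℝ} (hf : Integrable f ρ) (hg : Integrable g ρ) (hh : Integrable h ρ) :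
    ∫ x, (f x + g x + h x) ∂ρ = ∫ x, f x ∂ρ + ∫ x, g x ∂ρ + ∫ x, h x ∂ρ := by
  have h1 : Integrable (fun x => f x + g x) ρ := hf.add hg
  rw [integral_add h1 hh, integral_add hf hg]

/-- Cauchy-Schwarz -/
lemma abs_int_mul_le {f g : Ω → ℝ} (hf : MemLp f 2 ρ) (hg : MemLp g 2 ρ) :
    |∫ x, f x * g x ∂ρ| ≤ nr ρ f * nr ρ g := by
  have h3 : ∀ t : ℝ, 0 ≤ (∫ x, g x ^ 2 ∂ρ) * (t * t) + (2 * ∫ x, f x * g x ∂ρ) * t +
      ∫ x, f x ^ 2 ∂ρ := by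
    intro t
    have h1 : 0 ≤ ∫ x, (f x + t * g x) ^ 2 ∂ρ := integral_nonneg fun _ => sq_nonneg _
    have h2 : ∫ x, (f x + t * g x) ^ 2 ∂ρ =
        ∫ x, (f x ^ 2 + (2 * t) * (f x * g x)) + t ^ 2 * g x ^ 2 ∂ρ := by
      congr 1
      funext x
      ring
    rw [h2, int3 (int_sq hf) ((int_mul hf hg).const_mul _) ((int_sq hg).const_mul _),
      integral_const_mul, integral_const_mul] at h1
    nlinarith
  have h4 := discrim_le_zero h3
  unfold discrim at h4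
  have h5 : (∫ x, f x * g x ∂ρ) ^ 2 ≤ (nr ρ f * nr ρ g) ^ 2 := by
    rw [mul_pow, nr_sq, nr_sq]
    nlinarith
  exact abs_le_of_sq_le_sq h5 (mul_nonneg (nr_nonneg _) (nr_nonneg _))

lemma nr_add_le {f g : Ω → ℝ} (hf : MemLp f 2 ρ) (hg : MemLp g 2 ρ) :
    nr ρ (fun x => f x + g x) ≤ nr ρ f + nr ρ g := by
  have h1 := (abs_le.1 (abs_int_mul_le hf hg)).2
  have h2 : ∫ x, (f x + g x) ^ 2 ∂ρ =
      ∫ x, f x ^ 2 ∂ρ + 2 * ∫ x, f x * g x ∂ρ + ∫ x, g x ^ 2 ∂ρ := by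
    have e : (fun x => (f x + g x) ^ 2) = fun x => (f x ^ 2 + 2 * (f x * g x)) + g x ^ 2 := by
      funext x
      ring
    rw [e, int3 (int_sq hf) ((int_mul hf hg).const_mul _) (int_sq hg), integral_const_mul]
  have h3 : nr ρ (fun x => f x + g x) ^ 2 ≤ (nr ρ f + nr ρ g) ^ 2 := by
    rw [nr_sq, h2, add_sq, nr_sq, nr_sq]
    linarith
  exact (sq_le_sq₀ (nr_nonneg _) (add_nonneg (nr_nonneg _) (nr_nonneg _))).1 h3

lemma nr_cmul (c : ℝ) (f : Ω → ℝ) : nr ρ (fun x => c * f x) = |c| * nr ρ f := by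
  unfold nr
  simp_rw [mul_pow]
  rw [integral_const_mul, Real.sqrt_mul (sq_nonneg c), Real.sqrt_sq_eq_abs]

lemma nr_zero : nr ρ (fun _ => (0 : ℝ)) = 0 := by
  unfold nr
  simp

lemma nr_sum_le {ι : Type*} (s : Finset ι) {f : ι → Ω → ℝ} (hf : ∀ i ∈ s, MemLp (f i) 2 ρ) :
    nr ρ (fun x => ∑ i ∈ s, f i x) ≤ ∑ i ∈ s, nr ρ (f i) := by
  classical
  induction s using Finset.induction_on with
  | empty => simp only [Finset.sum_empty]; exact nr_zero.le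
  | insert a s ha ih =>
    simp only [Finset.sum_insert ha]
    have h1 : MemLp (fun x => ∑ i ∈ s, f i x) 2 ρ :=
      memLp_finsetSum s fun i hi => hf i (Finset.mem_insert_of_mem hi)
    refine (nr_add_le (hf a (Finset.mem_insert_self a s)) h1).trans ?_
    have := ih fun i hi => hf i (Finset.mem_insert_of_mem hi)
    linarith

/-- **the `L²` core of P#2** -/
theorem l2_core {n r a Y : Ω → ℝ} (hr : MemLp r 2 ρ) (ha : MemLp a 2 ρ) (hY : MemLp Y 2 ρ)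
    (h : n = fun x => r x + a x + Y x) (horth : ∫ x, n x * a x ∂ρ = 0) {δ : ℝ} (hδ : 0 ≤ δ)
    (hnear : |∫ x, r x * a x ∂ρ| ≤ δ * nr ρ r * nr ρ a) :
    |∫ x, n x ^ 2 ∂ρ - ∫ x, r x ^ 2 ∂ρ| ≤
      2 * nr ρ r * nr ρ Y + 3 * nr ρ Y ^ 2 + 2 * δ ^ 2 * nr ρ r ^ 2 := by
  have hrY : MemLp (fun x => r x + Y x) 2 ρ := hr.add hY
  -- `|r+Y|² = |n|² + |a|²`
  have e0 : ∫ x, n x * a x ∂ρ = ∫ x, r x * a x ∂ρ + ∫ x, a x ^ 2 ∂ρ + ∫ x, Y x * a x ∂ρ := by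
    have e : (fun x => n x * a x) = fun x => (r x * a x + a x ^ 2) + Y x * a x := by
      rw [h]
      funext x
      ring
    rw [e, int3 (int_mul hr ha) (int_sq ha) (int_mul hY ha)]
  have hA : ∫ x, a x ^ 2 ∂ρ = -∫ x, r x * a x ∂ρ - ∫ x, Y x * a x ∂ρ := by linarith
  have e1 : ∫ x, n x ^ 2 ∂ρ = ∫ x, (r x + Y x) ^ 2 ∂ρ +
      2 * (∫ x, r x * a x ∂ρ + ∫ x, Y x * a x ∂ρ) + ∫ x, a x ^ 2 ∂ρ := by
    have e : (fun x => n x ^ 2) = fun x => ((r x + Y x) ^ 2 + 2 * (r x * a x + Y x * a x)) +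
        a x ^ 2 := by
      rw [h]
      funext x
      ring
    have i1 : Integrable (fun x => r x * a x + Y x * a x) ρ := (int_mul hr ha).add (int_mul hY ha)
    rw [e, int3 (int_sq hrY) (i1.const_mul 2) (int_sq ha), integral_const_mul,
      integral_add (int_mul hr ha) (int_mul hY ha)]
  have e2 : ∫ x, (r x + Y x) ^ 2 ∂ρ = ∫ x, r x ^ 2 ∂ρ + 2 * ∫ x, r x * Y x ∂ρ +
      ∫ x, Y x ^ 2 ∂ρ := by
    have e : (fun x => (r x + Y x) ^ 2) = fun x => (r x ^ 2 + 2 * (r x * Y x)) + Y x ^ 2 := by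
      funext x
      ring
    rw [e, int3 (int_sq hr) ((int_mul hr hY).const_mul _) (int_sq hY), integral_const_mul]
  have hdiff : ∫ x, n x ^ 2 ∂ρ - ∫ x, r x ^ 2 ∂ρ =
      2 * ∫ x, r x * Y x ∂ρ + ∫ x, Y x ^ 2 ∂ρ - ∫ x, a x ^ 2 ∂ρ := by
    rw [e1, e2]
    linarith
  have hR := nr_nonneg (ρ := ρ) r
  have hYn := nr_nonneg (ρ := ρ) Y
  have hAn := nr_nonneg (ρ := ρ) a
  have hYa := abs_int_mul_le hY ha
  have hrY' := abs_int_mul_le hr hY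
  have hA2 : nr ρ a ^ 2 ≤ (δ * nr ρ r + nr ρ Y) * nr ρ a := by
    rw [nr_sq, hA]
    have h1 := (abs_le.1 hnear).1
    have h2 := (abs_le.1 hYa).1
    nlinarith
  have hA3 : nr ρ a ≤ δ * nr ρ r + nr ρ Y := by
    rcases hAn.eq_or_lt with h0 | h0
    · rw [← h0]
      positivity
    · rw [sq] at hA2
      exact le_of_mul_le_mul_right hA2 h0
  have hA4 : ∫ x, a x ^ 2 ∂ρ ≤ 2 * δ ^ 2 * nr ρ r ^ 2 + 2 * nr ρ Y ^ 2 := by
    rw [← nr_sq]
    have h1 := pow_le_pow_left₀ hAn hA3 2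
    nlinarith [sq_nonneg (δ * nr ρ r - nr ρ Y)]
  have hA0 : 0 ≤ ∫ x, a x ^ 2 ∂ρ := integral_nonneg fun _ => sq_nonneg _
  rw [hdiff, ← nr_sq Y, abs_le]
  have h1 := abs_le.1 hrY'
  constructor
  · nlinarith [h1.1, sq_nonneg (nr ρ Y)]
  · nlinarith [h1.2, sq_nonneg (nr ρ Y), sq_nonneg (δ * nr ρ r)]

end core

/-! ### the law of the channel -/

section channel

variable {V : Type*} [Fintype V] {I : Type*} [Fintype I]

/-- density of the channel law -/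
def chd (μ' : (V → ℤ) → ℝ) (J₁ : V → ℝ) (P : Matrix I V ℝ) (g : I → ℝ) : ℝ :=
  Zs (post μ' P) (J₁ + Pᵀ *ᵥ g) / ∫ g, Zs (post μ' P) (J₁ + Pᵀ *ᵥ g) ∂(gau I)

/-- the law of `g` in the channel, `J = J₁ + Pᵀ g` -/
def chm (μ' : (V → ℤ) → ℝ) (J₁ : V → ℝ) (P : Matrix I V ℝ) : Measure (I → ℝ) :=
  (gau I).withDensity fun g => ENNReal.ofReal (chd μ' J₁ P g)

variable {μ' : (V → ℤ) → ℝ}

lemma chd_pos (hμ : EM μ') (J₁ : V → ℝ) (P : Matrix I V ℝ) (g : I → ℝ) : 0 < chd μ' J₁ P g := by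
  unfold chd
  rw [ch_norm hμ]
  exact div_pos (Zs_pos (em_post hμ P) _) (Zs_pos hμ _)

lemma measurable_chd (hμ : EM μ') (J₁ : V → ℝ) (P : Matrix I V ℝ) :
    Measurable (chd μ' J₁ P) := by
  unfold chd
  exact ((continuous_Zs (em_post hμ P)).measurable.comp (measurable_obs J₁ P)).div_const _

lemma integral_chm (hμ : EM μ') (J₁ : V → ℝ) (P : Matrix I V ℝ) (f : (I → ℝ) → ℝ) :
    ∫ g, f g ∂(chm μ' J₁ P) = ∫ g, chd μ' J₁ P g * f g ∂(gau I) := by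
  unfold chm
  rw [integral_withDensity_eq_integral_toReal_smul
    (measurable_chd hμ J₁ P).ennreal_ofReal (Filter.Eventually.of_forall fun g =>
      ENNReal.ofReal_lt_top)]
  refine integral_congr_ae (Filter.Eventually.of_forall fun g => ?_)
  simp only [smul_eq_mul]
  rw [ENNReal.toReal_ofReal (chd_pos hμ J₁ P g).le]

/-- `Ech` is the integral with respect to `chm` -/
theorem Ech_chm (hμ : EM μ') (J₁ : V → ℝ) (P : Matrix I V ℝ) (Φ : (V → ℝ) → ℝ) :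
    Ech μ' J₁ P Φ = ∫ g, Φ (J₁ + Pᵀ *ᵥ g) ∂(chm μ' J₁ P) := by
  rw [integral_chm hμ]
  unfold Ech chd
  rw [← integral_div]
  refine integral_congr_ae (Filter.Eventually.of_forall fun g => ?_)
  simp only
  ring

lemma integrable_chm (hμ : EM μ') (J₁ : V → ℝ) (P : Matrix I V ℝ) (f : (I → ℝ) → ℝ) :
    Integrable f (chm μ' J₁ P) ↔ Integrable (fun g => chd μ' J₁ P g * f g) (gau I) := by
  unfold chm
  rw [integrable_withDensity_iff_integrable_smul' (measurable_chd hμ J₁ P).ennreal_ofReal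
    (Filter.Eventually.of_forall fun g => ENNReal.ofReal_lt_top)]
  refine integrable_congr (Filter.Eventually.of_forall fun g => ?_)
  simp only [smul_eq_mul]
  rw [ENNReal.toReal_ofReal (chd_pos hμ J₁ P g).le]

/-- integrability in the channel -/
theorem chI_iff (hμ : EM μ') (J₁ : V → ℝ) (P : Matrix I V ℝ) (Φ : (V → ℝ) → ℝ) :
    ChI μ' J₁ P Φ ↔ Integrable (fun g => Φ (J₁ + Pᵀ *ᵥ g)) (chm μ' J₁ P) := by
  rw [integrable_chm hμ]
  unfold ChI chd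
  have hZ := (Zs_pos hμ J₁).ne'
  rw [ch_norm hμ]
  constructor
  · intro h
    refine (h.div_const (Zs μ' J₁)).congr (Filter.Eventually.of_forall fun g => ?_)
    simp only
    ring
  · intro h
    refine (h.const_mul (Zs μ' J₁)).congr (Filter.Eventually.of_forall fun g => ?_)
    simp only
    field_simp

lemma chm_prob (hμ : EM μ') (J₁ : V → ℝ) (P : Matrix I V ℝ) :
    IsProbabilityMeasure (chm μ' J₁ P) := by
  have h1 : Integrable (fun _ : I → ℝ => (1 : ℝ)) (chm μ' J₁ P) :=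
    (chI_iff hμ J₁ P fun _ => 1).1 (ChI.of_EGr hμ J₁ P (EGr.const 1))
  have h2 : IsFiniteMeasure (chm μ' J₁ P) := by
    rcases (integrable_const_iff.1 h1) with h | h
    · exact absurd h one_ne_zero
    · exact h
  have h3 := Ech_const hμ J₁ P (1 : ℝ)
  rw [Ech_chm hμ] at h3
  simp only [integral_const, smul_eq_mul, mul_one] at h3
  refine ⟨?_⟩
  have h4 : ((chm μ' J₁ P) Set.univ).toReal = 1 := h3
  rw [← ENNReal.toReal_one] at h4
  exact (ENNReal.toReal_eq_toReal_iff' (measure_ne_top _ _) ENNReal.one_ne_top).1 h4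

lemma memLp_chm (hμ : EM μ') (J₁ : V → ℝ) (P : Matrix I V ℝ) {Φ : (V → ℝ) → ℝ}
    (hm : Measurable Φ) (h : ChI μ' J₁ P fun J => Φ J * Φ J) :
    MemLp (fun g => Φ (J₁ + Pᵀ *ᵥ g)) 2 (chm μ' J₁ P) := by
  refine (memLp_two_iff_integrable_sq (hm.comp (measurable_obs J₁ P)).aestronglyMeasurable).2 ?_
  refine ((chI_iff hμ J₁ P _).1 h).congr (Filter.Eventually.of_forall fun g => ?_)
  change Φ (J₁ + Pᵀ *ᵥ g) * Φ (J₁ + Pᵀ *ᵥ g) = Φ (J₁ + Pᵀ *ᵥ g) ^ 2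
  ring

/-- linear functionals of the source -/
lemma memLp_dot (hμ : EM μ') (J₁ : V → ℝ) (P : Matrix I V ℝ) (b : V → ℝ) :
    MemLp (fun g => b ⬝ᵥ (J₁ + Pᵀ *ᵥ g)) 2 (chm μ' J₁ P) := by
  refine memLp_chm hμ J₁ P (Φ := fun J => b ⬝ᵥ J) (by unfold dotProduct; fun_prop) ?_
  exact ChI.of_EGr hμ J₁ P ((H663.EGr.dot b).mul (H663.EGr.dot b))

/-- posterior means -/
lemma memLp_Ex (hμ : EM μ') (J₁ : V → ℝ) (P : Matrix I V ℝ) {F : (V → ℤ) → ℝ} (hF : Gr F) :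
    MemLp (fun g => Ex (post μ' P) (J₁ + Pᵀ *ᵥ g) F) 2 (chm μ' J₁ P) := by
  refine memLp_chm hμ J₁ P (Φ := fun J => Ex (post μ' P) J F)
    (TM.H104.continuous_Ex (em_post hμ P) hF).measurable ?_
  exact ChI.of_Ex_mul hμ J₁ P hF hF

end channel

end

end Vale.Agent.P159.H462
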