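import Vale.Agent.P159.H462.L1d
import Vale.Agent.P159.H114.PJ

/-!
P159 (helper462), (L1) part e: functions of exponential growth under the channel law `nuP`, fourth
moments, the tower for `E_f`, and the identity `<c, X> = -σ⁻² E_f <c, F - f>`.
-/

set_option linter.unusedSectionVars false
set_option linter.unusedVariables false

namespace Vale.Agent.P159.H462

open Finset MeasureTheory Matrix
open Vale.Agent.P159.TM.H104 (EM Ex Cv K3 Lg li nh Gr)
open Vale.Agent.P159.H37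
open Vale.Agent.P159.H663 (ChI)
open Vale.Agent.P159.H114 (nuP pm FF XX lc int_nuP integrable_nuP Ech_nuP)

noncomputable section

variable {X : Type*} [Fintype X] {L : Type*} [Fintype L] [DecidableEq L]

/-! ### growth -/

lemma EGr.lin_comp {Φ : (L → ℝ) → ℝ} (hΦ : EGr Φ) (M : Matrix L X ℝ) :
    EGr fun J : X → ℝ => Φ (M *ᵥ J) := by
  obtain ⟨C, hC, h⟩ := hΦ.bdd
  have hmm : Measurable fun J : X → ℝ => M *ᵥ J := H363.measurable_mulVec M
  set D : ℝ := ∑ i, ∑ x, |M i x| with hD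
  have hD0 : 0 ≤ D := Finset.sum_nonneg fun _ _ => Finset.sum_nonneg fun _ _ => abs_nonneg _
  refine EGr.mk' (hΦ.meas.comp hmm) (A := C) (B := C * D) fun J => (h _).trans ?_
  refine mul_le_mul_of_nonneg_left (Real.exp_le_exp.2 ?_) hC
  rw [mul_assoc]
  refine mul_le_mul_of_nonneg_left ?_ hC
  rw [hD, Finset.sum_mul]
  refine Finset.sum_le_sum fun i _ => ?_
  have h1 : |(M *ᵥ J) i| ≤ ∑ x, |M i x| * |J x| := by
    unfold mulVec dotProduct
    refine (Finset.abs_sum_le_sum_abs _ _).trans (Finset.sum_le_sum fun x _ => ?_)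
    rw [abs_mul]
  refine h1.trans ?_
  rw [Finset.sum_mul]
  refine Finset.sum_le_sum fun x _ => mul_le_mul_of_nonneg_left ?_ (abs_nonneg _)
  exact Finset.single_le_sum (f := fun x => |J x|) (fun _ _ => abs_nonneg _) (Finset.mem_univ x)

lemma EGr.smul_comp {Φ : (L → ℝ) → ℝ} (hΦ : EGr Φ) (r : ℝ) : EGr fun F : L → ℝ => Φ (r • F) := by
  have h := EGr.lin_comp hΦ (r • (1 : Matrix L L ℝ))
  simpa only [smul_mulVec, one_mulVec] using h

lemma EGr.ind {Φ : (L → ℝ) → ℝ} (hΦ : EGr Φ) {G : Set (L → ℝ)} (hG : MeasurableSet G) :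
    EGr (G.indicator Φ) := by
  obtain ⟨C, hC, h⟩ := hΦ.bdd
  refine EGr.mk' (hΦ.meas.indicator hG) (A := C) (B := C) fun J => ?_
  by_cases hJ : J ∈ G
  · rw [Set.indicator_of_mem hJ]
    exact h J
  · rw [Set.indicator_of_notMem hJ, abs_zero]
    positivity

lemma EGr.of_bdd {Φ : (L → ℝ) → ℝ} (hm : Measurable Φ) {C : ℝ} (h : ∀ F, |Φ F| ≤ C) : EGr Φ :=
  EGr.mk' hm (A := C) (B := 0) fun F => by simpa using h F

lemma EGr.expl (u : L → ℝ) : EGr fun g : L → ℝ => Real.exp (∑ i, u i * g i) := by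
  refine EGr.mk' (by fun_prop) (A := 1) (B := ∑ i, |u i|) fun g => ?_
  rw [abs_of_pos (Real.exp_pos _), one_mul]
  refine Real.exp_le_exp.2 ?_
  rw [Finset.sum_mul]
  refine Finset.sum_le_sum fun i _ => ?_
  refine (le_abs_self _).trans ?_
  rw [abs_mul]
  exact mul_le_mul_of_nonneg_left
    (Finset.single_le_sum (f := fun i => |g i|) (fun _ _ => abs_nonneg _) (Finset.mem_univ i))
    (abs_nonneg _)

lemma EGr.pow {Φ : (L → ℝ) → ℝ} (hΦ : EGr Φ) : ∀ n : ℕ, EGr fun F => Φ F ^ n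
  | 0 => by simpa using EGr.const (V := L) 1
  | n + 1 => by
    have h := (EGr.pow hΦ n).mul hΦ
    simpa only [pow_succ] using h

/-! ### integrals with respect to the channel law -/

variable {μ' : (X → ℤ) → ℝ} {B : Matrix L X ℝ}

lemma back (hB : B * Bᵀ = 1) {p : ℝ} (hp : 0 < p) (g : L → ℝ) :
    ((√p)⁻¹ • B) *ᵥ ((√p • B)ᵀ *ᵥ g) = g := by
  have hs : √p ≠ 0 := (Real.sqrt_pos.2 hp).ne'
  rw [transpose_smul, smul_mulVec, smul_mulVec, mulVec_smul, mulVec_mulVec, hB, one_mulVec,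
    smul_smul, inv_mul_cancel₀ hs, one_smul]

lemma nu_int (hμ : EM μ') (hB : B * Bᵀ = 1) {p : ℝ} (hp : 0 < p) {Φ : (L → ℝ) → ℝ}
    (hΦ : EGr Φ) : Integrable Φ (nuP μ' (√p • B)) := by
  refine integrable_nuP hμ _ ?_
  have h := ch_int hμ 0 (√p • B) (EGr.lin_comp hΦ ((√p)⁻¹ • B))
  simp only [zero_add, back hB hp] at h
  exact h

lemma nu_exp (hμ : EM μ') (hB : B * Bᵀ = 1) {p τ : ℝ} (hp : 0 < p) (hτ : 0 < τ)
    (hsub : ∀ u : L → ℝ, Zs μ' (Bᵀ *ᵥ u) ≤ Zs μ' 0 * Real.exp ((∑ i, u i ^ 2) / (2 * τ)))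
    (u : L → ℝ) :
    ∫ g, Real.exp (∑ i, u i * g i) ∂(nuP μ' (√p • B)) ≤
      Real.exp ((τ + p) / τ * (∑ i, u i ^ 2) / 2) := by
  have hZ0 := Zs_pos hμ 0
  rw [int_nuP hμ]
  have h1 := gau_exp_mul u fun g => Zs (post μ' (√p • B)) ((√p • B)ᵀ *ᵥ g)
  rw [h1]
  have h2 : ∫ g, Zs (post μ' (√p • B)) ((√p • B)ᵀ *ᵥ (g + u)) ∂(gau L) =
      Zs μ' ((√p • B)ᵀ *ᵥ u) := by
    rw [← ch_norm hμ ((√p • B)ᵀ *ᵥ u) (√p • B)]
    refine integral_congr_ae (Filter.Eventually.of_forall fun g => ?_)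
    simp only
    rw [mulVec_add, add_comm]
  rw [h2]
  have h3 : (√p • B)ᵀ *ᵥ u = Bᵀ *ᵥ (√p • u) := by
    rw [transpose_smul, smul_mulVec, mulVec_smul]
  have h4 := hsub (√p • u)
  have h5 : ∑ i, (√p • u) i ^ 2 = p * ∑ i, u i ^ 2 := by
    rw [Finset.mul_sum]
    refine Finset.sum_congr rfl fun i _ => ?_
    rw [Pi.smul_apply, smul_eq_mul, mul_pow, Real.sq_sqrt hp.le]
  rw [h5] at h4
  rw [h3, div_le_iff₀ hZ0]
  refine (mul_le_mul_of_nonneg_left h4 (Real.exp_pos _).le).trans (le_of_eq ?_)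
  rw [mul_comm (Zs μ' 0), ← mul_assoc, ← Real.exp_add]
  congr 2
  field_simp

/-- fourth moments -/
lemma nu_mom4 (hμ : EM μ') (hB : B * Bᵀ = 1) {p τ : ℝ} (hp : 0 < p) (hτ : 0 < τ)
    (hsub : ∀ u : L → ℝ, Zs μ' (Bᵀ *ᵥ u) ≤ Zs μ' 0 * Real.exp ((∑ i, u i ^ 2) / (2 * τ)))
    (u : L → ℝ) :
    ∫ g, (∑ i, u i * g i) ^ 4 ∂(nuP μ' (√p • B)) ≤
      (9 * ((τ + p) / τ * ∑ i, u i ^ 2)) ^ 2 := by
  have hlin : EGr fun g : L → ℝ => ∑ i, u i * g i := H114.EGr.lin u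
  set v := (τ + p) / τ * ∑ i, u i ^ 2 with hv
  have hc : 0 < (τ + p) / τ := by positivity
  have hv0 : 0 ≤ v := mul_nonneg hc.le (Finset.sum_nonneg fun _ _ => sq_nonneg _)
  rcases hv0.eq_or_lt with h0 | h0
  · have hu : ∑ i, u i ^ 2 = 0 := by
      rcases mul_eq_zero.1 (hv.symm.trans h0.symm) with h1 | h1
      · exact absurd h1 hc.ne'
      · exact h1
    have hu0 : ∀ i, u i = 0 := by
      intro i
      have := (Finset.sum_eq_zero_iff_of_nonneg fun i _ => sq_nonneg (u i)).1 hu i (Finset.mem_univ i)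
      exact pow_eq_zero_iff two_ne_zero |>.1 this
    simp [hu0]
    positivity
  · -- normalised vector
    set r := (√v)⁻¹ with hr
    have hsv : 0 < √v := Real.sqrt_pos.2 h0
    have hr0 : 0 < r := inv_pos.2 hsv
    have hr2 : r ^ 2 * v = 1 := by
      rw [hr, inv_pow, Real.sq_sqrt h0.le, inv_mul_cancel₀ h0.ne']
    have hpt : ∀ g : L → ℝ, (∑ i, u i * g i) ^ 4 ≤ 24 * v ^ 2 *
        (Real.exp (∑ i, (r • u) i * g i) + Real.exp (∑ i, (-(r • u)) i * g i)) := by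
      intro g
      set x := ∑ i, u i * g i with hx
      have e1 : ∑ i, (r • u) i * g i = r * x := by
        rw [hx, Finset.mul_sum]
        exact Finset.sum_congr rfl fun i _ => by rw [Pi.smul_apply, smul_eq_mul]; ring
      have e2 : ∑ i, (-(r • u)) i * g i = -(r * x) := by
        rw [← e1, ← Finset.sum_neg_distrib]
        exact Finset.sum_congr rfl fun i _ => by rw [Pi.neg_apply]; ring
      rw [e1, e2]
      have h1 := Real.pow_div_factorial_le_exp |r * x| (abs_nonneg (r * x)) 4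
      have h2 : Real.exp |r * x| ≤ Real.exp (r * x) + Real.exp (-(r * x)) := by
        rcases abs_cases (r * x) with ⟨h3, _⟩ | ⟨h3, _⟩
        · rw [h3]
          linarith [Real.exp_pos (-(r * x))]
        · rw [h3]
          linarith [Real.exp_pos (r * x)]
      have h3 : (r * x) ^ 4 ≤ 24 * (Real.exp (r * x) + Real.exp (-(r * x))) := by
        have h4 : |r * x| ^ 4 = (r * x) ^ 4 := by
          rw [show (4 : ℕ) = 2 * 2 from rfl, pow_mul, sq_abs, ← pow_mul]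
        rw [h4] at h1
        have h5 : (Nat.factorial 4 : ℝ) = 24 := by norm_num [Nat.factorial]
        rw [h5, div_le_iff₀ (by norm_num)] at h1
        linarith
      have h6 : x ^ 4 = v ^ 2 * (r * x) ^ 4 := by
        calc x ^ 4 = (r ^ 2 * v) ^ 2 * x ^ 4 := by rw [hr2]; ring
          _ = _ := by ring
      rw [h6]
      calc v ^ 2 * (r * x) ^ 4 ≤ v ^ 2 * (24 * (Real.exp (r * x) + Real.exp (-(r * x)))) :=
            mul_le_mul_of_nonneg_left h3 (sq_nonneg _)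
        _ = _ := by ring
    have i1 := nu_int hμ hB hp (EGr.expl (r • u))
    have i2 := nu_int hμ hB hp (EGr.expl (-(r • u)))
    have h1 : ∫ g, (∑ i, u i * g i) ^ 4 ∂(nuP μ' (√p • B)) ≤
        ∫ g, 24 * v ^ 2 * (Real.exp (∑ i, (r • u) i * g i) +
          Real.exp (∑ i, (-(r • u)) i * g i)) ∂(nuP μ' (√p • B)) :=
      integral_mono (nu_int hμ hB hp (EGr.pow hlin 4)) ((i1.add i2).const_mul _) hpt
    rw [integral_const_mul, integral_add i1 i2] at h1
    have e1 : ∑ i, (r • u) i ^ 2 = r ^ 2 * ∑ i, u i ^ 2 := by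
      rw [Finset.mul_sum]
      exact Finset.sum_congr rfl fun i _ => by rw [Pi.smul_apply, smul_eq_mul]; ring
    have e2 : ∑ i, (-(r • u)) i ^ 2 = r ^ 2 * ∑ i, u i ^ 2 := by
      rw [← e1]
      exact Finset.sum_congr rfl fun i _ => by rw [Pi.neg_apply, neg_sq]
    have e3 : (τ + p) / τ * (r ^ 2 * ∑ i, u i ^ 2) / 2 = 1 / 2 := by
      have : (τ + p) / τ * (r ^ 2 * ∑ i, u i ^ 2) = r ^ 2 * v := by rw [hv]; ring
      rw [this, hr2]
    have h2 := nu_exp hμ hB hp hτ hsub (r • u)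
    have h3 := nu_exp hμ hB hp hτ hsub (-(r • u))
    rw [e1, e3] at h2
    rw [e2, e3] at h3
    have h4 : Real.exp (1 / 2) ≤ 27 / 16 := by
      have h5 : Real.exp (1 / 2) ^ 2 = Real.exp 1 := by
        rw [← Real.exp_nat_mul]
        norm_num
      have h6 := Real.exp_one_lt_d9
      nlinarith [Real.exp_pos (1 / 2 : ℝ)]
    calc _ ≤ 24 * v ^ 2 * (∫ g, Real.exp (∑ i, (r • u) i * g i) ∂(nuP μ' (√p • B)) +
          ∫ g, Real.exp (∑ i, (-(r • u)) i * g i) ∂(nuP μ' (√p • B))) := h1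
      _ ≤ 24 * v ^ 2 * (27 / 16 + 27 / 16) :=
          mul_le_mul_of_nonneg_left (by linarith) (by positivity)
      _ = 81 * v ^ 2 := by ring
      _ = (9 * v) ^ 2 := by ring

end

end Vale.Agent.P159.H462
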