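import Vale.Agent.P159.H462.In3

/-!
P159, module IN3 (helper462), part 3: consumer forms.

* `ahat_mul`, `Gam_mul`, `Spr_eq`, `Cpr_mul`: the matrices of part 2 as inverses;
* `in3_rows`: the inequality for factors `C' C'ᵀ = Cpr`.
-/

set_option linter.unusedSectionVars false

namespace Vale.Agent.P159.H462

open Finset Matrix
open Vale.Agent.P159.TM.H764 (cN sN dt ch EE hatu)
open Vale.Agent.P159.TM.Spec (V)
open Vale.Agent.P159.H37 (qf bf)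
open Vale.Agent.P159.H864 (TI sym fc mlt hsq)

noncomputable section

variable {N : ℕ} [NeZero N] {A : Matrix (V N) (V N) ℝ}

lemma Dom.sym_pos {ν c : ℝ} (h : Dom A ν c) {k : V N} (hk : k ≠ 0) : 0 < sym A k := by
  refine lt_of_lt_of_le ?_ (h.ge k)
  have := h.hν
  have := h.hc
  have := EE_pos hk
  positivity

theorem ahat_mul {ν c s : ℝ} (h : Dom A ν c) (hs : 0 < s) : ahat s A * (1 + s • A) = 1 := by
  have hT : TI (1 + s • A) := TI.one.add (h.ti.smul s)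
  refine H864.sym_inj ((ti_ahat _ _).mul hT) TI.one fun k => ?_
  rw [H864.sym_mul (ti_ahat _ _) hT, sym_ahat, H864.sym_add, H864.sym_one, H864.sym_smul]
  have := h.nn k
  exact inv_mul_cancel₀ (by positivity)

theorem Gam_mul {ν c s : ℝ} (h : Dom A ν c) (hs : 0 < s) :
    Gam s A * (A + s⁻¹ • (1 : Matrix (V N) (V N) ℝ)) = 1 := by
  have hT : TI (A + s⁻¹ • (1 : Matrix (V N) (V N) ℝ)) := h.ti.add (TI.one.smul _)
  refine H864.sym_inj ((ti_Gam _ _).mul hT) TI.one fun k => ?_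
  rw [H864.sym_mul (ti_Gam _ _) hT, sym_Gam, H864.sym_add, H864.sym_one, H864.sym_smul,
    H864.sym_one]
  have := h.nn k
  have h1 : 0 < 1 + s * sym A k := by positivity
  field_simp
  ring

theorem Gam_eq {ν c s : ℝ} (h : Dom A ν c) (hs : 0 < s) :
    Gam s A = (A + s⁻¹ • (1 : Matrix (V N) (V N) ℝ))⁻¹ :=
  (Matrix.inv_eq_left_inv (Gam_mul h hs)).symm

theorem ahat_eq {ν c s : ℝ} (h : Dom A ν c) (hs : 0 < s) : ahat s A = (1 + s • A)⁻¹ :=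
  (Matrix.inv_eq_left_inv (ahat_mul h hs)).symm

theorem Spr_eq {ν c : ℝ} (h : Dom A ν c) (s : ℝ) : Spr s ν A = (1 - ν⁻¹ • A) * ahat s A := by
  have hT : TI (1 - ν⁻¹ • A) := TI.one.sub (h.ti.smul _)
  refine H864.sym_inj (ti_Spr _ _ _) (hT.mul (ti_ahat _ _)) fun k => ?_
  rw [H864.sym_mul hT (ti_ahat _ _), sym_Spr, sym_ahat, H864.sym_sub, H864.sym_one, H864.sym_smul]
  ring

/-- the average over the constants -/
def avgM (N : ℕ) [NeZero N] : Matrix (V N) (V N) ℝ := Matrix.of fun _ _ => ((N : ℝ) ^ 2)⁻¹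

lemma ti_avgM : TI (avgM N) where
  tr _ _ _ := rfl
  sy _ _ := rfl

lemma sym_avgM (k : V N) : sym (avgM N) k = if k = 0 then 1 else 0 := by
  rw [H864.sym_def]
  unfold avgM
  simp only [Matrix.of_apply]
  rw [← Finset.mul_sum, H864.sum_cN]
  split_ifs with h
  · exact inv_mul_cancel₀ (H864.N_pos).ne'
  · rw [mul_zero]

/-- `Cpr` is the pseudo-inverse of `A ahat` -/
theorem Cpr_mul {ν c s : ℝ} (h : Dom A ν c) (hs : 0 < s) :
    Cpr s A * (A * ahat s A) = 1 - avgM N := by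
  have hT := h.ti.mul (ti_ahat s A)
  refine H864.sym_inj ((ti_Cpr _ _).mul hT) (TI.one.sub ti_avgM) fun k => ?_
  rw [H864.sym_mul (ti_Cpr _ _) hT, sym_Cpr, H864.sym_mul h.ti (ti_ahat _ _), sym_ahat,
    H864.sym_sub, H864.sym_one, sym_avgM]
  have h0 := h.nn k
  have h1 : 0 < 1 + s * sym A k := by positivity
  by_cases hk : k = 0
  · rw [if_pos hk, hk, h.zero]
    simp
  · rw [if_neg hk]
    have h2 := h.sym_pos hk
    field_simp
    ring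

/-- the constant mode is not in `Cpr` -/
theorem Cpr_avg {ν c : ℝ} (h : Dom A ν c) (s : ℝ) : Cpr s A * avgM N = 0 := by
  refine H864.sym_inj ((ti_Cpr _ _).mul ti_avgM) TI.zero fun k => ?_
  rw [H864.sym_mul (ti_Cpr _ _) ti_avgM, sym_Cpr, sym_avgM, H864.sym_zero]
  by_cases hk : k = 0
  · rw [hk, h.zero]
    simp
  · rw [if_neg hk, mul_zero]

/-- rows of `ahat C' - 1 ⊗ (S' C')_w` tested against `ℓ` -/
theorem rows_eq {J : Type*} [Fintype J] {s ν : ℝ} {Cm : Matrix (V N) J ℝ}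
    (hC : Cm * Cmᵀ = Cpr s A) (w : V N) (ℓ : V N → ℝ) :
    ∑ j, (∑ y, ℓ y * ((ahat s A * Cm) y j - (Spr s ν A * Cm) w j)) ^ 2 =
      qf (Cpr s A) (uvec s ν A w ℓ) := by
  rw [← hC]
  have h1 : qf (Cm * Cmᵀ) (uvec s ν A w ℓ) = ∑ j, (Cmᵀ *ᵥ uvec s ν A w ℓ) j ^ 2 := by
    have := H37.qf_gram (Cmᵀ) (uvec s ν A w ℓ)
    rwa [transpose_transpose] at this
  rw [h1]
  refine Finset.sum_congr rfl fun j _ => ?_
  congr 1
  have h2 : (Cmᵀ *ᵥ uvec s ν A w ℓ) = Cmᵀ *ᵥ (ahat s A *ᵥ ℓ) -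
      (∑ x, ℓ x) • (Cmᵀ *ᵥ (Spr s ν A *ᵥ Pi.single w 1)) := by
    unfold uvec
    rw [mulVec_sub, mulVec_smul]
  have h3 : (Cmᵀ *ᵥ (ahat s A *ᵥ ℓ)) j = ∑ y, ℓ y * (ahat s A * Cm) y j := by
    have h4 : Cmᵀ *ᵥ (ahat s A *ᵥ ℓ) = (ahat s A * Cm)ᵀ *ᵥ ℓ := by
      rw [transpose_mul, (ti_ahat s A).transpose, mulVec_mulVec]
    rw [h4]
    unfold mulVec dotProduct
    simp only [transpose_apply]
    refine Finset.sum_congr rfl fun y _ => mul_comm _ _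
  have h5 : (Cmᵀ *ᵥ (Spr s ν A *ᵥ Pi.single w 1)) j = (Spr s ν A * Cm) w j := by
    have h4 : Cmᵀ *ᵥ (Spr s ν A *ᵥ Pi.single w 1) = (Spr s ν A * Cm)ᵀ *ᵥ Pi.single w 1 := by
      rw [transpose_mul, (ti_Spr s ν A).transpose, mulVec_mulVec]
    rw [h4, mulVec_single_one]
    rfl
  rw [h2, Pi.sub_apply, Pi.smul_apply, smul_eq_mul, h3, h5]
  simp only [mul_sub, Finset.sum_sub_distrib, Finset.sum_mul]

/-- **(IN3)** for factors: `∑_j (ℓ X)_j² ≤ rho₀² ⟨ℓ, Γ ℓ⟩`, `X = ahat C' - 1 ⊗ (S' C')_w`. -/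
theorem in3_rows {ν c s : ℝ} (h : Dom A ν c) (hs : 1 ≤ s * ν) {D : ℕ} (hD : 1 ≤ D) (w : V N)
    {J : Type*} [Fintype J] {Cm : Matrix (V N) J ℝ} (hC : Cm * Cmᵀ = Cpr s A)
    {ℓ : V N → ℝ} (hℓ : ∀ x, ℓ x ≠ 0 → x ∈ box w D) :
    ∑ j, (∑ y, ℓ y * ((ahat s A * Cm) y j - (Spr s ν A * Cm) w j)) ^ 2 ≤
      5100 * ((1 + c) / c) ^ 2 * (1 + (D : ℝ) ^ 4 * ν ^ 2) * (1 + Real.log (s * ν)) / (s * ν) *
        qf (Gam s A) ℓ := by
  rw [rows_eq hC]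
  exact in3 h hs hD w hℓ

end

end Vale.Agent.P159.H462
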