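import Vale.Agent.P159.H462.In3Sum

/-!
P159, module IN3 (helper462), part 2: the Loewner inequality behind (V4) of row 2047.

`A` translation invariant on the (cell) torus `V N`, symbol `α`, `0 ≤ α ≤ ν`, `α(0) = 0`,
`α ≥ ν c λ/(ν + c λ)`.  `ahat = (1+s A)⁻¹`, `Γ = (A+1/s)⁻¹`, `S' = (1-A/ν) ahat`, `C' = (A ahat)⁻¹`
(without the constant mode).  For `ℓ` supported in the box of half side `D` around `w`:

`Var⟨ℓ, ahat f - (S'f)_w 1⟩ = qf C' (ahat ℓ - (∑ ℓ) S' e_w)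
   ≤ 5100 ((1+c)/c)² (1+D⁴ν²) (1+log(sν))/(sν) * qf Γ ℓ`.
-/

set_option linter.unusedSectionVars false

namespace Vale.Agent.P159.H462

open Finset Matrix
open Vale.Agent.P159.TM.H764 (cN sN dt ch EE hatu)
open Vale.Agent.P159.TM.Spec (V)
open Vale.Agent.P159.H37 (qf bf)
open Vale.Agent.P159.H864 (TI sym fc mlt hsq)

noncomputable section

variable {N : ℕ} [NeZero N] {A : Matrix (V N) (V N) ℝ}

/-! ### Fourier transform of `A u` -/

lemma sum_ch_real (hA : TI A) (k : V N) : ∑ z, (A 0 z : ℂ) * ch (dt k z) = (sym A k : ℂ) := by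
  have h1 : (starRingEnd ℂ) (∑ z, (A 0 z : ℂ) * ch (dt k z)) = ∑ z, (A 0 z : ℂ) * ch (dt k z) := by
    rw [map_sum, ← Equiv.sum_comp (Equiv.neg (V N))]
    refine Finset.sum_congr rfl fun z _ => ?_
    rw [map_mul, Complex.conj_ofReal, TM.H764.ch_conj, Equiv.neg_apply, hA.ev, H864.dt_neg, neg_neg]
  have h2 := Complex.conj_eq_iff_re.1 h1
  rw [← h2, Complex.re_sum]
  congr 1
  rw [H864.sym_def]
  refine Finset.sum_congr rfl fun z _ => ?_
  rw [Complex.re_ofReal_mul, TM.H764.ch_re]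

lemma hatu_mulVec (hA : TI A) (u : V N → ℝ) (k : V N) :
    hatu (A *ᵥ u) k = (sym A k : ℂ) * hatu u k := by
  have h1 : hatu (A *ᵥ u) k = ∑ y, (u y : ℂ) * ∑ x, (A x y : ℂ) * ch (dt k x) := by
    unfold TM.H764.hatu Matrix.mulVec dotProduct
    simp_rw [Complex.ofReal_sum, Finset.sum_mul, Finset.mul_sum]
    rw [Finset.sum_comm]
    refine Finset.sum_congr rfl fun y _ => Finset.sum_congr rfl fun x _ => ?_
    push_cast
    ring
  have h2 : ∀ y, ∑ x, (A x y : ℂ) * ch (dt k x) = ch (dt k y) * (sym A k : ℂ) := by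
    intro y
    rw [← sum_ch_real hA, Finset.mul_sum, ← Equiv.sum_comp (Equiv.addRight y)]
    refine Finset.sum_congr rfl fun z _ => ?_
    simp only [Equiv.coe_addRight]
    have h3 : A (z + y) y = A 0 z := by
      have := hA.tr y z 0
      rw [zero_add] at this
      rw [this, hA.sy]
    rw [h3, TM.H764.dt_add, TM.H764.ch_add]
    ring
  rw [h1]
  simp_rw [h2]
  unfold TM.H764.hatu
  rw [Finset.mul_sum]
  refine Finset.sum_congr rfl fun y _ => ?_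
  ring

lemma hatu_single (w k : V N) : hatu (Pi.single w (1 : ℝ)) k = ch (dt k w) := by
  unfold TM.H764.hatu
  rw [Finset.sum_eq_single w]
  · simp
  · intro b _ hb
    rw [Pi.single_eq_of_ne hb]
    simp
  · intro h
    exact absurd (Finset.mem_univ _) h

lemma hatu_sub (u v : V N → ℝ) (k : V N) : hatu (u - v) k = hatu u k - hatu v k := by
  unfold TM.H764.hatu
  rw [← Finset.sum_sub_distrib]
  refine Finset.sum_congr rfl fun x _ => ?_
  rw [Pi.sub_apply]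
  push_cast
  ring

lemma hatu_smul (c : ℝ) (u : V N → ℝ) (k : V N) : hatu (c • u) k = (c : ℂ) * hatu u k := by
  unfold TM.H764.hatu
  rw [Finset.mul_sum]
  refine Finset.sum_congr rfl fun x _ => ?_
  rw [Pi.smul_apply, smul_eq_mul]
  push_cast
  ring

/-! ### smoothness of the characters -/

lemma ch_normSq (j : ZMod N) : Complex.normSq (ch j) = 1 := by
  have h1 : (starRingEnd ℂ) (ch j) * ch j = 1 := by
    rw [TM.H764.ch_conj, ← TM.H764.ch_add, neg_add_cancel, TM.H764.ch_zero]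
  have h2 := Complex.normSq_eq_conj_mul_self (z := ch j)
  rw [h1] at h2
  exact_mod_cast h2

lemma ch_norm (j : ZMod N) : ‖ch j‖ = 1 := by
  have h := ch_normSq j
  rw [Complex.normSq_eq_norm_sq] at h
  exact (pow_eq_one_iff_of_nonneg (norm_nonneg _) two_ne_zero).1 h

lemma ch_sub_one (j : ZMod N) : ‖ch j - 1‖ ^ 2 = mu1 j := by
  rw [← Complex.normSq_eq_norm_sq, Complex.normSq_sub, ch_normSq]
  simp only [map_one, mul_one, TM.H764.ch_re]
  unfold mu1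
  ring

lemma ch_nat (j : ZMod N) (m : ℕ) : ‖ch (j * (m : ZMod N)) - 1‖ ≤ m * ‖ch j - 1‖ := by
  induction m with
  | zero => simp [TM.H764.ch_zero]
  | succ m ih =>
    have h1 : ch (j * ((m + 1 : ℕ) : ZMod N)) - 1 =
        ch j * (ch (j * (m : ZMod N)) - 1) + (ch j - 1) := by
      push_cast
      rw [mul_add, mul_one, TM.H764.ch_add]
      ring
    rw [h1]
    calc ‖ch j * (ch (j * (m : ZMod N)) - 1) + (ch j - 1)‖
        ≤ ‖ch j * (ch (j * (m : ZMod N)) - 1)‖ + ‖ch j - 1‖ := norm_add_le _ _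
      _ ≤ m * ‖ch j - 1‖ + ‖ch j - 1‖ := by
          rw [norm_mul, ch_norm, one_mul]
          linarith
      _ = ((m + 1 : ℕ) : ℝ) * ‖ch j - 1‖ := by push_cast; ring

lemma ch_neg_sub_one (j : ZMod N) : ‖ch (-j) - 1‖ = ‖ch j - 1‖ := by
  rw [← TM.H764.ch_conj, ← Complex.norm_conj (ch j - 1), map_sub, map_one]

lemma ch_mul_le (j z : ZMod N) :
    ‖ch (j * z) - 1‖ ≤ (z.valMinAbs.natAbs : ℝ) * ‖ch j - 1‖ := by
  have h0 : ((z.valMinAbs : ℤ) : ZMod N) = z := ZMod.coe_valMinAbs z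
  rcases Int.natAbs_eq z.valMinAbs with h | h
  · have h1 : ((z.valMinAbs.natAbs : ℕ) : ZMod N) = z := by
      rw [← h0]
      nth_rewrite 2 [h]
      push_cast
      simp
    have h2 := ch_nat j z.valMinAbs.natAbs
    rwa [h1] at h2
  · have h1 : ((z.valMinAbs.natAbs : ℕ) : ZMod N) = -z := by
      rw [← h0]
      nth_rewrite 2 [h]
      push_cast
      simp
    have h2 := ch_nat j z.valMinAbs.natAbs
    rw [h1, mul_neg, ch_neg_sub_one] at h2
    exact h2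

/-- box of half side `D` around `w` -/
def box (w : V N) (D : ℕ) : Finset (V N) :=
  univ.filter fun x => (x - w).1.valMinAbs.natAbs ≤ D ∧ (x - w).2.valMinAbs.natAbs ≤ D

lemma mem_box {w x : V N} {D : ℕ} : x ∈ box w D ↔
    (x - w).1.valMinAbs.natAbs ≤ D ∧ (x - w).2.valMinAbs.natAbs ≤ D := by
  unfold box
  simp

lemma card_box (w : V N) (D : ℕ) : ((box w D).card : ℝ) ≤ (2 * D + 1) ^ 2 := by
  have h1 : (box w D).card ≤ ((Finset.Icc (-(D : ℤ)) D) ×ˢ (Finset.Icc (-(D : ℤ)) D)).card := by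
    refine Finset.card_le_card_of_injOn
      (fun x => ((x - w).1.valMinAbs, (x - w).2.valMinAbs)) ?_ ?_
    · intro x hx
      have hx' := mem_box.1 (Finset.mem_coe.1 hx)
      simp only [Finset.coe_product, Finset.coe_Icc, Set.mem_prod, Set.mem_Icc]
      omega
    · intro x _ y _ h
      simp only [Prod.mk.injEq] at h
      have h2 := ZMod.valMinAbs_inj.1 h.1
      have h3 := ZMod.valMinAbs_inj.1 h.2
      have h4 : x - w = y - w := Prod.ext h2 h3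
      exact sub_left_injective h4
  rw [Finset.card_product, Int.card_Icc] at h1
  have h2 : ((D : ℤ) + 1 - -(D : ℤ)).toNat = 2 * D + 1 := by omega
  rw [h2] at h1
  calc ((box w D).card : ℝ) ≤ (((2 * D + 1) * (2 * D + 1) : ℕ) : ℝ) := by exact_mod_cast h1
    _ = (2 * D + 1) ^ 2 := by push_cast; ring

lemma ch_dt_le {w x : V N} {D : ℕ} (hx : x ∈ box w D) (k : V N) :
    ‖ch (dt k x) - ch (dt k w)‖ ^ 2 ≤ 2 * (D : ℝ) ^ 2 * EE k := by
  obtain ⟨h1, h2⟩ := mem_box.1 hx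
  have h3 : ch (dt k x) - ch (dt k w) = ch (dt k w) * (ch (dt k (x - w)) - 1) := by
    rw [TM.H764.dt_sub, sub_eq_add_neg (dt k x), TM.H764.ch_add, mul_sub, mul_one]
    have : ch (dt k w) * (ch (dt k x) * ch (-dt k w)) = ch (dt k x) := by
      rw [← mul_assoc, mul_comm (ch (dt k w)), mul_assoc, ← TM.H764.ch_add, add_neg_cancel,
        TM.H764.ch_zero, mul_one]
    rw [this]
  set z := x - w with hz
  have h4 : ‖ch (dt k z) - 1‖ ≤ (D : ℝ) * ‖ch k.1 - 1‖ + (D : ℝ) * ‖ch k.2 - 1‖ := by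
    have h5 : ch (dt k z) - 1 = ch (k.1 * z.1) * (ch (k.2 * z.2) - 1) + (ch (k.1 * z.1) - 1) := by
      unfold TM.H764.dt
      rw [TM.H764.ch_add]
      ring
    have h6 := ch_mul_le k.1 z.1
    have h7 := ch_mul_le k.2 z.2
    have h8 : (z.1.valMinAbs.natAbs : ℝ) ≤ D := by exact_mod_cast h1
    have h9 : (z.2.valMinAbs.natAbs : ℝ) ≤ D := by exact_mod_cast h2
    have h10 := mul_le_mul_of_nonneg_right h8 (norm_nonneg (ch k.1 - 1))
    have h11 := mul_le_mul_of_nonneg_right h9 (norm_nonneg (ch k.2 - 1))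
    rw [h5]
    calc ‖ch (k.1 * z.1) * (ch (k.2 * z.2) - 1) + (ch (k.1 * z.1) - 1)‖
        ≤ ‖ch (k.1 * z.1) * (ch (k.2 * z.2) - 1)‖ + ‖ch (k.1 * z.1) - 1‖ := norm_add_le _ _
      _ ≤ _ := by
          rw [norm_mul, ch_norm, one_mul]
          linarith
  rw [h3, norm_mul, ch_norm, one_mul]
  have h5 := pow_le_pow_left₀ (norm_nonneg _) h4 2
  refine h5.trans ?_
  have h6 := ch_sub_one k.1
  have h7 := ch_sub_one k.2
  rw [EE_eq, ← h6, ← h7]
  nlinarith [mul_nonneg (sq_nonneg (D : ℝ)) (sq_nonneg (‖ch k.1 - 1‖ - ‖ch k.2 - 1‖))]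

lemma hatu_dev {w : V N} {D : ℕ} {ℓ : V N → ℝ} (hℓ : ∀ x, ℓ x ≠ 0 → x ∈ box w D) (k : V N) :
    Complex.normSq (hatu ℓ k - ((∑ x, ℓ x : ℝ) : ℂ) * ch (dt k w)) ≤
      2 * (D : ℝ) ^ 2 * EE k * (∑ x, |ℓ x|) ^ 2 := by
  have h1 : hatu ℓ k - ((∑ x, ℓ x : ℝ) : ℂ) * ch (dt k w) =
      ∑ x, (ℓ x : ℂ) * (ch (dt k x) - ch (dt k w)) := by
    unfold TM.H764.hatu
    rw [Complex.ofReal_sum, Finset.sum_mul, ← Finset.sum_sub_distrib]
    refine Finset.sum_congr rfl fun x _ => ?_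
    ring
  set q : ℝ := 2 * (D : ℝ) ^ 2 * EE k with hq
  have hq0 : 0 ≤ q := by
    have := EE_nonneg k
    positivity
  have h2 : ‖∑ x, (ℓ x : ℂ) * (ch (dt k x) - ch (dt k w))‖ ≤ (∑ x, |ℓ x|) * Real.sqrt q := by
    refine (norm_sum_le _ _).trans ?_
    rw [Finset.sum_mul]
    refine Finset.sum_le_sum fun x _ => ?_
    rw [norm_mul, Complex.norm_real, Real.norm_eq_abs]
    by_cases hx : ℓ x = 0
    · rw [hx]
      simp
    · refine mul_le_mul_of_nonneg_left ?_ (abs_nonneg _)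
      exact Real.le_sqrt_of_sq_le (ch_dt_le (hℓ x hx) k)
  rw [h1, Complex.normSq_eq_norm_sq]
  have h3 := pow_le_pow_left₀ (norm_nonneg _) h2 2
  refine h3.trans (le_of_eq ?_)
  rw [mul_pow, Real.sq_sqrt hq0]
  ring

lemma l1_le {w : V N} {D : ℕ} {ℓ : V N → ℝ} (hℓ : ∀ x, ℓ x ≠ 0 → x ∈ box w D) :
    (∑ x, |ℓ x|) ^ 2 ≤ (2 * D + 1) ^ 2 * ∑ x, ℓ x ^ 2 := by
  have h1 : ∑ x, |ℓ x| = ∑ x ∈ box w D, |ℓ x| := by
    symm
    refine Finset.sum_subset (Finset.subset_univ _) fun x _ hx => ?_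
    by_contra h
    exact hx (hℓ x fun h0 => h (by rw [h0, abs_zero]))
  have h2 : ∑ x ∈ box w D, |ℓ x| ^ 2 ≤ ∑ x, ℓ x ^ 2 := by
    simp_rw [sq_abs]
    exact Finset.sum_le_sum_of_subset_of_nonneg (Finset.subset_univ _) fun x _ _ => sq_nonneg _
  rw [h1]
  calc (∑ x ∈ box w D, |ℓ x|) ^ 2 ≤ (box w D).card * ∑ x ∈ box w D, |ℓ x| ^ 2 :=
        sq_sum_le_card_mul_sum_sq
    _ ≤ (2 * D + 1) ^ 2 * ∑ x, ℓ x ^ 2 := by
        refine mul_le_mul (card_box w D) h2 (Finset.sum_nonneg fun x _ => by positivity)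
          (by positivity)

lemma normSq_add_le (a b : ℂ) :
    Complex.normSq (a + b) ≤ 2 * Complex.normSq a + 2 * Complex.normSq b := by
  simp only [Complex.normSq_apply, Complex.add_re, Complex.add_im]
  nlinarith [sq_nonneg (a.re - b.re), sq_nonneg (a.im - b.im)]

/-! ### the operators of one window -/

/-- `ahat = (1+sA)⁻¹` -/
def ahat (s : ℝ) (A : Matrix (V N) (V N) ℝ) : Matrix (V N) (V N) ℝ := fc (fun a => (1 + s * a)⁻¹) A
/-- `Γ = (A+1/s)⁻¹` -/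
def Gam (s : ℝ) (A : Matrix (V N) (V N) ℝ) : Matrix (V N) (V N) ℝ := fc (fun a => s * (1 + s * a)⁻¹) A
/-- `S' = (1-A/ν)(1+sA)⁻¹` -/
def Spr (s ν : ℝ) (A : Matrix (V N) (V N) ℝ) : Matrix (V N) (V N) ℝ :=
  fc (fun a => (1 - a / ν) * (1 + s * a)⁻¹) A
/-- `C' = (A ahat)⁻¹` without the constant mode -/
def Cpr (s : ℝ) (A : Matrix (V N) (V N) ℝ) : Matrix (V N) (V N) ℝ := fc (fun a => (1 + s * a) / a) A

lemma ti_ahat (s : ℝ) (A : Matrix (V N) (V N) ℝ) : TI (ahat s A) := H864.ti_fc _ _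
lemma ti_Gam (s : ℝ) (A : Matrix (V N) (V N) ℝ) : TI (Gam s A) := H864.ti_fc _ _
lemma ti_Spr (s ν : ℝ) (A : Matrix (V N) (V N) ℝ) : TI (Spr s ν A) := H864.ti_fc _ _
lemma ti_Cpr (s : ℝ) (A : Matrix (V N) (V N) ℝ) : TI (Cpr s A) := H864.ti_fc _ _

lemma sym_ahat (s : ℝ) (A : Matrix (V N) (V N) ℝ) (k : V N) :
    sym (ahat s A) k = (1 + s * sym A k)⁻¹ := H864.sym_fc _ _ _
lemma sym_Gam (s : ℝ) (A : Matrix (V N) (V N) ℝ) (k : V N) :
    sym (Gam s A) k = s * (1 + s * sym A k)⁻¹ := H864.sym_fc _ _ _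
lemma sym_Spr (s ν : ℝ) (A : Matrix (V N) (V N) ℝ) (k : V N) :
    sym (Spr s ν A) k = (1 - sym A k / ν) * (1 + s * sym A k)⁻¹ := H864.sym_fc _ _ _
lemma sym_Cpr (s : ℝ) (A : Matrix (V N) (V N) ℝ) (k : V N) :
    sym (Cpr s A) k = (1 + s * sym A k) / sym A k := H864.sym_fc _ _ _

/-- hypotheses on the symbol -/
structure Dom (A : Matrix (V N) (V N) ℝ) (ν c : ℝ) : Prop where
  ti : TI A
  hν : 0 < ν
  hc : 0 < c
  nn : ∀ k, 0 ≤ sym A k
  le : ∀ k, sym A k ≤ ν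
  zero : sym A 0 = 0
  ge : ∀ k, ν * (c * EE k) / (ν + c * EE k) ≤ sym A k

lemma Dom.high {ν c : ℝ} (h : Dom A ν c) {k : V N} (hk : ν ≤ EE k) :
    c / (1 + c) * ν ≤ sym A k := by
  refine le_trans ?_ (h.ge k)
  have hν := h.hν
  have hc := h.hc
  have hE : 0 < EE k := by linarith
  rw [div_mul_eq_mul_div, div_le_div_iff₀ (by positivity) (by positivity)]
  have : 0 ≤ c * ν * (EE k - ν) := by
    have : 0 ≤ EE k - ν := by linarith
    positivity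
  nlinarith

lemma Dom.low {ν c : ℝ} (h : Dom A ν c) {k : V N} (hk : EE k < ν) :
    c / (1 + c) * EE k ≤ sym A k := by
  refine le_trans ?_ (h.ge k)
  have hν := h.hν
  have hc := h.hc
  have hE := EE_nonneg k
  rw [div_mul_eq_mul_div, div_le_div_iff₀ (by positivity) (by positivity)]
  have : 0 ≤ c * c * EE k * (ν - EE k) := by
    have : 0 ≤ ν - EE k := by linarith
    positivity
  nlinarith

lemma Dom.s_le {ν c : ℝ} (h : Dom A ν c) (k : V N) :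
    1 - sym A k / ν ≤ ν / (ν + c * EE k) := by
  have hν := h.hν
  have hc := h.hc
  have hE := EE_nonneg k
  have h1 := h.ge k
  have h2 : ν * (c * EE k) / (ν + c * EE k) / ν ≤ sym A k / ν :=
    div_le_div_of_nonneg_right h1 hν.le
  have h3 : ν * (c * EE k) / (ν + c * EE k) / ν = 1 - ν / (ν + c * EE k) := by
    field_simp
    ring
  linarith

lemma Dom.s_nonneg {ν c : ℝ} (h : Dom A ν c) (k : V N) : 0 ≤ 1 - sym A k / ν := by
  have h1 := h.le k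
  have h2 : sym A k / ν ≤ 1 := by
    rw [div_le_one h.hν]
    exact h1
  linarith

/-- `T(k) = |û''|²/(α(1+sα))`, the high modes -/
lemma high_bound {ν c s : ℝ} (h : Dom A ν c) (hs : 0 < s) {k : V N} (hk : ν ≤ EE k) (L : ℝ)
    (a e : ℂ) (he : Complex.normSq e = 1) :
    Complex.normSq (a - ((L * (1 - sym A k / ν) : ℝ) : ℂ) * e) / (sym A k * (1 + s * sym A k)) ≤
      2 / (c / (1 + c) * ν * s) * (s * (1 + s * sym A k)⁻¹ * Complex.normSq a) +
      2 * L ^ 2 / (s * c ^ 2) * (EE k ^ 2)⁻¹ := by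
  have hν := h.hν
  have hc := h.hc
  have hE : 0 < EE k := by linarith
  have hh := h.high hk
  set α := sym A k with hα
  have hα0 : 0 < α := lt_of_lt_of_le (by positivity) hh
  set t := 1 - α / ν with ht
  have ht0 : 0 ≤ t := h.s_nonneg k
  have ht1 : t ≤ ν / (ν + c * EE k) := h.s_le k
  have hge := h.ge k
  rw [← hα] at hge
  have h1 : Complex.normSq (a - ((L * t : ℝ) : ℂ) * e) ≤
      2 * Complex.normSq a + 2 * (L ^ 2 * t ^ 2) := by
    have h2 := normSq_add_le a (-(((L * t : ℝ) : ℂ) * e))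
    rw [← sub_eq_add_neg, Complex.normSq_neg, Complex.normSq_mul, he, Complex.normSq_ofReal] at h2
    calc _ ≤ _ := h2
      _ = _ := by ring
  have hden : 0 < α * (1 + s * α) := by positivity
  have h3 : Complex.normSq (a - ((L * t : ℝ) : ℂ) * e) / (α * (1 + s * α)) ≤
      2 * Complex.normSq a / (α * (1 + s * α)) + 2 * (L ^ 2 * t ^ 2) / (α * (1 + s * α)) := by
    rw [← add_div]
    exact div_le_div_of_nonneg_right h1 hden.le
  have h4 : 2 * Complex.normSq a / (α * (1 + s * α)) ≤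
      2 / (c / (1 + c) * ν * s) * (s * (1 + s * α)⁻¹ * Complex.normSq a) := by
    have h5 : 2 * Complex.normSq a / (α * (1 + s * α)) =
        2 / (α * s) * (s * (1 + s * α)⁻¹ * Complex.normSq a) := by
      field_simp
    rw [h5]
    have hn := Complex.normSq_nonneg a
    refine mul_le_mul_of_nonneg_right ?_ (by positivity)
    refine div_le_div_of_nonneg_left (by norm_num) (by positivity) ?_
    exact mul_le_mul_of_nonneg_right hh hs.le
  have h5 : 2 * (L ^ 2 * t ^ 2) / (α * (1 + s * α)) ≤ 2 * L ^ 2 / (s * c ^ 2) * (EE k ^ 2)⁻¹ := by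
    have h6 : t * (c * EE k) ≤ α := by
      calc t * (c * EE k) ≤ ν / (ν + c * EE k) * (c * EE k) :=
            mul_le_mul_of_nonneg_right ht1 (by positivity)
        _ = ν * (c * EE k) / (ν + c * EE k) := by ring
        _ ≤ α := hge
    have h7 : (t * (c * EE k)) ^ 2 ≤ α ^ 2 := pow_le_pow_left₀ (by positivity) h6 2
    have h8 : 2 * L ^ 2 / (s * c ^ 2) * (EE k ^ 2)⁻¹ = 2 * L ^ 2 / (s * c ^ 2 * EE k ^ 2) := by
      field_simp
    rw [h8, div_le_div_iff₀ hden (by positivity)]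
    have h9 : t ^ 2 * (s * c ^ 2 * EE k ^ 2) ≤ α * (1 + s * α) := by
      calc t ^ 2 * (s * c ^ 2 * EE k ^ 2) = s * (t * (c * EE k)) ^ 2 := by ring
        _ ≤ s * α ^ 2 := mul_le_mul_of_nonneg_left h7 hs.le
        _ ≤ α * (1 + s * α) := by nlinarith
    calc 2 * (L ^ 2 * t ^ 2) * (s * c ^ 2 * EE k ^ 2)
        = 2 * L ^ 2 * (t ^ 2 * (s * c ^ 2 * EE k ^ 2)) := by ring
      _ ≤ 2 * L ^ 2 * (α * (1 + s * α)) := mul_le_mul_of_nonneg_left h9 (by positivity)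
  linarith

/-- the low modes -/
lemma low_bound {ν c s : ℝ} (h : Dom A ν c) (hs : 0 < s) {k : V N} (hk0 : k ≠ 0)
    (hk : EE k < ν) (L R : ℝ) (a e : ℂ) (he : Complex.normSq e = 1)
    (ha : Complex.normSq (a - (L : ℂ) * e) ≤ R * EE k) :
    Complex.normSq (a - ((L * (1 - sym A k / ν) : ℝ) : ℂ) * e) / (sym A k * (1 + s * sym A k)) ≤
      2 * R / ((c / (1 + c)) ^ 2 * s) * (EE k + (s * (c / (1 + c)))⁻¹)⁻¹ +
      2 * L ^ 2 / (ν ^ 2 * s) := by
  have hν := h.hν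
  have hc := h.hc
  have hE : 0 < EE k := EE_pos hk0
  have hh := h.low hk
  set α := sym A k with hα
  set c2 := c / (1 + c) with hc2
  have hc20 : 0 < c2 := by positivity
  have hα0 : 0 < α := lt_of_lt_of_le (by positivity) hh
  have hR : 0 ≤ R := by
    by_contra hcon
    push Not at hcon
    have := mul_neg_of_neg_of_pos hcon hE
    have := Complex.normSq_nonneg (a - (L : ℂ) * e)
    linarith
  have h0 : a - ((L * (1 - α / ν) : ℝ) : ℂ) * e = (a - (L : ℂ) * e) + ((L * (α / ν) : ℝ) : ℂ) * e := by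
    push_cast
    ring
  have h1 : Complex.normSq (a - ((L * (1 - α / ν) : ℝ) : ℂ) * e) ≤
      2 * (R * EE k) + 2 * (L ^ 2 * (α / ν) ^ 2) := by
    rw [h0]
    have h2 := normSq_add_le (a - (L : ℂ) * e) (((L * (α / ν) : ℝ) : ℂ) * e)
    rw [Complex.normSq_mul, he, Complex.normSq_ofReal] at h2
    calc _ ≤ _ := h2
      _ ≤ 2 * (R * EE k) + 2 * (L * (α / ν) * (L * (α / ν)) * 1) := by linarith
      _ = _ := by ring
  have hden : 0 < α * (1 + s * α) := by positivity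
  have h3 : Complex.normSq (a - ((L * (1 - α / ν) : ℝ) : ℂ) * e) / (α * (1 + s * α)) ≤
      2 * (R * EE k) / (α * (1 + s * α)) + 2 * (L ^ 2 * (α / ν) ^ 2) / (α * (1 + s * α)) := by
    rw [← add_div]
    exact div_le_div_of_nonneg_right h1 hden.le
  have h4 : 2 * (R * EE k) / (α * (1 + s * α)) ≤
      2 * R / (c2 ^ 2 * s) * (EE k + (s * c2)⁻¹)⁻¹ := by
    have h5 : 2 * R / (c2 ^ 2 * s) * (EE k + (s * c2)⁻¹)⁻¹ =
        2 * (R * EE k) / (c2 * EE k * (1 + s * (c2 * EE k))) := by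
      field_simp
      ring
    rw [h5]
    refine div_le_div_of_nonneg_left (by positivity) (by positivity) ?_
    have h6 : s * (c2 * EE k) ≤ s * α := mul_le_mul_of_nonneg_left hh hs.le
    exact mul_le_mul hh (by linarith) (by positivity) hα0.le
  have h5 : 2 * (L ^ 2 * (α / ν) ^ 2) / (α * (1 + s * α)) ≤ 2 * L ^ 2 / (ν ^ 2 * s) := by
    rw [div_le_div_iff₀ hden (by positivity)]
    have h6 : (α / ν) ^ 2 * (ν ^ 2 * s) ≤ α * (1 + s * α) := by
      have : (α / ν) ^ 2 * (ν ^ 2 * s) = s * α ^ 2 := by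
        field_simp
      rw [this]
      nlinarith
    calc 2 * (L ^ 2 * (α / ν) ^ 2) * (ν ^ 2 * s) = 2 * L ^ 2 * ((α / ν) ^ 2 * (ν ^ 2 * s)) := by ring
      _ ≤ 2 * L ^ 2 * (α * (1 + s * α)) := mul_le_mul_of_nonneg_left h6 (by positivity)
  linarith

/-- the vector `u = ahat ℓ - (∑ℓ) S' e_w` -/
def uvec (s ν : ℝ) (A : Matrix (V N) (V N) ℝ) (w : V N) (ℓ : V N → ℝ) : V N → ℝ :=
  ahat s A *ᵥ ℓ - (∑ x, ℓ x) • (Spr s ν A *ᵥ Pi.single w 1)

lemma hatu_uvec (s ν : ℝ) (A : Matrix (V N) (V N) ℝ) (w : V N) (ℓ : V N → ℝ) (k : V N) :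
    hatu (uvec s ν A w ℓ) k = (((1 + s * sym A k)⁻¹ : ℝ) : ℂ) *
      (hatu ℓ k - (((∑ x, ℓ x) * (1 - sym A k / ν) : ℝ) : ℂ) * ch (dt k w)) := by
  unfold uvec
  rw [hatu_sub, hatu_smul, hatu_mulVec (ti_ahat _ _), hatu_mulVec (ti_Spr _ _ _),
    sym_ahat, sym_Spr, hatu_single]
  push_cast
  ring

/-- collecting the constants -/
lemma collect {c2 c s ν D L L1 G2 lg lm : ℝ} (hc20 : 0 < c2) (hc21 : c2 ≤ 1) (hc2c : c2 ≤ c)
    (hs0 : 0 < s) (hν : 0 < ν) (hG0 : 0 ≤ G2) (hD : 1 ≤ D) (hlg : 0 ≤ lg) (hlm : lm ≤ 1 + lg)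
    (hLb : L ^ 2 ≤ 18 * D ^ 2 * ν * G2) (hL1b : L1 ^ 2 ≤ 18 * D ^ 2 * ν * G2) :
    2 / (c2 * ν * s) * G2 + 2 * L ^ 2 / (s * c ^ 2) * (20 / ν) +
      (2 * (2 * D ^ 2 * L1 ^ 2) / (c2 ^ 2 * s) * (25 * (1 + lm)) +
        2 * L ^ 2 / (ν ^ 2 * s) * (20 * ν)) ≤
      5100 * (c2 ^ 2)⁻¹ * (1 + D ^ 4 * ν ^ 2) * (1 + lg) / (s * ν) * G2 := by
  have hc : 0 < c := lt_of_lt_of_le hc20 hc2c
  have hD0 : 0 < D := by linarith
  set X : ℝ := D ^ 2 * ν with hX
  have hX0 : 0 ≤ X := by positivity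
  have hX2 : D ^ 4 * ν ^ 2 = X ^ 2 := by rw [hX]; ring
  have hc22 : c2 ^ 2 ≤ c2 := by
    rw [sq]
    exact mul_le_of_le_one_left hc20.le hc21
  have e1 : 2 / (c2 * ν * s) * G2 ≤ 2 * (c2 ^ 2)⁻¹ / (s * ν) * G2 := by
    refine mul_le_mul_of_nonneg_right ?_ hG0
    have : 2 / (c2 * ν * s) = 2 * c2⁻¹ / (s * ν) := by field_simp
    rw [this]
    refine div_le_div_of_nonneg_right ?_ (by positivity)
    exact mul_le_mul_of_nonneg_left (inv_anti₀ (by positivity) hc22) (by norm_num)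
  have e2 : 2 * L ^ 2 / (s * c ^ 2) * (20 / ν) ≤ 720 * X * (c2 ^ 2)⁻¹ / (s * ν) * G2 := by
    calc 2 * L ^ 2 / (s * c ^ 2) * (20 / ν) = L ^ 2 * (40 / (s * c ^ 2 * ν)) := by
          field_simp
          ring
      _ ≤ (18 * D ^ 2 * ν * G2) * (40 / (s * c ^ 2 * ν)) :=
          mul_le_mul_of_nonneg_right hLb (by positivity)
      _ = 720 * X * (c ^ 2)⁻¹ / (s * ν) * G2 := by
          rw [hX]
          field_simp
          ring
      _ ≤ 720 * X * (c2 ^ 2)⁻¹ / (s * ν) * G2 := by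
          refine mul_le_mul_of_nonneg_right (div_le_div_of_nonneg_right ?_ (by positivity)) hG0
          refine mul_le_mul_of_nonneg_left (inv_anti₀ (by positivity) ?_) (by positivity)
          exact pow_le_pow_left₀ hc20.le hc2c 2
  have e3 : 2 * (2 * D ^ 2 * L1 ^ 2) / (c2 ^ 2 * s) * (25 * (1 + lm)) ≤
      1800 * X ^ 2 * (2 + lg) * (c2 ^ 2)⁻¹ / (s * ν) * G2 := by
    calc 2 * (2 * D ^ 2 * L1 ^ 2) / (c2 ^ 2 * s) * (25 * (1 + lm))
        ≤ 2 * (2 * D ^ 2 * L1 ^ 2) / (c2 ^ 2 * s) * (25 * (2 + lg)) := by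
          refine mul_le_mul_of_nonneg_left ?_ (by positivity)
          linarith
      _ = L1 ^ 2 * (100 * D ^ 2 * (2 + lg) / (c2 ^ 2 * s)) := by
          field_simp
          ring
      _ ≤ (18 * D ^ 2 * ν * G2) * (100 * D ^ 2 * (2 + lg) / (c2 ^ 2 * s)) :=
          mul_le_mul_of_nonneg_right hL1b (by positivity)
      _ = _ := by
          rw [hX]
          field_simp
          ring
  have e4 : 2 * L ^ 2 / (ν ^ 2 * s) * (20 * ν) ≤ 720 * X * (c2 ^ 2)⁻¹ / (s * ν) * G2 := by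
    calc 2 * L ^ 2 / (ν ^ 2 * s) * (20 * ν) = L ^ 2 * (40 / (ν * s)) := by
          field_simp
          ring
      _ ≤ (18 * D ^ 2 * ν * G2) * (40 / (ν * s)) :=
          mul_le_mul_of_nonneg_right hLb (by positivity)
      _ = 720 * X * 1 / (s * ν) * G2 := by
          rw [hX]
          field_simp
          ring
      _ ≤ 720 * X * (c2 ^ 2)⁻¹ / (s * ν) * G2 := by
          refine mul_le_mul_of_nonneg_right (div_le_div_of_nonneg_right ?_ (by positivity)) hG0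
          refine mul_le_mul_of_nonneg_left ?_ (by positivity)
          exact (one_le_inv₀ (by positivity)).2 (pow_le_one₀ hc20.le hc21)
  have hX1 : X ≤ (1 + X ^ 2) / 2 := by nlinarith [sq_nonneg (X - 1)]
  have e5 : 2 + 720 * X + 1800 * X ^ 2 * (2 + lg) + 720 * X ≤
      5100 * (1 + X ^ 2) * (1 + lg) := by
    have h1 : 0 ≤ X ^ 2 * lg := by positivity
    nlinarith
  calc 2 / (c2 * ν * s) * G2 + 2 * L ^ 2 / (s * c ^ 2) * (20 / ν) +
      (2 * (2 * D ^ 2 * L1 ^ 2) / (c2 ^ 2 * s) * (25 * (1 + lm)) +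
        2 * L ^ 2 / (ν ^ 2 * s) * (20 * ν))
      ≤ 2 * (c2 ^ 2)⁻¹ / (s * ν) * G2 + 720 * X * (c2 ^ 2)⁻¹ / (s * ν) * G2 +
        (1800 * X ^ 2 * (2 + lg) * (c2 ^ 2)⁻¹ / (s * ν) * G2 +
          720 * X * (c2 ^ 2)⁻¹ / (s * ν) * G2) := by linarith
    _ = (2 + 720 * X + 1800 * X ^ 2 * (2 + lg) + 720 * X) * ((c2 ^ 2)⁻¹ / (s * ν) * G2) := by ring
    _ ≤ (5100 * (1 + X ^ 2) * (1 + lg)) * ((c2 ^ 2)⁻¹ / (s * ν) * G2) :=
        mul_le_mul_of_nonneg_right e5 (by positivity)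
    _ = 5100 * (c2 ^ 2)⁻¹ * (1 + D ^ 4 * ν ^ 2) * (1 + lg) / (s * ν) * G2 := by
        rw [hX2]
        ring

/-- **(IN3)**: the Loewner inequality behind (V4). -/
theorem in3 {ν c s : ℝ} (h : Dom A ν c) (hs : 1 ≤ s * ν) {D : ℕ} (hD : 1 ≤ D) (w : V N)
    {ℓ : V N → ℝ} (hℓ : ∀ x, ℓ x ≠ 0 → x ∈ box w D) :
    qf (Cpr s A) (uvec s ν A w ℓ) ≤
      5100 * ((1 + c) / c) ^ 2 * (1 + (D : ℝ) ^ 4 * ν ^ 2) * (1 + Real.log (s * ν)) / (s * ν) *
        qf (Gam s A) ℓ := by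
  have hν := h.hν
  have hc := h.hc
  have hs0 : 0 < s := by
    by_contra hcon
    push Not at hcon
    have := mul_nonpos_of_nonpos_of_nonneg hcon hν.le
    linarith
  have hN : (0 : ℝ) < (N : ℝ) ^ 2 := H864.N_pos
  set L : ℝ := ∑ x, ℓ x with hL
  set L1 : ℝ := ∑ x, |ℓ x| with hL1
  set c2 : ℝ := c / (1 + c) with hc2
  have hc20 : 0 < c2 := by positivity
  have hc21 : c2 ≤ 1 := by
    rw [hc2, div_le_one (by positivity)]
    linarith
  have hc2c : c2 ≤ c := by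
    rw [hc2, div_le_iff₀ (by positivity)]
    nlinarith
  set G2 : ℝ := qf (Gam s A) ℓ with hG2
  have hG2' : G2 = ((N : ℝ) ^ 2)⁻¹ * ∑ k, s * (1 + s * sym A k)⁻¹ * hsq ℓ k := by
    rw [hG2, H864.qf_eq_sum (ti_Gam _ _)]
    simp_rw [sym_Gam]
  have hG2N : ∑ k, s * (1 + s * sym A k)⁻¹ * hsq ℓ k = (N : ℝ) ^ 2 * G2 := by
    rw [hG2', ← mul_assoc, mul_inv_cancel₀ hN.ne', one_mul]
  -- lower bound of `Γ`
  have hl2 : ∑ x, ℓ x ^ 2 ≤ 2 * ν * G2 := by
    rw [← H864.sum_hsq, hG2', mul_left_comm]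
    refine mul_le_mul_of_nonneg_left ?_ (by positivity)
    rw [Finset.mul_sum]
    refine Finset.sum_le_sum fun k _ => ?_
    have h1 := h.nn k
    have h2 := h.le k
    have h3 : 1 ≤ 2 * ν * (s * (1 + s * sym A k)⁻¹) := by
      rw [← mul_assoc, ← div_eq_mul_inv, le_div_iff₀ (by positivity)]
      nlinarith
    calc hsq ℓ k = 1 * hsq ℓ k := (one_mul _).symm
      _ ≤ 2 * ν * (s * (1 + s * sym A k)⁻¹) * hsq ℓ k :=
          mul_le_mul_of_nonneg_right h3 (H864.hsq_nonneg _ _)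
      _ = _ := by ring
  have hG0 : 0 ≤ G2 := by
    have h1 : 0 ≤ ∑ x, ℓ x ^ 2 := Finset.sum_nonneg fun x _ => sq_nonneg _
    by_contra hcon
    push Not at hcon
    have := mul_neg_of_pos_of_neg (by positivity : (0 : ℝ) < 2 * ν) hcon
    linarith
  have hDr : (1 : ℝ) ≤ D := by exact_mod_cast hD
  have hL1b : L1 ^ 2 ≤ 18 * (D : ℝ) ^ 2 * ν * G2 := by
    have h1 := l1_le hℓ
    have h2 : (2 * (D : ℝ) + 1) ^ 2 ≤ 9 * (D : ℝ) ^ 2 := by nlinarith
    calc L1 ^ 2 ≤ (2 * D + 1) ^ 2 * ∑ x, ℓ x ^ 2 := h1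
      _ ≤ 9 * (D : ℝ) ^ 2 * (2 * ν * G2) :=
          mul_le_mul h2 hl2 (Finset.sum_nonneg fun x _ => sq_nonneg _) (by positivity)
      _ = _ := by ring
  have hLb : L ^ 2 ≤ 18 * (D : ℝ) ^ 2 * ν * G2 := by
    refine le_trans ?_ hL1b
    have h1 : |L| ≤ L1 := Finset.abs_sum_le_sum_abs _ _
    rw [← sq_abs L]
    exact pow_le_pow_left₀ (abs_nonneg _) h1 2
  -- the form mode by mode
  set T : V N → ℝ := fun k => Complex.normSq
    (hatu ℓ k - ((L * (1 - sym A k / ν) : ℝ) : ℂ) * ch (dt k w)) /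
      (sym A k * (1 + s * sym A k)) with hT
  have hq : qf (Cpr s A) (uvec s ν A w ℓ) = ((N : ℝ) ^ 2)⁻¹ * ∑ k, T k := by
    rw [H864.qf_eq_sum (ti_Cpr _ _)]
    congr 1
    refine Finset.sum_congr rfl fun k _ => ?_
    rw [sym_Cpr, H864.hsq, hatu_uvec, Complex.normSq_mul, Complex.normSq_ofReal, hT]
    simp only []
    rw [← hL]
    set Z := Complex.normSq (hatu ℓ k - ((L * (1 - sym A k / ν) : ℝ) : ℂ) * ch (dt k w)) with hZ
    have h2 := h.nn k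
    have h3 : 0 < 1 + s * sym A k := by positivity
    by_cases h4 : sym A k = 0
    · rw [h4]
      simp
    · field_simp
  -- bound of each term
  set m : ℝ := (s * c2)⁻¹ with hm
  have hm0 : 0 < m := by positivity
  set F1 : ℝ := 2 / (c2 * ν * s) with hF1
  set F2 : ℝ := 2 * L ^ 2 / (s * c ^ 2) with hF2
  set F3 : ℝ := 2 * (2 * (D : ℝ) ^ 2 * L1 ^ 2) / (c2 ^ 2 * s) with hF3
  set F4 : ℝ := 2 * L ^ 2 / (ν ^ 2 * s) with hF4
  have hF10 : 0 ≤ F1 := by positivity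
  have hF20 : 0 ≤ F2 := by positivity
  have hF30 : 0 ≤ F3 := by positivity
  have hF40 : 0 ≤ F4 := by positivity
  have hTk : ∀ k, T k ≤ F1 * (s * (1 + s * sym A k)⁻¹ * hsq ℓ k) +
      (if ν ≤ EE k then F2 * (EE k ^ 2)⁻¹ else 0) +
      (if k ≠ 0 ∧ EE k < ν then F3 * (EE k + m)⁻¹ + F4 else 0) := by
    intro k
    have hnn : 0 ≤ s * (1 + s * sym A k)⁻¹ * hsq ℓ k := by
      have := h.nn k
      have := H864.hsq_nonneg ℓ k
      positivity
    have hE := EE_nonneg k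
    rcases le_or_gt ν (EE k) with hk | hk
    · have h1 := high_bound h hs0 hk L (hatu ℓ k) (ch (dt k w)) (ch_normSq _)
      have h2 : ¬ (k ≠ 0 ∧ EE k < ν) := fun h3 => absurd h3.2 (not_lt.2 hk)
      rw [if_pos hk, if_neg h2, add_zero]
      exact h1
    · rw [if_neg (not_le.2 hk)]
      by_cases hk0 : k = 0
      · have h2 : ¬ (k ≠ 0 ∧ EE k < ν) := fun h3 => h3.1 hk0
        rw [if_neg h2, add_zero, add_zero]
        have h3 : T k = 0 := by
          simp only [hT, hk0, h.zero, zero_mul, div_zero]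
        rw [h3]
        positivity
      · rw [if_pos ⟨hk0, hk⟩, add_zero]
        have h1 := low_bound h hs0 hk0 hk L (2 * (D : ℝ) ^ 2 * L1 ^ 2) (hatu ℓ k) (ch (dt k w))
          (ch_normSq _) (by
            have := hatu_dev hℓ k
            calc _ ≤ _ := this
              _ = _ := by ring)
        have h2 : 0 ≤ F1 * (s * (1 + s * sym A k)⁻¹ * hsq ℓ k) := mul_nonneg hF10 hnn
        calc T k ≤ F3 * (EE k + m)⁻¹ + F4 := h1
          _ ≤ _ := by linarith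
  have hsum : ∑ k, T k ≤ F1 * ((N : ℝ) ^ 2 * G2) + F2 * (20 * (N : ℝ) ^ 2 / ν) +
      (F3 * (25 * (N : ℝ) ^ 2 * (1 + Real.log (1 + ν / m))) + F4 * (20 * ν * (N : ℝ) ^ 2)) := by
    calc ∑ k, T k ≤ ∑ k, (F1 * (s * (1 + s * sym A k)⁻¹ * hsq ℓ k) +
        (if ν ≤ EE k then F2 * (EE k ^ 2)⁻¹ else 0) +
        (if k ≠ 0 ∧ EE k < ν then F3 * (EE k + m)⁻¹ + F4 else 0)) :=
          Finset.sum_le_sum fun k _ => hTk k
      _ = F1 * ((N : ℝ) ^ 2 * G2) +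
          F2 * ∑ k ∈ univ.filter (fun k : V N => ν ≤ EE k), (EE k ^ 2)⁻¹ +
          (F3 * ∑ k ∈ low N ν, (EE k + m)⁻¹ + F4 * (low N ν).card) := by
          rw [Finset.sum_add_distrib, Finset.sum_add_distrib, ← Finset.mul_sum,
            ← Finset.sum_filter, ← Finset.sum_filter, ← Finset.mul_sum, Finset.sum_add_distrib,
            ← Finset.mul_sum, Finset.sum_const, nsmul_eq_mul, hG2N]
          unfold low
          ring
      _ ≤ _ := by
          refine add_le_add (add_le_add le_rfl ?_) (add_le_add ?_ ?_)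
          · exact mul_le_mul_of_nonneg_left (sum_high hν) hF20
          · exact mul_le_mul_of_nonneg_left (sum_log hν hm0) hF30
          · exact mul_le_mul_of_nonneg_left (card_low hν) hF40
  -- logarithm
  have hlog : Real.log (1 + ν / m) ≤ 1 + Real.log (s * ν) := by
    have h1 : 1 + ν / m ≤ 2 * (s * ν) := by
      have h2 : ν / m = s * ν * c2 := by
        rw [hm]
        field_simp
      rw [h2]
      nlinarith [mul_le_mul_of_nonneg_left hc21 (by linarith : (0 : ℝ) ≤ s * ν)]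
    have h2 : Real.log (1 + ν / m) ≤ Real.log (2 * (s * ν)) :=
      Real.log_le_log (by positivity) h1
    rw [Real.log_mul (by norm_num) (by positivity)] at h2
    have := Real.log_two_lt_d9
    linarith
  have hlg : 0 ≤ Real.log (s * ν) := Real.log_nonneg hs
  -- collect
  have hcc : ((1 + c) / c) ^ 2 = (c2 ^ 2)⁻¹ := by
    rw [hc2, div_pow, div_pow, inv_div]
  rw [hq, hcc]
  have hsum2 : ((N : ℝ) ^ 2)⁻¹ * ∑ k, T k ≤ F1 * G2 + F2 * (20 / ν) +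
      (F3 * (25 * (1 + Real.log (1 + ν / m))) + F4 * (20 * ν)) := by
    calc ((N : ℝ) ^ 2)⁻¹ * ∑ k, T k ≤ ((N : ℝ) ^ 2)⁻¹ * (F1 * ((N : ℝ) ^ 2 * G2) +
        F2 * (20 * (N : ℝ) ^ 2 / ν) + (F3 * (25 * (N : ℝ) ^ 2 * (1 + Real.log (1 + ν / m))) +
          F4 * (20 * ν * (N : ℝ) ^ 2))) := mul_le_mul_of_nonneg_left hsum (by positivity)
      _ = (((N : ℝ) ^ 2)⁻¹ * (N : ℝ) ^ 2) * (F1 * G2 + F2 * (20 / ν) +
      (F3 * (25 * (1 + Real.log (1 + ν / m))) + F4 * (20 * ν))) := by ring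
      _ = _ := by rw [inv_mul_cancel₀ hN.ne', one_mul]
  exact hsum2.trans (collect hc20 hc21 hc2c hs0 hν hG0 hDr hlg hlog hLb hL1b)

/-! ### the reduced mode -/

/-- Cauchy-Schwarz for `G` and `G⁻¹` -/
theorem cs_inv {W : Type*} [Fintype W] [DecidableEq W] {G : Matrix W W ℝ} (hs : Gᵀ = G)
    (hp : ∀ u, 0 ≤ qf G u) (hd : IsUnit G.det) (ℓ q : W → ℝ) :
    (ℓ ⬝ᵥ q) ^ 2 ≤ qf G ℓ * qf G⁻¹ q := by
  set v := G⁻¹ *ᵥ q with hv
  have hGv : G *ᵥ v = q := by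
    rw [hv, Matrix.mulVec_mulVec, Matrix.mul_nonsing_inv _ hd, Matrix.one_mulVec]
  have h1 : bf G ℓ v = ℓ ⬝ᵥ q := by rw [H37.bf_eq, hGv]
  have h2 : qf G v = qf G⁻¹ q := by
    rw [H37.qf_eq, hGv, H37.qf_eq, dotProduct_comm]
  have h3 : ∀ t : ℝ, 0 ≤ qf G⁻¹ q * (t * t) + (-2 * (ℓ ⬝ᵥ q)) * t + qf G ℓ := by
    intro t
    have h4 := hp (ℓ - t • v)
    rw [H37.qf_sub_vec hs, H37.qf_smul, H37.bf_smul_right, h1, h2] at h4
    linarith
  have h4 := discrim_le_zero h3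
  unfold discrim at h4
  nlinarith

lemma gam_psd {ν c s : ℝ} (h : Dom A ν c) (hs : 0 < s) (u : V N → ℝ) : 0 ≤ qf (Gam s A) u := by
  refine (H864.psd_iff (ti_Gam _ _)).2 (fun k => ?_) u
  rw [sym_Gam]
  have := h.nn k
  positivity

lemma gam_unit {ν c s : ℝ} (h : Dom A ν c) (hs : 0 < s) : IsUnit (Gam s A).det := by
  refine H864.isUnit_det (ti_Gam _ _) fun k => ?_
  rw [sym_Gam]
  have := h.nn k
  positivity

/-- `⟨ℓ,Γ ℓ⟩ ≤ τ² (⟨ℓ,Γ ℓ⟩ - (τ²-1)(∑ℓ)²)` when `τ² cap ≤ 1`, `cap = ⟨q,Γ⁻¹q⟩`, `q = 1` on the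
support of `ℓ`. -/
theorem red_mode {ν c s : ℝ} (h : Dom A ν c) (hs : 0 < s) {ℓ q : V N → ℝ}
    (hq : ∀ x, ℓ x ≠ 0 → q x = 1) {τ2 : ℝ} (hτ : 1 ≤ τ2) (hcap : τ2 * qf (Gam s A)⁻¹ q ≤ 1) :
    qf (Gam s A) ℓ ≤ τ2 * (qf (Gam s A) ℓ - (τ2 - 1) * (∑ x, ℓ x) ^ 2) := by
  have h1 := cs_inv (ti_Gam s A).transpose (gam_psd h hs) (gam_unit h hs) ℓ q
  have h2 : ℓ ⬝ᵥ q = ∑ x, ℓ x := by
    unfold dotProduct
    refine Finset.sum_congr rfl fun x _ => ?_
    by_cases hx : ℓ x = 0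
    · rw [hx, zero_mul]
    · rw [hq x hx, mul_one]
  rw [h2] at h1
  have h3 := gam_psd h hs ℓ
  have h4 : τ2 * (∑ x, ℓ x) ^ 2 ≤ qf (Gam s A) ℓ := by
    calc τ2 * (∑ x, ℓ x) ^ 2 ≤ τ2 * (qf (Gam s A) ℓ * qf (Gam s A)⁻¹ q) :=
          mul_le_mul_of_nonneg_left h1 (by linarith)
      _ = qf (Gam s A) ℓ * (τ2 * qf (Gam s A)⁻¹ q) := by ring
      _ ≤ qf (Gam s A) ℓ * 1 := mul_le_mul_of_nonneg_left hcap h3
      _ = _ := mul_one _
  have h5 := mul_le_mul_of_nonneg_left h4 (by linarith : (0 : ℝ) ≤ τ2 - 1)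
  nlinarith

/-- **(IN3)** with the reduced mode: `rho² = 5100 ((1+c)/c)² (1+D⁴ν²)(1+log(sν))/(sν) τ²`. -/
theorem in3_red {ν c s : ℝ} (h : Dom A ν c) (hs : 1 ≤ s * ν) {D : ℕ} (hD : 1 ≤ D) (w : V N)
    {ℓ q : V N → ℝ} (hℓ : ∀ x, ℓ x ≠ 0 → x ∈ box w D) (hq : ∀ x, ℓ x ≠ 0 → q x = 1)
    {τ2 : ℝ} (hτ : 1 ≤ τ2) (hcap : τ2 * qf (Gam s A)⁻¹ q ≤ 1) :
    qf (Cpr s A) (uvec s ν A w ℓ) ≤
      5100 * ((1 + c) / c) ^ 2 * (1 + (D : ℝ) ^ 4 * ν ^ 2) * (1 + Real.log (s * ν)) / (s * ν) *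
        τ2 * (qf (Gam s A) ℓ - (τ2 - 1) * (∑ x, ℓ x) ^ 2) := by
  have hν := h.hν
  have hc := h.hc
  have hs0 : 0 < s := by
    by_contra hcon
    push Not at hcon
    have := mul_nonpos_of_nonpos_of_nonneg hcon hν.le
    linarith
  have hlg : 0 ≤ Real.log (s * ν) := Real.log_nonneg hs
  refine (in3 h hs hD w hℓ).trans ?_
  rw [mul_assoc _ τ2]
  exact mul_le_mul_of_nonneg_left (red_mode h hs0 hq hτ hcap) (by positivity)

end

end Vale.Agent.P159.H462
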