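import Vale.Agent.P159.H462.P2a

/-!
P159 (helper462), (L1) part a: the pointwise bound.

`P` probability measure (law of the Gaussian noise), `V` the nonlinear part of `log Z`, `ℓ` a centred
linear functional, `∫ ℓ² ≤ q`, `Vm` bounded by `b ≤ 1`, `S` a measurable good set on which `|V| ≤ η ≤ 1`,
`e^V ≥ 1/2`.  With `E X = ∫ X e^V / ∫ e^V`, `pb = P(Sᶜ)`, `tb = E 1_{Sᶜ}`:

`(E ℓ - ∫ ℓ Vm)² ≤ 6 E[ℓ² 1_{Sᶜ}] + 6 q (4 η⁴ + 4 ∫_S (V-Vm)² + 48 b² η² + 17 pb + 3 tb)`.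
-/

set_option linter.unusedSectionVars false
set_option linter.unusedVariables false

namespace Vale.Agent.P159.H462

open Finset MeasureTheory

noncomputable section

variable {Ω : Type*} [MeasurableSpace Ω] {P : Measure Ω}

/-- expectation with respect to the density `e^V / ∫ e^V` -/
def tE (P : Measure Ω) (V X : Ω → ℝ) : ℝ := (∫ x, X x * Real.exp (V x) ∂P) / ∫ x, Real.exp (V x) ∂P

lemma exp_err {x : ℝ} (hx : |x| ≤ 1) : |Real.exp x - 1 - x| ≤ x ^ 2 :=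
  Real.abs_exp_sub_one_sub_id_le hx

/-- Cauchy-Schwarz with an indicator -/
lemma ind_cs {ℓ X : Ω → ℝ} (hℓ : MemLp ℓ 2 P) (hX : MemLp X 2 P) (S : Set Ω)
    {q : ℝ} (hq : ∫ x, ℓ x ^ 2 ∂P ≤ q) :
    (∫ x in S, ℓ x * X x ∂P) ^ 2 ≤ q * ∫ x in S, X x ^ 2 ∂P := by
  have h1 := abs_int_mul_le (ρ := P.restrict S) (hℓ.restrict S) (hX.restrict S)
  have h2 : nr (P.restrict S) ℓ ^ 2 ≤ q := by
    rw [nr_sq]
    exact (setIntegral_le_integral hℓ.integrable_sq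
      (Filter.Eventually.of_forall fun _ => sq_nonneg _)).trans hq
  have h3 : nr (P.restrict S) X ^ 2 = ∫ x in S, X x ^ 2 ∂P := nr_sq X
  rw [← h3, ← sq_abs]
  have h4 := pow_le_pow_left₀ (abs_nonneg _) h1 2
  rw [mul_pow] at h4
  exact h4.trans (mul_le_mul_of_nonneg_right h2 (sq_nonneg _))

/-- the six terms -/
lemma six {a1 a2 a3 a4 a5 a6 : ℝ} : (a1 + a2 + a3 + a4 + a5 + a6) ^ 2 ≤
    6 * (a1 ^ 2 + a2 ^ 2 + a3 ^ 2 + a4 ^ 2 + a5 ^ 2 + a6 ^ 2) := by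
  nlinarith [sq_nonneg (a1 - a2), sq_nonneg (a1 - a3), sq_nonneg (a1 - a4), sq_nonneg (a1 - a5),
    sq_nonneg (a1 - a6), sq_nonneg (a2 - a3), sq_nonneg (a2 - a4), sq_nonneg (a2 - a5),
    sq_nonneg (a2 - a6), sq_nonneg (a3 - a4), sq_nonneg (a3 - a5), sq_nonneg (a3 - a6),
    sq_nonneg (a4 - a5), sq_nonneg (a4 - a6), sq_nonneg (a5 - a6)]

lemma tE_ind (V f : Ω → ℝ) {S : Set Ω} (hS : MeasurableSet S) :
    tE P V (S.indicator f) = (∫ x, Real.exp (V x) ∂P)⁻¹ * ∫ x in S, f x * Real.exp (V x) ∂P := by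
  unfold tE
  rw [← integral_indicator hS, div_eq_inv_mul]
  congr 2
  funext x
  by_cases hx : x ∈ S
  · rw [Set.indicator_of_mem hx, Set.indicator_of_mem hx]
  · rw [Set.indicator_of_notMem hx, Set.indicator_of_notMem hx, zero_mul]

/-- data of the pointwise bound -/
structure L1D (P : Measure Ω) (V : Ω → ℝ) (S : Set Ω) (η : ℝ) : Prop where
  mV : Measurable V
  mS : MeasurableSet S
  ie : Integrable (fun x => Real.exp (V x)) P
  low : ∀ x, 1 / 2 ≤ Real.exp (V x)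
  η0 : 0 ≤ η
  η1 : η ≤ 1
  good : ∀ x ∈ S, |V x| ≤ η

variable {V : Ω → ℝ} {S : Set Ω} {η : ℝ}

lemma L1D.low' [IsProbabilityMeasure P] (h : L1D P V S η) : 1 / 2 ≤ ∫ x, Real.exp (V x) ∂P := by
  have h1 : ∫ _, (1 / 2 : ℝ) ∂P ≤ ∫ x, Real.exp (V x) ∂P :=
    integral_mono (integrable_const _) h.ie h.low
  simpa using h1

lemma L1D.inv_le [IsProbabilityMeasure P] (h : L1D P V S η) :
    (∫ x, Real.exp (V x) ∂P)⁻¹ ≤ 2 := by
  have h1 := h.low'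
  rw [inv_le_comm₀ (by linarith) (by norm_num)]
  linarith

lemma L1D.inv_pos [IsProbabilityMeasure P] (h : L1D P V S η) :
    0 < (∫ x, Real.exp (V x) ∂P)⁻¹ := by
  have h1 := h.low'
  exact _root_.inv_pos.2 (by linarith)

lemma L1D.inv_sq [IsProbabilityMeasure P] (h : L1D P V S η) :
    (∫ x, Real.exp (V x) ∂P)⁻¹ ^ 2 ≤ 4 := by
  have := pow_le_pow_left₀ h.inv_pos.le h.inv_le 2
  linarith

lemma L1D.tb_eq (h : L1D P V S η) : tE P V (Sᶜ.indicator fun _ => 1) =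
    (∫ x, Real.exp (V x) ∂P)⁻¹ * ∫ x in Sᶜ, Real.exp (V x) ∂P := by
  rw [tE_ind V _ h.mS.compl]
  simp only [one_mul]

lemma L1D.split (h : L1D P V S η) : ∫ x, Real.exp (V x) ∂P =
    ∫ x in S, Real.exp (V x) ∂P + ∫ x in Sᶜ, Real.exp (V x) ∂P :=
  (integral_add_compl h.mS h.ie).symm

lemma L1D.tb0 [IsProbabilityMeasure P] (h : L1D P V S η) :
    0 ≤ tE P V (Sᶜ.indicator fun _ => 1) := by
  rw [h.tb_eq]
  exact mul_nonneg h.inv_pos.le (integral_nonneg fun _ => (Real.exp_pos _).le)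

lemma L1D.tb1 [IsProbabilityMeasure P] (h : L1D P V S η) :
    tE P V (Sᶜ.indicator fun _ => 1) ≤ 1 := by
  have h1 := h.low'
  have h2 : 0 ≤ ∫ x in S, Real.exp (V x) ∂P := integral_nonneg fun _ => (Real.exp_pos _).le
  have h3 := h.split
  rw [h.tb_eq, inv_mul_le_iff₀ (by linarith), mul_one]
  linarith

lemma L1D.real [IsProbabilityMeasure P] (h : L1D P V S η) : P.real S = 1 - P.real Sᶜ := by
  rw [probReal_compl_eq_one_sub h.mS]
  ring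

lemma L1D.zg [IsProbabilityMeasure P] (h : L1D P V S η) :
    |1 - ∫ x in S, Real.exp (V x) ∂P| ≤ 2 * η + P.real Sᶜ := by
  have hη0 := h.η0
  have hreal := h.real
  have hpb0 : 0 ≤ P.real Sᶜ := measureReal_nonneg
  have h1 : |∫ x in S, (Real.exp (V x) - 1) ∂P| ≤ 2 * η := by
    have h2 : ∀ x ∈ S, ‖Real.exp (V x) - 1‖ ≤ 2 * η := by
      intro x hx
      have h3 := h.good x hx
      rw [Real.norm_eq_abs]
      have h4 := Real.abs_exp_sub_one_le (h3.trans h.η1)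
      linarith
    have h3 := norm_setIntegral_le_of_norm_le_const (μ := P) (s := S) (measure_lt_top _ _) h2
    rw [Real.norm_eq_abs] at h3
    refine h3.trans ?_
    rw [hreal]
    nlinarith
  have h2 : ∫ x in S, (Real.exp (V x) - 1) ∂P = ∫ x in S, Real.exp (V x) ∂P - P.real S := by
    rw [integral_sub h.ie.integrableOn (integrable_const _)]
    simp
  rw [h2, hreal] at h1
  have h5 := abs_le.1 h1
  rw [abs_le]
  constructor <;> linarith [h5.1, h5.2]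

lemma L1D.zinv [IsProbabilityMeasure P] (h : L1D P V S η) :
    |(∫ x, Real.exp (V x) ∂P)⁻¹ - 1| ≤
      4 * η + 2 * P.real Sᶜ + tE P V (Sᶜ.indicator fun _ => 1) := by
  have hZ1 := h.low'
  have hzg := h.zg
  have hZi := h.inv_le
  have hZi0 := h.inv_pos
  have htb0 := h.tb0
  have hs := h.split
  have htb' := h.tb_eq
  set Z := ∫ x, Real.exp (V x) ∂P with hZ
  set tb := tE P V (Sᶜ.indicator fun _ => 1) with htb
  have hZ0 : 0 < Z := by linarith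
  have h1 : Z⁻¹ - 1 = Z⁻¹ * (1 - ∫ x in S, Real.exp (V x) ∂P) - tb := by
    rw [htb']
    have h2 : Z⁻¹ * Z = 1 := inv_mul_cancel₀ hZ0.ne'
    calc Z⁻¹ - 1 = Z⁻¹ * 1 - Z⁻¹ * Z := by rw [h2, mul_one]
      _ = Z⁻¹ * 1 - Z⁻¹ * (∫ x in S, Real.exp (V x) ∂P + ∫ x in Sᶜ, Real.exp (V x) ∂P) := by
          rw [← hs]
      _ = _ := by ring
  rw [h1]
  calc |Z⁻¹ * (1 - ∫ x in S, Real.exp (V x) ∂P) - tb|
      ≤ |Z⁻¹ * (1 - ∫ x in S, Real.exp (V x) ∂P)| + |tb| := abs_sub _ _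
    _ ≤ 2 * (2 * η + P.real Sᶜ) + tb := by
        rw [abs_mul, abs_of_pos hZi0, abs_of_nonneg htb0]
        have := mul_le_mul hZi hzg (abs_nonneg _) (by norm_num)
        linarith
    _ = _ := by ring

/-- first cut-off function -/
def X1 (V : Ω → ℝ) (S : Set Ω) : Ω → ℝ := S.indicator fun x => Real.exp (V x) - 1 - V x

lemma L1D.X1_sq (h : L1D P V S η) (x : Ω) : |X1 V S x| ≤ η ^ 2 := by
  unfold X1
  by_cases hx : x ∈ S
  · rw [Set.indicator_of_mem hx]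
    have h3 := h.good x hx
    refine (exp_err (h3.trans h.η1)).trans ?_
    rw [← sq_abs]
    exact pow_le_pow_left₀ (abs_nonneg _) h3 2
  · rw [Set.indicator_of_notMem hx]
    simpa using sq_nonneg η

lemma L1D.X1_mem [IsProbabilityMeasure P] (h : L1D P V S η) : MemLp (X1 V S) 2 P := by
  refine MemLp.of_bound ?_ (η ^ 2) (Filter.Eventually.of_forall fun x => ?_)
  · unfold X1
    exact (((Real.measurable_exp.comp h.mV).sub_const 1).sub h.mV |>.indicator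
      h.mS).aestronglyMeasurable
  · rw [Real.norm_eq_abs]
    exact h.X1_sq x

lemma L1D.VS_mem [IsProbabilityMeasure P] (h : L1D P V S η) : MemLp (S.indicator V) 2 P := by
  refine MemLp.of_bound (h.mV.indicator h.mS).aestronglyMeasurable η
    (Filter.Eventually.of_forall fun x => ?_)
  by_cases hx : x ∈ S
  · rw [Set.indicator_of_mem hx, Real.norm_eq_abs]
    exact h.good x hx
  · rw [Set.indicator_of_notMem hx]
    simpa using h.η0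

lemma mem_of_bdd [IsProbabilityMeasure P] {Vm : Ω → ℝ} {b : ℝ} (hM : Measurable Vm)
    (hb : ∀ x, |Vm x| ≤ b) : MemLp Vm 2 P :=
  MemLp.of_bound hM.aestronglyMeasurable b
    (Filter.Eventually.of_forall fun x => by rw [Real.norm_eq_abs]; exact hb x)

/-- decomposition into six terms -/
lemma L1D.decomp [IsProbabilityMeasure P] (h : L1D P V S η) {ℓ Vm : Ω → ℝ} (hℓ : MemLp ℓ 2 P)
    (hℓ0 : ∫ x, ℓ x ∂P = 0) (hMm : MemLp Vm 2 P)
    (hℓe : Integrable (fun x => ℓ x * Real.exp (V x)) P) :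
    tE P V ℓ - ∫ x, ℓ x * Vm x ∂P =
      (∫ x, Real.exp (V x) ∂P)⁻¹ * (∫ x in Sᶜ, ℓ x * Real.exp (V x) ∂P) +
      (∫ x, Real.exp (V x) ∂P)⁻¹ * (∫ x in S, ℓ x * X1 V S x ∂P) +
      (∫ x, Real.exp (V x) ∂P)⁻¹ * (∫ x in S, ℓ x * (S.indicator V x - Vm x) ∂P) +
      ((∫ x, Real.exp (V x) ∂P)⁻¹ - 1) * (∫ x in S, ℓ x * Vm x ∂P) +
      -(∫ x in Sᶜ, ℓ x * Vm x ∂P) +
      -((∫ x, Real.exp (V x) ∂P)⁻¹ * ∫ x in Sᶜ, ℓ x * 1 ∂P) := by
  have hS := h.mS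
  have hX1m := h.X1_mem
  have hX2m : MemLp (fun x => S.indicator V x - Vm x) 2 P := h.VS_mem.sub hMm
  have iℓ : Integrable ℓ P := hℓ.integrable one_le_two
  have iℓM : Integrable (fun x => ℓ x * Vm x) P := hℓ.integrable_mul hMm
  have e1 : ∫ x, ℓ x * Real.exp (V x) ∂P =
      ∫ x in S, ℓ x * Real.exp (V x) ∂P + ∫ x in Sᶜ, ℓ x * Real.exp (V x) ∂P :=
    (integral_add_compl hS hℓe).symm
  have e2 : ∫ x, ℓ x * Vm x ∂P = ∫ x in S, ℓ x * Vm x ∂P + ∫ x in Sᶜ, ℓ x * Vm x ∂P :=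
    (integral_add_compl hS iℓM).symm
  have e3 : ∫ x in S, ℓ x ∂P + ∫ x in Sᶜ, ℓ x ∂P = 0 := by
    rw [integral_add_compl hS iℓ, hℓ0]
  have e4 : ∫ x in S, ℓ x * Real.exp (V x) ∂P = ∫ x in S, ℓ x * X1 V S x ∂P +
      ∫ x in S, ℓ x * (S.indicator V x - Vm x) ∂P + ∫ x in S, ℓ x * Vm x ∂P +
        ∫ x in S, ℓ x ∂P := by
    have i1 : Integrable (fun x => ℓ x * X1 V S x) (P.restrict S) :=
      (hℓ.integrable_mul hX1m).integrableOn
    have i2 : Integrable (fun x => ℓ x * (S.indicator V x - Vm x)) (P.restrict S) :=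
      (hℓ.integrable_mul hX2m).integrableOn
    have i3 : Integrable (fun x => ℓ x * Vm x) (P.restrict S) := iℓM.integrableOn
    have i4 : Integrable ℓ (P.restrict S) := iℓ.integrableOn
    have i12 : Integrable (fun x => ℓ x * X1 V S x + ℓ x * (S.indicator V x - Vm x))
      (P.restrict S) := i1.add i2
    have i123 : Integrable (fun x => ℓ x * X1 V S x + ℓ x * (S.indicator V x - Vm x) +
      ℓ x * Vm x) (P.restrict S) := i12.add i3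
    rw [← integral_add i1 i2, ← integral_add i12 i3, ← integral_add i123 i4]
    refine setIntegral_congr_fun hS fun x hx => ?_
    simp only [X1, Set.indicator_of_mem hx]
    ring
  have e5 : ∫ x in S, ℓ x ∂P = -∫ x in Sᶜ, ℓ x ∂P := by linarith
  have e6 : ∫ x in Sᶜ, ℓ x * 1 ∂P = ∫ x in Sᶜ, ℓ x ∂P := by simp
  unfold tE
  rw [div_eq_inv_mul, e1, e2, e4, e5, e6]
  ring

/-- Jensen under the tilted law -/
lemma L1D.b1 [IsProbabilityMeasure P] (h : L1D P V S η) {ℓ : Ω → ℝ}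
    (hℓe : Integrable (fun x => ℓ x * Real.exp (V x)) P)
    (hℓ2e : Integrable (fun x => ℓ x ^ 2 * Real.exp (V x)) P) :
    ((∫ x, Real.exp (V x) ∂P)⁻¹ * (∫ x in Sᶜ, ℓ x * Real.exp (V x) ∂P)) ^ 2 ≤
      tE P V (Sᶜ.indicator fun x => ℓ x ^ 2) := by
  rw [tE_ind V _ h.mS.compl]
  have hZ1 := h.low'
  have hZi0 := h.inv_pos
  have hs := h.split
  set Z := ∫ x, Real.exp (V x) ∂P with hZ
  set I1 := ∫ x in Sᶜ, ℓ x * Real.exp (V x) ∂P with hI1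
  set I2 := ∫ x in Sᶜ, ℓ x ^ 2 * Real.exp (V x) ∂P with hI2
  set I0 := ∫ x in Sᶜ, Real.exp (V x) ∂P with hI0
  have hpos' : 0 ≤ ∫ x in S, Real.exp (V x) ∂P := integral_nonneg fun _ => (Real.exp_pos _).le
  have hI00 : I0 ≤ Z := by linarith
  have hdis : ∀ t : ℝ, 0 ≤ I0 * (t * t) + 2 * I1 * t + I2 := by
    intro t
    have h2 : 0 ≤ ∫ x in Sᶜ, (ℓ x + t) ^ 2 * Real.exp (V x) ∂P :=
      integral_nonneg fun x => mul_nonneg (sq_nonneg _) (Real.exp_pos _).le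
    have i1 : Integrable (fun x => ℓ x ^ 2 * Real.exp (V x)) (P.restrict Sᶜ) := hℓ2e.integrableOn
    have i2 : Integrable (fun x => (2 * t) * (ℓ x * Real.exp (V x))) (P.restrict Sᶜ) :=
      (hℓe.const_mul _).integrableOn
    have i3 : Integrable (fun x => t ^ 2 * Real.exp (V x)) (P.restrict Sᶜ) :=
      (h.ie.const_mul _).integrableOn
    have e : (fun x => (ℓ x + t) ^ 2 * Real.exp (V x)) = fun x =>
        ℓ x ^ 2 * Real.exp (V x) + (2 * t) * (ℓ x * Real.exp (V x)) + t ^ 2 * Real.exp (V x) := by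
      funext x
      ring
    rw [e, int3 i1 i2 i3, integral_const_mul, integral_const_mul, ← hI1, ← hI2, ← hI0] at h2
    linarith
  have h4 := discrim_le_zero hdis
  unfold discrim at h4
  have h5 : I1 ^ 2 ≤ I0 * I2 := by nlinarith
  have hI2n : 0 ≤ I2 := integral_nonneg fun x => mul_nonneg (sq_nonneg _) (Real.exp_pos _).le
  have hI6 : I0 * I2 ≤ Z * I2 := mul_le_mul_of_nonneg_right hI00 hI2n
  have hZ0 : Z ≠ 0 := by
    have : 0 < Z := by linarith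
    exact this.ne'
  calc (Z⁻¹ * I1) ^ 2 = Z⁻¹ ^ 2 * I1 ^ 2 := by ring
    _ ≤ Z⁻¹ ^ 2 * (Z * I2) := mul_le_mul_of_nonneg_left (h5.trans hI6) (sq_nonneg _)
    _ = Z⁻¹ * (Z⁻¹ * Z) * I2 := by ring
    _ = Z⁻¹ * I2 := by rw [inv_mul_cancel₀ hZ0, mul_one]

lemma L1D.b2 [IsProbabilityMeasure P] (h : L1D P V S η) {ℓ : Ω → ℝ} (hℓ : MemLp ℓ 2 P) {q : ℝ}
    (hq : ∫ x, ℓ x ^ 2 ∂P ≤ q) :
    ((∫ x, Real.exp (V x) ∂P)⁻¹ * (∫ x in S, ℓ x * X1 V S x ∂P)) ^ 2 ≤ 4 * q * η ^ 4 := by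
  have hq0 : 0 ≤ q := le_trans (integral_nonneg fun _ => sq_nonneg _) hq
  have h1 := ind_cs hℓ h.X1_mem S hq
  have h2 : ∫ x in S, X1 V S x ^ 2 ∂P ≤ η ^ 4 := by
    have h3 : ∀ x, X1 V S x ^ 2 ≤ η ^ 4 := by
      intro x
      rw [← sq_abs]
      calc |X1 V S x| ^ 2 ≤ (η ^ 2) ^ 2 := pow_le_pow_left₀ (abs_nonneg _) (h.X1_sq x) 2
        _ = η ^ 4 := by ring
    calc ∫ x in S, X1 V S x ^ 2 ∂P ≤ ∫ x, X1 V S x ^ 2 ∂P :=
          setIntegral_le_integral h.X1_mem.integrable_sq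
            (Filter.Eventually.of_forall fun _ => sq_nonneg _)
      _ ≤ ∫ _, η ^ 4 ∂P := integral_mono h.X1_mem.integrable_sq (integrable_const _) h3
      _ = η ^ 4 := by simp
  rw [mul_pow]
  calc _ ≤ 4 * (q * η ^ 4) :=
        mul_le_mul h.inv_sq (h1.trans (mul_le_mul_of_nonneg_left h2 hq0)) (sq_nonneg _)
          (by norm_num)
    _ = _ := by ring

lemma L1D.b3 [IsProbabilityMeasure P] (h : L1D P V S η) {ℓ Vm : Ω → ℝ} (hℓ : MemLp ℓ 2 P) {q : ℝ}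
    (hq : ∫ x, ℓ x ^ 2 ∂P ≤ q) (hMm : MemLp Vm 2 P) :
    ((∫ x, Real.exp (V x) ∂P)⁻¹ * (∫ x in S, ℓ x * (S.indicator V x - Vm x) ∂P)) ^ 2 ≤
      4 * q * ∫ x in S, (V x - Vm x) ^ 2 ∂P := by
  have hq0 : 0 ≤ q := le_trans (integral_nonneg fun _ => sq_nonneg _) hq
  have hX2m : MemLp (fun x => S.indicator V x - Vm x) 2 P := h.VS_mem.sub hMm
  have h1 := ind_cs hℓ hX2m S hq
  have h2 : ∫ x in S, (S.indicator V x - Vm x) ^ 2 ∂P = ∫ x in S, (V x - Vm x) ^ 2 ∂P := by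
    refine setIntegral_congr_fun h.mS fun x hx => ?_
    simp only [Set.indicator_of_mem hx]
  rw [h2] at h1
  have h3 : 0 ≤ ∫ x in S, (V x - Vm x) ^ 2 ∂P := integral_nonneg fun _ => sq_nonneg _
  rw [mul_pow]
  calc _ ≤ 4 * (q * ∫ x in S, (V x - Vm x) ^ 2 ∂P) :=
        mul_le_mul h.inv_sq h1 (sq_nonneg _) (by norm_num)
    _ = _ := by ring

lemma L1D.b4 [IsProbabilityMeasure P] (h : L1D P V S η) {ℓ Vm : Ω → ℝ} (hℓ : MemLp ℓ 2 P)
    {q b : ℝ} (hq : ∫ x, ℓ x ^ 2 ∂P ≤ q) (hMm : MemLp Vm 2 P) (hb : ∀ x, |Vm x| ≤ b)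
    (hb0 : 0 ≤ b) (hb1 : b ≤ 1) :
    (((∫ x, Real.exp (V x) ∂P)⁻¹ - 1) * (∫ x in S, ℓ x * Vm x ∂P)) ^ 2 ≤
      q * (48 * b ^ 2 * η ^ 2 + 12 * P.real Sᶜ + 3 * tE P V (Sᶜ.indicator fun _ => 1)) := by
  have hq0 : 0 ≤ q := le_trans (integral_nonneg fun _ => sq_nonneg _) hq
  have hpb0 : 0 ≤ P.real Sᶜ := measureReal_nonneg
  have hpb1 : P.real Sᶜ ≤ 1 := measureReal_le_one
  have htb0 := h.tb0
  have htb1 := h.tb1
  have hzinv := h.zinv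
  set pb := P.real Sᶜ with hpb
  set tb := tE P V (Sᶜ.indicator fun _ => 1) with htb
  have hVb : ∀ x, Vm x ^ 2 ≤ b ^ 2 := by
    intro x
    rw [← sq_abs]
    exact pow_le_pow_left₀ (abs_nonneg _) (hb x) 2
  have h1 := ind_cs hℓ hMm S hq
  have h2 : ∫ x in S, Vm x ^ 2 ∂P ≤ b ^ 2 := by
    calc ∫ x in S, Vm x ^ 2 ∂P ≤ ∫ x, Vm x ^ 2 ∂P :=
          setIntegral_le_integral hMm.integrable_sq
            (Filter.Eventually.of_forall fun _ => sq_nonneg _)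
      _ ≤ ∫ _, b ^ 2 ∂P := integral_mono hMm.integrable_sq (integrable_const _) hVb
      _ = b ^ 2 := by simp
  have h3 : ((∫ x, Real.exp (V x) ∂P)⁻¹ - 1) ^ 2 ≤ (4 * η + 2 * pb + tb) ^ 2 := by
    rw [← sq_abs]
    exact pow_le_pow_left₀ (abs_nonneg _) hzinv 2
  have h4 : (4 * η + 2 * pb + tb) ^ 2 ≤ 48 * η ^ 2 + 12 * pb + 3 * tb := by
    nlinarith [sq_nonneg (4 * η - 2 * pb), sq_nonneg (4 * η - tb), sq_nonneg (2 * pb - tb),
      mul_nonneg hpb0 (sub_nonneg.2 hpb1), mul_nonneg htb0 (sub_nonneg.2 htb1)]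
  have hb2 : b ^ 2 ≤ 1 := pow_le_one₀ hb0 hb1
  have h5 : b ^ 2 * (12 * pb + 3 * tb) ≤ 1 * (12 * pb + 3 * tb) :=
    mul_le_mul_of_nonneg_right hb2 (by positivity)
  rw [mul_pow]
  calc _ ≤ (48 * η ^ 2 + 12 * pb + 3 * tb) * (q * b ^ 2) :=
        mul_le_mul (h3.trans h4) (h1.trans (mul_le_mul_of_nonneg_left h2 hq0)) (sq_nonneg _)
          (by positivity)
    _ = q * (48 * b ^ 2 * η ^ 2 + b ^ 2 * (12 * pb + 3 * tb)) := by ring
    _ ≤ q * (48 * b ^ 2 * η ^ 2 + 1 * (12 * pb + 3 * tb)) :=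
        mul_le_mul_of_nonneg_left (by linarith) hq0
    _ = _ := by ring

lemma b5 [IsProbabilityMeasure P] {ℓ Vm : Ω → ℝ} (hℓ : MemLp ℓ 2 P)
    {q b : ℝ} (hq : ∫ x, ℓ x ^ 2 ∂P ≤ q) (hMm : MemLp Vm 2 P) (hb : ∀ x, |Vm x| ≤ b)
    (hb0 : 0 ≤ b) (hb1 : b ≤ 1) (S : Set Ω) :
    (-(∫ x in S, ℓ x * Vm x ∂P)) ^ 2 ≤ q * P.real S := by
  have hq0 : 0 ≤ q := le_trans (integral_nonneg fun _ => sq_nonneg _) hq
  have h1 := ind_cs hℓ hMm S hq
  have h2 : ∫ x in S, Vm x ^ 2 ∂P ≤ P.real S := by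
    have hb2 : b ^ 2 ≤ 1 := pow_le_one₀ hb0 hb1
    calc ∫ x in S, Vm x ^ 2 ∂P ≤ ∫ _ in S, (1 : ℝ) ∂P := by
          refine integral_mono hMm.integrable_sq.integrableOn (integrable_const _) fun x => ?_
          have : Vm x ^ 2 ≤ b ^ 2 := by
            rw [← sq_abs]
            exact pow_le_pow_left₀ (abs_nonneg _) (hb x) 2
          exact this.trans hb2
      _ = P.real S := by simp
  rw [neg_sq]
  exact h1.trans (mul_le_mul_of_nonneg_left h2 hq0)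

lemma L1D.b6 [IsProbabilityMeasure P] (h : L1D P V S η) {ℓ : Ω → ℝ} (hℓ : MemLp ℓ 2 P)
    {q : ℝ} (hq : ∫ x, ℓ x ^ 2 ∂P ≤ q) :
    (-((∫ x, Real.exp (V x) ∂P)⁻¹ * ∫ x in Sᶜ, ℓ x * 1 ∂P)) ^ 2 ≤ 4 * (q * P.real Sᶜ) := by
  have hq0 : 0 ≤ q := le_trans (integral_nonneg fun _ => sq_nonneg _) hq
  have hone : MemLp (fun _ : Ω => (1 : ℝ)) 2 P := memLp_const 1
  have h1 := ind_cs hℓ hone Sᶜ hq
  have h2 : ∫ x in Sᶜ, ((1 : ℝ)) ^ 2 ∂P = P.real Sᶜ := by simp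
  rw [h2] at h1
  rw [neg_sq, mul_pow]
  exact mul_le_mul h.inv_sq h1 (sq_nonneg _) (by norm_num)

/-- **(L1), pointwise** -/
theorem l1_point [IsProbabilityMeasure P] (h : L1D P V S η) {ℓ Vm : Ω → ℝ} {q b : ℝ}
    (hℓ : MemLp ℓ 2 P) (hℓ0 : ∫ x, ℓ x ∂P = 0) (hq : ∫ x, ℓ x ^ 2 ∂P ≤ q)
    (hM : Measurable Vm) (hb : ∀ x, |Vm x| ≤ b) (hb0 : 0 ≤ b) (hb1 : b ≤ 1)
    (hℓe : Integrable (fun x => ℓ x * Real.exp (V x)) P)
    (hℓ2e : Integrable (fun x => ℓ x ^ 2 * Real.exp (V x)) P) :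
    (tE P V ℓ - ∫ x, ℓ x * Vm x ∂P) ^ 2 ≤
      6 * tE P V (Sᶜ.indicator fun x => ℓ x ^ 2) +
        6 * q * (4 * η ^ 4 + 4 * ∫ x in S, (V x - Vm x) ^ 2 ∂P + 48 * b ^ 2 * η ^ 2 +
          17 * P.real Sᶜ + 3 * tE P V (Sᶜ.indicator fun _ => 1)) := by
  have hMm := mem_of_bdd (P := P) hM hb
  rw [h.decomp hℓ hℓ0 hMm hℓe]
  refine six.trans ?_
  have c1 := h.b1 hℓe hℓ2e
  have c2 := h.b2 hℓ hq
  have c3 := h.b3 hℓ hq hMm
  have c4 := h.b4 hℓ hq hMm hb hb0 hb1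
  have c5 := b5 hℓ hq hMm hb hb0 hb1 Sᶜ
  have c6 := h.b6 hℓ hq
  linarith

end

end Vale.Agent.P159.H462
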