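import Vale.Agent.P159.H462.L1a
import Vale.Agent.P159.H663.Tilt
import Vale.Agent.P159.H883.Sin

/-!
P159 (helper462), (L1) part b: one Gaussian window in the letters of `gau`.

`Z(F) = e^{-<F,QF>/2 + V(F)}`, noise `σ g`, `ah = (1+σ²Q)⁻¹`, `A Aᵀ = σ² ah`,
`E_f X = ∫ X(f+σg) Z(f+σg) / ∫ Z(f+σg)`, `Vm(F) = 2 z ∑_w cos 2π (S F)_w`,
`γ = e^{-2π²v}`, `v = |Aᵀ S_w|²`.  For every `f` and `c`:

`( σ⁻² E_f <c, F - ah f> + 4 π z γ ∑_w (S ah c)_w sin 2π (S ah f)_w )²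
  ≤ 6 σ⁻⁴ E_f[<c,F - ah f>² 1_bad]
    + 6 σ⁻² |c|² (4 η⁴ + 4 P[(V-Vm)² 1_good] + 48 b² η² + 17 P(bad) + 3 E_f 1_bad)`.
-/

set_option linter.unusedSectionVars false

namespace Vale.Agent.P159.H462

open Finset MeasureTheory Matrix
open Vale.Agent.P159.H37 (gau qf bf integrable_exp_norm)
open Vale.Agent.P159.H883 (ln)
open scoped Real

noncomputable section

variable {L I : Type*} [Fintype L] [DecidableEq L] [Fintype I]

/-- law of the field at the finer level given `f` -/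
def EfZ (Z : (L → ℝ) → ℝ) (σ : ℝ) (f : L → ℝ) (X : (L → ℝ) → ℝ) : ℝ :=
  (∫ g, X (f + σ • g) * Z (f + σ • g) ∂(gau L)) / ∫ g, Z (f + σ • g) ∂(gau L)

/-- the weight -/
def wQV (Q : Matrix L L ℝ) (V : (L → ℝ) → ℝ) (F : L → ℝ) : ℝ :=
  Real.exp (-(qf Q F / 2)) * Real.exp (V F)

/-- affine map of the window -/
def aff (Q : Matrix L L ℝ) (σ : ℝ) (A : Matrix L I ℝ) (f : L → ℝ) (g : I → ℝ) : L → ℝ :=
  (1 + σ ^ 2 • Q)⁻¹ *ᵥ f + A *ᵥ g

lemma measurable_aff (Q : Matrix L L ℝ) (σ : ℝ) (A : Matrix L I ℝ) (f : L → ℝ) :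
    Measurable (aff Q σ A f) := by
  unfold aff
  exact measurable_const.add (H363.measurable_mulVec A)

lemma Ef_tE {Q : Matrix L L ℝ} (hQ : Qᵀ = Q) (h0 : ∀ v : L → ℝ, 0 ≤ qf Q v) (σ : ℝ)
    {A : Matrix L I ℝ} (hA : A * Aᵀ = σ ^ 2 • (1 + σ ^ 2 • Q)⁻¹) (f : L → ℝ)
    {V : (L → ℝ) → ℝ} (hV : Measurable V) {X : (L → ℝ) → ℝ} (hX : Measurable X) :
    EfZ (wQV Q V) σ f X = tE (gau I) (fun g => V (aff Q σ A f g)) fun g => X (aff Q σ A f g) := by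
  have h := H663.tilt_ratio hQ h0 σ hA f (W := fun F => Real.exp (V F))
    (Real.measurable_exp.comp hV) (ψ := X) hX.stronglyMeasurable
  simp only [smul_eq_mul] at h
  unfold EfZ tE wQV aff
  rw [div_eq_inv_mul, div_eq_inv_mul]
  have e1 : ∀ F : L → ℝ, X F * (Real.exp (-(qf Q F / 2)) * Real.exp (V F)) =
      Real.exp (-(qf Q F / 2)) * Real.exp (V F) * X F := fun F => by ring
  have e2 : ∀ F : L → ℝ, X F * Real.exp (V F) = Real.exp (V F) * X F := fun F => by ring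
  simp only [e1, e2]
  exact h

/-- the main functional -/
def Vmn (S : Matrix L L ℝ) (z : ℝ) (F : L → ℝ) : ℝ := 2 * z * ∑ w, Real.cos (2 * π * (S *ᵥ F) w)

lemma measurable_Vmn (S : Matrix L L ℝ) (z : ℝ) : Measurable (Vmn S z) := by
  unfold Vmn
  refine measurable_const.mul (Finset.measurable_fun_sum _ fun w _ => ?_)
  exact Real.measurable_cos.comp (measurable_const.mul
    ((measurable_pi_apply w).comp (H363.measurable_mulVec S)))

lemma abs_Vmn_le (S : Matrix L L ℝ) (z : ℝ) (F : L → ℝ) :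
    |Vmn S z F| ≤ 2 * |z| * Fintype.card L := by
  unfold Vmn
  rw [abs_mul, abs_mul, abs_two]
  refine mul_le_mul_of_nonneg_left ?_ (by positivity)
  refine (Finset.abs_sum_le_sum_abs _ _).trans ?_
  calc ∑ w : L, |Real.cos (2 * π * (S *ᵥ F) w)| ≤ ∑ _w : L, (1 : ℝ) :=
        Finset.sum_le_sum fun w _ => Real.abs_cos_le_one _
    _ = Fintype.card L := by simp

lemma dot_mulVec_ln (A : Matrix L I ℝ) (c : L → ℝ) (g : I → ℝ) :
    c ⬝ᵥ (A *ᵥ g) = ln (Aᵀ *ᵥ c) g := by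
  rw [dotProduct_mulVec, ← mulVec_transpose]
  rfl

lemma memLp_ln (u : I → ℝ) : MemLp (fun g => ln u g) 2 (gau I) := by
  refine (memLp_two_iff_integrable_sq (H883.measurable_ln u).aestronglyMeasurable).2 ?_
  have h := H663.int_lin_mul u u
  refine h.congr (Filter.Eventually.of_forall fun g => ?_)
  simp only [ln]
  ring

lemma int_ln (u : I → ℝ) : ∫ g, ln u g ∂(gau I) = 0 := H663.gau_lin u

lemma int_ln_sq (u : I → ℝ) : ∫ g, ln u g ^ 2 ∂(gau I) = ∑ i, u i ^ 2 := by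
  have h := H663.gau_lin_mul u u
  have e : ∀ g : I → ℝ, ln u g ^ 2 = (∑ i, u i * g i) * ∑ i, u i * g i := fun g => by
    unfold ln; ring
  simp only [e, h]
  exact Finset.sum_congr rfl fun i _ => by ring

/-- Gaussian expectation of a linear functional times a cosine -/
lemma gau_lin_cos (u v : I → ℝ) (α : ℝ) :
    ∫ g, ln u g * Real.cos (2 * π * (α + ln v g)) ∂(gau I) =
      -(2 * π * ln v u * Real.exp (-(2 * π ^ 2 * ∑ i, v i ^ 2)) * Real.sin (2 * π * α)) := by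
  have hs : ∫ g, ln u g * Real.sin (2 * π * ln v g) ∂(gau I) =
      2 * π * ln v u * Real.exp (-(2 * π ^ 2 * ∑ i, v i ^ 2)) := by
    have h := H883.gau_sin_lin ((2 * π) • v) u
    have e : ∀ g : I → ℝ, Real.sin (ln ((2 * π) • v) g) * ln u g =
        ln u g * Real.sin (2 * π * ln v g) := fun g => by
      rw [H883.ln_smul_left]; ring
    simp only [e] at h
    rw [h, H883.ln_smul_left, H883.ln_smul_left, H883.ln_smul_right, H883.ln_self_eq]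
    congr 3
    ring
  have hc : ∫ g, ln u g * Real.cos (2 * π * ln v g) ∂(gau I) = 0 := by
    have h := H37.gau_integral_neg fun g : I → ℝ => ln u g * Real.cos (2 * π * ln v g)
    have e : ∀ g : I → ℝ, ln u (-g) * Real.cos (2 * π * ln v (-g)) =
        -(ln u g * Real.cos (2 * π * ln v g)) := by
      intro g
      have e1 : ∀ w : I → ℝ, ln w (-g) = -ln w g := by
        intro w
        unfold ln
        rw [← Finset.sum_neg_distrib]
        exact Finset.sum_congr rfl fun i _ => by simp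
      rw [e1, e1, mul_neg, Real.cos_neg]
      ring
    simp only [e] at h
    rw [integral_neg] at h
    linarith
  have e : ∀ g : I → ℝ, ln u g * Real.cos (2 * π * (α + ln v g)) =
      Real.cos (2 * π * α) * (ln u g * Real.cos (2 * π * ln v g)) -
        Real.sin (2 * π * α) * (ln u g * Real.sin (2 * π * ln v g)) := by
    intro g
    rw [mul_add, Real.cos_add]
    ring
  simp only [e]
  have i1 : Integrable (fun g => ln u g * Real.cos (2 * π * ln v g)) (gau I) := by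
    refine (memLp_ln u).integrable_mul (mem_of_bdd (b := 1) ?_ fun g => Real.abs_cos_le_one _)
    exact Real.measurable_cos.comp (measurable_const.mul (H883.measurable_ln v))
  have i2 : Integrable (fun g => ln u g * Real.sin (2 * π * ln v g)) (gau I) := by
    refine (memLp_ln u).integrable_mul (mem_of_bdd (b := 1) ?_ fun g => Real.abs_sin_le_one _)
    exact Real.measurable_sin.comp (measurable_const.mul (H883.measurable_ln v))
  rw [integral_sub (i1.const_mul _) (i2.const_mul _), integral_const_mul, integral_const_mul, hc, hs]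
  ring

/-- the main term of a window -/
lemma main_term {Q : Matrix L L ℝ} (hQ : Qᵀ = Q) (σ : ℝ)
    {A : Matrix L I ℝ} (hA : A * Aᵀ = σ ^ 2 • (1 + σ ^ 2 • Q)⁻¹) (f c : L → ℝ)
    (S : Matrix L L ℝ) (z : ℝ) {v : ℝ} (hv : ∀ w, ∑ i, ((S * A) w i) ^ 2 = v) :
    ∫ g, (c ⬝ᵥ (A *ᵥ g)) * Vmn S z (aff Q σ A f g) ∂(gau I) =
      -(σ ^ 2 * (4 * π * z * Real.exp (-(2 * π ^ 2 * v)) *
        ∑ w, ((S * (1 + σ ^ 2 • Q)⁻¹) *ᵥ c) w *
          Real.sin (2 * π * ((S * (1 + σ ^ 2 • Q)⁻¹) *ᵥ f) w))) := by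
  set ah := (1 + σ ^ 2 • Q)⁻¹ with hah
  have hahT : ahᵀ = ah := by
    rw [hah, transpose_nonsing_inv, transpose_add, transpose_one, transpose_smul, hQ]
  have e1 : ∀ g : I → ℝ, (c ⬝ᵥ (A *ᵥ g)) * Vmn S z (aff Q σ A f g) =
      ∑ w, 2 * z * (ln (Aᵀ *ᵥ c) g *
        Real.cos (2 * π * (((S * ah) *ᵥ f) w + ln ((S * A) w) g))) := by
    intro g
    unfold Vmn aff
    rw [dot_mulVec_ln, Finset.mul_sum, Finset.mul_sum]
    refine Finset.sum_congr rfl fun w _ => ?_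
    have e2 : (S *ᵥ (ah *ᵥ f + A *ᵥ g)) w = ((S * ah) *ᵥ f) w + ln ((S * A) w) g := by
      rw [mulVec_add, Pi.add_apply, mulVec_mulVec, mulVec_mulVec]
      rfl
    rw [← hah, e2]
    ring
  simp only [e1]
  have i1 : ∀ w, Integrable (fun g => 2 * z * (ln (Aᵀ *ᵥ c) g *
      Real.cos (2 * π * (((S * ah) *ᵥ f) w + ln ((S * A) w) g)))) (gau I) := by
    intro w
    refine Integrable.const_mul ?_ _
    refine (memLp_ln _).integrable_mul (mem_of_bdd (b := 1) ?_ fun g => Real.abs_cos_le_one _)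
    exact Real.measurable_cos.comp (measurable_const.mul
      (measurable_const.add (H883.measurable_ln _)))
  rw [integral_finsetSum _ fun w _ => i1 w]
  simp only [integral_const_mul, gau_lin_cos, hv]
  have e3 : ∀ w, ln ((S * A) w) (Aᵀ *ᵥ c) = σ ^ 2 * ((S * ah) *ᵥ c) w := by
    intro w
    have : ln ((S * A) w) (Aᵀ *ᵥ c) = ((S * A) *ᵥ (Aᵀ *ᵥ c)) w := rfl
    rw [this, mulVec_mulVec, Matrix.mul_assoc, hA, Matrix.mul_smul, smul_mulVec]
    rfl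
  simp only [e3]
  rw [Finset.mul_sum, Finset.mul_sum, ← Finset.sum_neg_distrib]
  refine Finset.sum_congr rfl fun w _ => ?_
  ring

/-- data of one window, for all backgrounds -/
structure WinD (Q : Matrix L L ℝ) (V : (L → ℝ) → ℝ) (G : Set (L → ℝ)) (σ η : ℝ) : Prop where
  sy : Qᵀ = Q
  psd : ∀ v : L → ℝ, 0 ≤ qf Q v
  row : ∀ v : L → ℝ, qf (1 + σ ^ 2 • Q)⁻¹ v ≤ ∑ x, v x ^ 2
  mV : Measurable V
  mG : MeasurableSet G
  low : ∀ F, 1 / 2 ≤ Real.exp (V F)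
  η0 : 0 ≤ η
  η1 : η ≤ 1
  good : ∀ F ∈ G, |V F| ≤ η

/-- **(L1), one window, pointwise in the background** -/
theorem l1_window {Q : Matrix L L ℝ} {V : (L → ℝ) → ℝ} {G : Set (L → ℝ)} {σ η : ℝ}
    (h : WinD Q V G σ η) (hσ : σ ≠ 0)
    {A : Matrix L I ℝ} (hA : A * Aᵀ = σ ^ 2 • (1 + σ ^ 2 • Q)⁻¹)
    (S : Matrix L L ℝ) {z : ℝ} {v : ℝ} (hv : ∀ w, ∑ i, ((S * A) w i) ^ 2 = v)
    (hz : 2 * |z| * Fintype.card L ≤ 1) (f c : L → ℝ)
    (ie : Integrable (fun g => Real.exp (V (aff Q σ A f g))) (gau I))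
    (iℓ : Integrable (fun g => (c ⬝ᵥ (A *ᵥ g)) * Real.exp (V (aff Q σ A f g))) (gau I))
    (iℓ2 : Integrable (fun g => (c ⬝ᵥ (A *ᵥ g)) ^ 2 * Real.exp (V (aff Q σ A f g))) (gau I)) :
    ((σ ^ 2)⁻¹ * EfZ (wQV Q V) σ f (fun F => c ⬝ᵥ (F - (1 + σ ^ 2 • Q)⁻¹ *ᵥ f)) +
      4 * π * z * Real.exp (-(2 * π ^ 2 * v)) *
        ∑ w, ((S * (1 + σ ^ 2 • Q)⁻¹) *ᵥ c) w *
          Real.sin (2 * π * ((S * (1 + σ ^ 2 • Q)⁻¹) *ᵥ f) w)) ^ 2 ≤
      6 * ((σ ^ 2)⁻¹) ^ 2 * EfZ (wQV Q V) σ f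
        (Gᶜ.indicator fun F => (c ⬝ᵥ (F - (1 + σ ^ 2 • Q)⁻¹ *ᵥ f)) ^ 2) +
      6 * (σ ^ 2)⁻¹ * (∑ x, c x ^ 2) * (4 * η ^ 4 +
        4 * (∫ g, G.indicator (fun F => (V F - Vmn S z F) ^ 2) (aff Q σ A f g) ∂(gau I)) +
        48 * (2 * |z| * Fintype.card L) ^ 2 * η ^ 2 +
        17 * (∫ g, Gᶜ.indicator (fun _ => (1 : ℝ)) (aff Q σ A f g) ∂(gau I)) +
        3 * EfZ (wQV Q V) σ f (Gᶜ.indicator fun _ => 1)) := by
  have hσ2 : 0 < σ ^ 2 := by positivity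
  set φ := aff Q σ A f with hφ
  have mφ : Measurable φ := measurable_aff Q σ A f
  set ℓ : (I → ℝ) → ℝ := fun g => c ⬝ᵥ (A *ᵥ g) with hℓ
  have hℓln : ℓ = fun g => ln (Aᵀ *ᵥ c) g := by
    funext g
    exact dot_mulVec_ln A c g
  have hd : L1D (gau I) (fun g => V (φ g)) (φ ⁻¹' G) η :=
    { mV := h.mV.comp mφ
      mS := mφ h.mG
      ie := ie
      low := fun g => h.low _
      η0 := h.η0
      η1 := h.η1
      good := fun g hg => h.good _ hg }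
  have hℓm : MemLp ℓ 2 (gau I) := by
    rw [hℓln]
    exact memLp_ln _
  have hℓ0 : ∫ g, ℓ g ∂(gau I) = 0 := by
    rw [hℓln]
    exact int_ln _
  have hq : ∫ g, ℓ g ^ 2 ∂(gau I) ≤ σ ^ 2 * ∑ x, c x ^ 2 := by
    have e1 : ∫ g, ℓ g ^ 2 ∂(gau I) = ∑ i, (Aᵀ *ᵥ c) i ^ 2 := by
      rw [hℓln]
      exact int_ln_sq _
    have e2 : ∑ i, (Aᵀ *ᵥ c) i ^ 2 = qf (A * Aᵀ) c := by
      have := H37.qf_gram (Aᵀ) c
      rw [transpose_transpose] at this
      exact this.symm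
    have e3 : qf (A * Aᵀ) c = σ ^ 2 * qf (1 + σ ^ 2 • Q)⁻¹ c := by
      rw [hA, H37.qf_eq, H37.qf_eq, smul_mulVec, dotProduct_smul, smul_eq_mul]
    rw [e1, e2, e3]
    exact mul_le_mul_of_nonneg_left (h.row c) hσ2.le
  have hb0 : 0 ≤ 2 * |z| * (Fintype.card L : ℝ) := by positivity
  have key := l1_point hd (Vm := fun g => Vmn S z (φ g)) (b := 2 * |z| * Fintype.card L)
    hℓm hℓ0 hq ((measurable_Vmn S z).comp mφ) (fun g => abs_Vmn_le S z _) hb0 hz iℓ iℓ2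
  have hmF : Measurable fun F : L → ℝ => c ⬝ᵥ (F - (1 + σ ^ 2 • Q)⁻¹ *ᵥ f) := by
    unfold dotProduct
    fun_prop
  have hφd : ∀ g, φ g - (1 + σ ^ 2 • Q)⁻¹ *ᵥ f = A *ᵥ g := by
    intro g
    rw [hφ]
    unfold aff
    rw [add_sub_cancel_left]
  -- identify the pieces
  have t1 : EfZ (wQV Q V) σ f (fun F => c ⬝ᵥ (F - (1 + σ ^ 2 • Q)⁻¹ *ᵥ f)) =
      tE (gau I) (fun g => V (φ g)) ℓ := by
    rw [Ef_tE h.sy h.psd σ hA f h.mV hmF]
    simp only [← hφ, hφd, hℓ]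
  have t2 : EfZ (wQV Q V) σ f (Gᶜ.indicator fun F => (c ⬝ᵥ (F - (1 + σ ^ 2 • Q)⁻¹ *ᵥ f)) ^ 2) =
      tE (gau I) (fun g => V (φ g)) ((φ ⁻¹' G)ᶜ.indicator fun g => ℓ g ^ 2) := by
    rw [Ef_tE h.sy h.psd σ hA f h.mV ((hmF.pow_const 2).indicator h.mG.compl)]
    congr 1
    funext g
    by_cases hg : φ g ∈ Gᶜ
    · rw [Set.indicator_of_mem hg, Set.indicator_of_mem (show g ∈ (φ ⁻¹' G)ᶜ from hg), hφd]
    · rw [Set.indicator_of_notMem hg, Set.indicator_of_notMem (show g ∉ (φ ⁻¹' G)ᶜ from hg)]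
  have t3 : EfZ (wQV Q V) σ f (Gᶜ.indicator fun _ => 1) =
      tE (gau I) (fun g => V (φ g)) ((φ ⁻¹' G)ᶜ.indicator fun _ => 1) := by
    rw [Ef_tE h.sy h.psd σ hA f h.mV (measurable_const.indicator h.mG.compl)]
    congr 1
  have t4 : ∫ g, G.indicator (fun F => (V F - Vmn S z F) ^ 2) (φ g) ∂(gau I) =
      ∫ g in φ ⁻¹' G, (V (φ g) - Vmn S z (φ g)) ^ 2 ∂(gau I) := by
    rw [← integral_indicator (mφ h.mG)]
    rfl
  have t5 : ∫ g, Gᶜ.indicator (fun _ => (1 : ℝ)) (φ g) ∂(gau I) = (gau I).real (φ ⁻¹' G)ᶜ := by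
    have : (fun g => Gᶜ.indicator (fun _ => (1 : ℝ)) (φ g)) =
        (φ ⁻¹' G)ᶜ.indicator fun _ => (1 : ℝ) := rfl
    rw [this, integral_indicator (mφ h.mG).compl]
    simp
  have t6 := main_term h.sy σ hA f c S z hv
  rw [t1, t2, t3, t4, t5]
  set M1 := 4 * π * z * Real.exp (-(2 * π ^ 2 * v)) *
        ∑ w, ((S * (1 + σ ^ 2 • Q)⁻¹) *ᵥ c) w *
          Real.sin (2 * π * ((S * (1 + σ ^ 2 • Q)⁻¹) *ᵥ f) w) with hM1
  have t7 : ∫ g, ℓ g * Vmn S z (φ g) ∂(gau I) = -(σ ^ 2 * M1) := t6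
  rw [t7] at key
  have e1 : (σ ^ 2)⁻¹ * tE (gau I) (fun g => V (φ g)) ℓ + M1 =
      (σ ^ 2)⁻¹ * (tE (gau I) (fun g => V (φ g)) ℓ - -(σ ^ 2 * M1)) := by
    field_simp
    ring
  rw [e1, mul_pow]
  have hi : 0 ≤ ((σ ^ 2)⁻¹) ^ 2 := by positivity
  refine (mul_le_mul_of_nonneg_left key hi).trans (le_of_eq ?_)
  field_simp

end

end Vale.Agent.P159.H462
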