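import Vale.Agent.P159.H462.L1b

/-!
P159 (helper462), (L1) part c: the right side of the one-window bound expressed through the true law.

With `tb = E_f 1_bad` : `P(bad) ≤ 12 tb`, and `P[X 1_good] ≤ 12 E_f[X 1_good] + 2 B tb` for `0 ≤ X ≤ B`
on the good set. So the Gaussian law `P` disappears from the right side of `l1_window`.
-/

set_option linter.unusedSectionVars false
set_option linter.unusedVariables false

namespace Vale.Agent.P159.H462

open Finset MeasureTheory Matrix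
open Vale.Agent.P159.H37 (gau qf bf integrable_exp_norm)
open scoped Real

noncomputable section

section point

variable {Ω : Type*} [MeasurableSpace Ω] {P : Measure Ω} {V : Ω → ℝ} {S : Set Ω} {η : ℝ}

lemma exp_one_lt_three : Real.exp 1 < 3 := by
  have := Real.exp_one_lt_d9
  linarith

lemma L1D.good_exp (h : L1D P V S η) : ∀ x ∈ S, Real.exp (V x) ≤ 3 := by
  intro x hx
  have h1 := h.good x hx
  have h2 : V x ≤ 1 := (le_abs_self _).trans (h1.trans h.η1)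
  exact (Real.exp_le_exp.2 h2).trans exp_one_lt_three.le

lemma L1D.int_good [IsProbabilityMeasure P] (h : L1D P V S η) :
    ∫ x in S, Real.exp (V x) ∂P ≤ 3 := by
  have h1 : ∫ x in S, Real.exp (V x) ∂P ≤ ∫ _ in S, (3 : ℝ) ∂P :=
    setIntegral_mono_on h.ie.integrableOn (integrable_const _) h.mS h.good_exp
  have h2 : ∫ _ in S, (3 : ℝ) ∂P ≤ 3 := by
    have : P.real S ≤ 1 := measureReal_le_one
    simp only [integral_const, measureReal_restrict_apply_univ, smul_eq_mul]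
    linarith
  exact h1.trans h2

lemma L1D.Z_tb [IsProbabilityMeasure P] (h : L1D P V S η) :
    (∫ x, Real.exp (V x) ∂P) * tE P V (Sᶜ.indicator fun _ => 1) =
      ∫ x in Sᶜ, Real.exp (V x) ∂P := by
  have h1 := h.low'
  rw [h.tb_eq, ← mul_assoc, mul_inv_cancel₀ (by linarith), one_mul]

lemma L1D.Z_le [IsProbabilityMeasure P] (h : L1D P V S η)
    (ht : tE P V (Sᶜ.indicator fun _ => 1) ≤ 1 / 2) : ∫ x, Real.exp (V x) ∂P ≤ 6 := by
  have h1 := h.low'
  have h2 := h.Z_tb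
  have h3 := h.split
  have h4 := h.int_good
  nlinarith

lemma L1D.pb_le [IsProbabilityMeasure P] (h : L1D P V S η) :
    P.real Sᶜ ≤ 12 * tE P V (Sᶜ.indicator fun _ => 1) := by
  have hp1 : P.real Sᶜ ≤ 1 := measureReal_le_one
  by_cases ht : tE P V (Sᶜ.indicator fun _ => 1) ≤ 1 / 2
  · have h1 := h.Z_le ht
    have h2 := h.Z_tb
    have h3 : 1 / 2 * P.real Sᶜ ≤ ∫ x in Sᶜ, Real.exp (V x) ∂P := by
      have h4 : ∫ _ in Sᶜ, (1 / 2 : ℝ) ∂P ≤ ∫ x in Sᶜ, Real.exp (V x) ∂P :=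
        integral_mono (integrable_const _) h.ie.integrableOn h.low
      simp only [integral_const, measureReal_restrict_apply_univ, smul_eq_mul] at h4
      linarith
    have h5 := h.tb0
    have h6 := mul_le_mul_of_nonneg_right h1 h5
    linarith
  · push Not at ht
    linarith

lemma L1D.gd_le [IsProbabilityMeasure P] (h : L1D P V S η) {X : Ω → ℝ} {B : ℝ}
    (hX : Measurable X) (h0 : ∀ x ∈ S, 0 ≤ X x) (hB : ∀ x ∈ S, X x ≤ B) (hB0 : 0 ≤ B) :
    ∫ x in S, X x ∂P ≤ 12 * tE P V (S.indicator X) +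
      2 * B * tE P V (Sᶜ.indicator fun _ => 1) := by
  have htb0 := h.tb0
  have hXi : IntegrableOn X S P := by
    refine Integrable.mono' (g := fun _ => B) (integrable_const _) hX.aestronglyMeasurable ?_
    refine (ae_restrict_iff' h.mS).2 (Filter.Eventually.of_forall fun x hx => ?_)
    rw [Real.norm_eq_abs, abs_of_nonneg (h0 x hx)]
    exact hB x hx
  have hXe : IntegrableOn (fun x => X x * Real.exp (V x)) S P := by
    refine Integrable.mono' (g := fun x => B * Real.exp (V x)) (h.ie.integrableOn.const_mul _)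
      ((hX.mul (Real.measurable_exp.comp h.mV)).aestronglyMeasurable) ?_
    refine (ae_restrict_iff' h.mS).2 (Filter.Eventually.of_forall fun x hx => ?_)
    rw [Real.norm_eq_abs, abs_mul, abs_of_nonneg (h0 x hx), abs_of_pos (Real.exp_pos _)]
    exact mul_le_mul_of_nonneg_right (hB x hx) (Real.exp_pos _).le
  have hT0 : 0 ≤ tE P V (S.indicator X) := by
    rw [tE_ind V _ h.mS]
    refine mul_nonneg h.inv_pos.le (setIntegral_nonneg h.mS fun x hx => ?_)
    exact mul_nonneg (h0 x hx) (Real.exp_pos _).le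
  by_cases ht : tE P V (Sᶜ.indicator fun _ => 1) ≤ 1 / 2
  · have h1 := h.Z_le ht
    have h2 : ∫ x in S, X x ∂P ≤ 2 * ∫ x in S, X x * Real.exp (V x) ∂P := by
      rw [← integral_const_mul]
      refine setIntegral_mono_on hXi (hXe.const_mul 2) h.mS fun x hx => ?_
      have h3 := h.low x
      have h4 := h0 x hx
      nlinarith
    have h5 : ∫ x in S, X x * Real.exp (V x) ∂P =
        (∫ x, Real.exp (V x) ∂P) * tE P V (S.indicator X) := by
      have h6 := h.low'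
      rw [tE_ind V _ h.mS, ← mul_assoc, mul_inv_cancel₀ (by linarith), one_mul]
    rw [h5] at h2
    have h7 := mul_le_mul_of_nonneg_right h1 hT0
    have h8 : 0 ≤ 2 * B * tE P V (Sᶜ.indicator fun _ => 1) := by positivity
    linarith
  · push Not at ht
    have h1 : ∫ x in S, X x ∂P ≤ B := by
      have h2 : ∫ x in S, X x ∂P ≤ ∫ _ in S, B ∂P :=
        setIntegral_mono_on hXi (integrable_const _) h.mS hB
      have h3 : ∫ _ in S, B ∂P ≤ B := by
        have : P.real S ≤ 1 := measureReal_le_one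
        simp only [integral_const, measureReal_restrict_apply_univ, smul_eq_mul]
        nlinarith
      exact h2.trans h3
    have h4 : B * 1 ≤ B * (2 * tE P V (Sᶜ.indicator fun _ => 1)) :=
      mul_le_mul_of_nonneg_left (by linarith) hB0
    linarith

/-- **(L1), pointwise, true law on the right** -/
theorem l1_point' [IsProbabilityMeasure P] (h : L1D P V S η) {ℓ Vm : Ω → ℝ} {q b : ℝ}
    (hℓ : MemLp ℓ 2 P) (hℓ0 : ∫ x, ℓ x ∂P = 0) (hq : ∫ x, ℓ x ^ 2 ∂P ≤ q)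
    (hM : Measurable Vm) (hb : ∀ x, |Vm x| ≤ b) (hb0 : 0 ≤ b) (hb1 : b ≤ 1)
    (hℓe : Integrable (fun x => ℓ x * Real.exp (V x)) P)
    (hℓ2e : Integrable (fun x => ℓ x ^ 2 * Real.exp (V x)) P) :
    (tE P V ℓ - ∫ x, ℓ x * Vm x ∂P) ^ 2 ≤
      6 * tE P V (Sᶜ.indicator fun x => ℓ x ^ 2) +
        6 * q * (4 * η ^ 4 + 48 * b ^ 2 * η ^ 2 +
          48 * tE P V (S.indicator fun x => (V x - Vm x) ^ 2) +
          240 * tE P V (Sᶜ.indicator fun _ => 1)) := by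
  have key := l1_point h hℓ hℓ0 hq hM hb hb0 hb1 hℓe hℓ2e
  have h1 := h.pb_le
  have h2 := h.gd_le (X := fun x => (V x - Vm x) ^ 2) (B := 4)
    ((h.mV.sub hM).pow_const 2) (fun x _ => sq_nonneg _) (fun x hx => by
      have h3 := h.good x hx
      have h4 := hb x
      have h5 : |V x - Vm x| ≤ 2 := (abs_sub _ _).trans (by linarith [h.η1])
      have h6 := pow_le_pow_left₀ (abs_nonneg _) h5 2
      rw [sq_abs] at h6
      linarith) (by norm_num)
  have hq0 : 0 ≤ q := le_trans (integral_nonneg fun _ => sq_nonneg _) hq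
  have htb0 := h.tb0
  refine key.trans (add_le_add le_rfl (mul_le_mul_of_nonneg_left ?_ (by positivity)))
  linarith

end point

section window

variable {L I : Type*} [Fintype L] [DecidableEq L] [Fintype I]

lemma EfZ_cmul {K : ℝ} (hK : K ≠ 0) (Z : (L → ℝ) → ℝ) (σ : ℝ) (f : L → ℝ) (X : (L → ℝ) → ℝ) :
    EfZ (fun F => K * Z F) σ f X = EfZ Z σ f X := by
  unfold EfZ
  have e : ∀ g : L → ℝ, X (f + σ • g) * (K * Z (f + σ • g)) =
      K * (X (f + σ • g) * Z (f + σ • g)) := fun g => by ring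
  simp only [e]
  rw [integral_const_mul, integral_const_mul, mul_div_mul_left _ _ hK]

lemma measurable_wQV (Q : Matrix L L ℝ) {V : (L → ℝ) → ℝ} (hV : Measurable V) :
    Measurable (wQV Q V) := by
  unfold wQV
  exact (Real.measurable_exp.comp ((H663.qf_cont Q).measurable.div_const 2).neg).mul
    (Real.measurable_exp.comp hV)

lemma wQV_pos (Q : Matrix L L ℝ) (V : (L → ℝ) → ℝ) (F : L → ℝ) : 0 < wQV Q V F := by
  unfold wQV
  positivity

lemma tilt_int {Q : Matrix L L ℝ} (hQ : Qᵀ = Q) (h0 : ∀ v : L → ℝ, 0 ≤ qf Q v) (σ : ℝ)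
    {A : Matrix L I ℝ} (hA : A * Aᵀ = σ ^ 2 • (1 + σ ^ 2 • Q)⁻¹) (f : L → ℝ)
    {V : (L → ℝ) → ℝ} (hV : Measurable V) {X : (L → ℝ) → ℝ} (hX : Measurable X)
    (hi : Integrable (fun g => X (f + σ • g) * wQV Q V (f + σ • g)) (gau L)) :
    Integrable (fun g => X (aff Q σ A f g) * Real.exp (V (aff Q σ A f g))) (gau I) := by
  have h := (H663.tilt_integrable hQ h0 σ hA f (G := fun F => X F * Real.exp (V F))
    (hX.mul (Real.measurable_exp.comp hV)).stronglyMeasurable).1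
  refine h (hi.congr (Filter.Eventually.of_forall fun g => ?_))
  simp only [smul_eq_mul, wQV]
  ring

/-- **(L1), one window, true law on the right** -/
theorem l1_window' {Q : Matrix L L ℝ} {V : (L → ℝ) → ℝ} {G : Set (L → ℝ)} {σ η : ℝ}
    (h : WinD Q V G σ η) (hσ : σ ≠ 0)
    {A : Matrix L I ℝ} (hA : A * Aᵀ = σ ^ 2 • (1 + σ ^ 2 • Q)⁻¹)
    (S : Matrix L L ℝ) {z : ℝ} {v : ℝ} (hv : ∀ w, ∑ i, ((S * A) w i) ^ 2 = v)
    (hz : 2 * |z| * Fintype.card L ≤ 1) (f c : L → ℝ)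
    (i0 : Integrable (fun g => wQV Q V (f + σ • g)) (gau L))
    (i2 : Integrable (fun g => (c ⬝ᵥ (f + σ • g - (1 + σ ^ 2 • Q)⁻¹ *ᵥ f)) ^ 2 *
      wQV Q V (f + σ • g)) (gau L)) :
    ((σ ^ 2)⁻¹ * EfZ (wQV Q V) σ f (fun F => c ⬝ᵥ (F - (1 + σ ^ 2 • Q)⁻¹ *ᵥ f)) +
      4 * π * z * Real.exp (-(2 * π ^ 2 * v)) *
        ∑ w, ((S * (1 + σ ^ 2 • Q)⁻¹) *ᵥ c) w *
          Real.sin (2 * π * ((S * (1 + σ ^ 2 • Q)⁻¹) *ᵥ f) w)) ^ 2 ≤
      6 * ((σ ^ 2)⁻¹) ^ 2 * EfZ (wQV Q V) σ f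
        (Gᶜ.indicator fun F => (c ⬝ᵥ (F - (1 + σ ^ 2 • Q)⁻¹ *ᵥ f)) ^ 2) +
      6 * (σ ^ 2)⁻¹ * (∑ x, c x ^ 2) * (4 * η ^ 4 +
        48 * (2 * |z| * Fintype.card L) ^ 2 * η ^ 2 +
        48 * EfZ (wQV Q V) σ f (G.indicator fun F => (V F - Vmn S z F) ^ 2) +
        240 * EfZ (wQV Q V) σ f (Gᶜ.indicator fun _ => 1)) := by
  have hσ2 : 0 < σ ^ 2 := by positivity
  set φ := aff Q σ A f with hφ
  have mφ : Measurable φ := measurable_aff Q σ A f
  set ℓ : (I → ℝ) → ℝ := fun g => c ⬝ᵥ (A *ᵥ g) with hℓ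
  have hφd : ∀ g, φ g - (1 + σ ^ 2 • Q)⁻¹ *ᵥ f = A *ᵥ g := by
    intro g
    rw [hφ]
    unfold aff
    rw [add_sub_cancel_left]
  have hmF : Measurable fun F : L → ℝ => c ⬝ᵥ (F - (1 + σ ^ 2 • Q)⁻¹ *ᵥ f) := by
    unfold dotProduct
    fun_prop
  -- integrability
  have j0 : Integrable (fun g => Real.exp (V (φ g))) (gau I) := by
    have h1 := tilt_int h.sy h.psd σ hA f h.mV (X := fun _ => 1) measurable_const
      (by simpa only [one_mul] using i0)
    simpa only [one_mul] using h1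
  have j2 : Integrable (fun g => ℓ g ^ 2 * Real.exp (V (φ g))) (gau I) := by
    have h1 := tilt_int h.sy h.psd σ hA f h.mV
      (X := fun F => (c ⬝ᵥ (F - (1 + σ ^ 2 • Q)⁻¹ *ᵥ f)) ^ 2) (hmF.pow_const 2) i2
    simp only [← hφ, hφd] at h1
    exact h1
  have mℓ : Measurable ℓ := by
    have : ℓ = fun g => c ⬝ᵥ (φ g - (1 + σ ^ 2 • Q)⁻¹ *ᵥ f) := by
      funext g
      rw [hφd]
    rw [this]
    exact hmF.comp mφ
  have j1 : Integrable (fun g => ℓ g * Real.exp (V (φ g))) (gau I) := by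
    refine (j0.add j2).mono' (mℓ.mul (Real.measurable_exp.comp (h.mV.comp mφ))).aestronglyMeasurable
      (Filter.Eventually.of_forall fun g => ?_)
    rw [Real.norm_eq_abs, abs_mul, abs_of_pos (Real.exp_pos _)]
    change |ℓ g| * Real.exp (V (φ g)) ≤ Real.exp (V (φ g)) + ℓ g ^ 2 * Real.exp (V (φ g))
    have h1 : |ℓ g| ≤ 1 + ℓ g ^ 2 := by
      rw [← sq_abs (ℓ g)]
      nlinarith [sq_nonneg (|ℓ g| - 1), abs_nonneg (ℓ g)]
    have h2 := mul_le_mul_of_nonneg_right h1 (Real.exp_pos (V (φ g))).le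
    linarith
  have hℓln : ℓ = fun g => H883.ln (Aᵀ *ᵥ c) g := by
    funext g
    exact dot_mulVec_ln A c g
  have hd : L1D (gau I) (fun g => V (φ g)) (φ ⁻¹' G) η :=
    { mV := h.mV.comp mφ
      mS := mφ h.mG
      ie := j0
      low := fun g => h.low _
      η0 := h.η0
      η1 := h.η1
      good := fun g hg => h.good _ hg }
  have hℓm : MemLp ℓ 2 (gau I) := by
    rw [hℓln]
    exact memLp_ln _
  have hℓ0 : ∫ g, ℓ g ∂(gau I) = 0 := by
    rw [hℓln]
    exact int_ln _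
  have hq : ∫ g, ℓ g ^ 2 ∂(gau I) ≤ σ ^ 2 * ∑ x, c x ^ 2 := by
    have e1 : ∫ g, ℓ g ^ 2 ∂(gau I) = ∑ i, (Aᵀ *ᵥ c) i ^ 2 := by
      rw [hℓln]
      exact int_ln_sq _
    have e2 : ∑ i, (Aᵀ *ᵥ c) i ^ 2 = qf (A * Aᵀ) c := by
      have := H37.qf_gram (Aᵀ) c
      rw [transpose_transpose] at this
      exact this.symm
    have e3 : qf (A * Aᵀ) c = σ ^ 2 * qf (1 + σ ^ 2 • Q)⁻¹ c := by
      rw [hA, H37.qf_eq, H37.qf_eq, smul_mulVec, dotProduct_smul, smul_eq_mul]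
    rw [e1, e2, e3]
    exact mul_le_mul_of_nonneg_left (h.row c) hσ2.le
  have hb0 : 0 ≤ 2 * |z| * (Fintype.card L : ℝ) := by positivity
  have key := l1_point' hd (Vm := fun g => Vmn S z (φ g)) (b := 2 * |z| * Fintype.card L)
    hℓm hℓ0 hq ((measurable_Vmn S z).comp mφ) (fun g => abs_Vmn_le S z _) hb0 hz j1 j2
  -- identify the pieces
  have t1 : EfZ (wQV Q V) σ f (fun F => c ⬝ᵥ (F - (1 + σ ^ 2 • Q)⁻¹ *ᵥ f)) =
      tE (gau I) (fun g => V (φ g)) ℓ := by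
    rw [Ef_tE h.sy h.psd σ hA f h.mV hmF]
    simp only [← hφ, hφd, hℓ]
  have t2 : EfZ (wQV Q V) σ f (Gᶜ.indicator fun F => (c ⬝ᵥ (F - (1 + σ ^ 2 • Q)⁻¹ *ᵥ f)) ^ 2) =
      tE (gau I) (fun g => V (φ g)) ((φ ⁻¹' G)ᶜ.indicator fun g => ℓ g ^ 2) := by
    rw [Ef_tE h.sy h.psd σ hA f h.mV ((hmF.pow_const 2).indicator h.mG.compl)]
    congr 1
    funext g
    by_cases hg : φ g ∈ Gᶜ
    · rw [Set.indicator_of_mem hg, Set.indicator_of_mem (show g ∈ (φ ⁻¹' G)ᶜ from hg), hφd]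
    · rw [Set.indicator_of_notMem hg, Set.indicator_of_notMem (show g ∉ (φ ⁻¹' G)ᶜ from hg)]
  have t3 : EfZ (wQV Q V) σ f (Gᶜ.indicator fun _ => 1) =
      tE (gau I) (fun g => V (φ g)) ((φ ⁻¹' G)ᶜ.indicator fun _ => 1) := by
    rw [Ef_tE h.sy h.psd σ hA f h.mV (measurable_const.indicator h.mG.compl)]
    congr 1
  have t4 : EfZ (wQV Q V) σ f (G.indicator fun F => (V F - Vmn S z F) ^ 2) =
      tE (gau I) (fun g => V (φ g)) ((φ ⁻¹' G).indicator fun g =>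
        (V (φ g) - Vmn S z (φ g)) ^ 2) := by
    have hmm : Measurable (G.indicator fun F => (V F - Vmn S z F) ^ 2) :=
      ((h.mV.sub (measurable_Vmn S z)).pow_const 2).indicator h.mG
    rw [Ef_tE h.sy h.psd σ hA f h.mV hmm]
    rfl
  have t6 := main_term h.sy σ hA f c S z hv
  rw [t1, t2, t3, t4]
  set M1 := 4 * π * z * Real.exp (-(2 * π ^ 2 * v)) *
        ∑ w, ((S * (1 + σ ^ 2 • Q)⁻¹) *ᵥ c) w *
          Real.sin (2 * π * ((S * (1 + σ ^ 2 • Q)⁻¹) *ᵥ f) w) with hM1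
  have t7 : ∫ g, ℓ g * Vmn S z (φ g) ∂(gau I) = -(σ ^ 2 * M1) := t6
  rw [t7] at key
  have e1 : (σ ^ 2)⁻¹ * tE (gau I) (fun g => V (φ g)) ℓ + M1 =
      (σ ^ 2)⁻¹ * (tE (gau I) (fun g => V (φ g)) ℓ - -(σ ^ 2 * M1)) := by
    field_simp
    ring
  rw [e1, mul_pow]
  have hi : 0 ≤ ((σ ^ 2)⁻¹) ^ 2 := by positivity
  refine (mul_le_mul_of_nonneg_left key hi).trans (le_of_eq ?_)
  field_simp

end window

end

end Vale.Agent.P159.H462
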