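import Vale.Agent.P159.H462.L1c
import Vale.Agent.P159.H114.Nu2

/-!
P159 (helper462), (L1) part d: the channel from level `t'` to level `t` as the conditional law
`E_f` of the cell functional `Z(F) = e^{-t l² |F|²/2} Zs μt (t l Bᵀ F)`.

* `EfZ_Ech` : `E_f X = Ech μ (t' l Bᵀ f) (√(t-t') B) (X ∘ (t l)⁻¹ B)`;
* `tower_nu` : average over `f` (law `nuP μ' (√p' B)`) of `E_f X` is the average of `X` over the law of
  `F` (`nuP μ' (√p B)`), `p = p' + (t - t')`;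
* `Ef_mean` : `E_f <c,F> = (t'/t) <c,f> + ((t-t')/(t l)) Ex μ (t' l Bᵀ f) (li (Bᵀ c))`.
-/

set_option linter.unusedSectionVars false
set_option linter.unusedVariables false

namespace Vale.Agent.P159.H462

open Finset MeasureTheory Matrix
open Vale.Agent.P159.TM.H104 (EM Ex Cv K3 Lg li nh Gr)
open Vale.Agent.P159.H37
open Vale.Agent.P159.H663 (ChI)
open Vale.Agent.P159.H114 (nuP)

noncomputable section

variable {X : Type*} [Fintype X] {L : Type*} [Fintype L] [DecidableEq L]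

/-- the cell functional of the weight `μ` (mass `t` on the cells), cells of side `l` -/
def Zc (μ : (X → ℤ) → ℝ) (B : Matrix L X ℝ) (t l : ℝ) (F : L → ℝ) : ℝ :=
  Real.exp (-(t * l ^ 2 * (∑ x, F x ^ 2) / 2)) * Zs μ ((t * l) • (Bᵀ *ᵥ F))

lemma cont_src (B : Matrix L X ℝ) (r : ℝ) : Continuous fun F : L → ℝ => r • (Bᵀ *ᵥ F) :=
  (Continuous.matrix_mulVec continuous_const continuous_id).const_smul r

lemma continuous_Zc {μ : (X → ℤ) → ℝ} (hμ : EM μ) (B : Matrix L X ℝ) (t l : ℝ) :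
    Continuous (Zc μ B t l) := by
  unfold Zc
  refine Continuous.mul (by fun_prop) ?_
  exact (continuous_Zs hμ).comp (cont_src B _)

lemma Zc_pos {μ : (X → ℤ) → ℝ} (hμ : EM μ) (B : Matrix L X ℝ) (t l : ℝ) (F : L → ℝ) :
    0 < Zc μ B t l F := mul_pos (Real.exp_pos _) (Zs_pos hμ _)

lemma post_add {p q : ℝ} (hp : 0 ≤ p) (hq : 0 ≤ q) (μ : (X → ℤ) → ℝ) (B : Matrix L X ℝ) :
    post (post μ (√p • B)) (√q • B) = post μ (√(p + q) • B) := by
  funext h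
  unfold post
  have e : ∀ r : ℝ, 0 ≤ r → ∑ i, ((√r • B) *ᵥ re h) i ^ 2 = r * ∑ i, (B *ᵥ re h) i ^ 2 := by
    intro r hr
    rw [Finset.mul_sum]
    refine Finset.sum_congr rfl fun i _ => ?_
    rw [smul_mulVec, Pi.smul_apply, smul_eq_mul, mul_pow, Real.sq_sqrt hr]
  rw [e p hp, e q hq, e (p + q) (add_nonneg hp hq), mul_assoc, ← Real.exp_add]
  congr 2
  ring

/-- the channel depends on the Gram matrix only -/
lemma Ech_gram {μ : (X → ℤ) → ℝ} (hμ : EM μ) (J : X → ℝ) {I₁ I₂ : Type*} [Fintype I₁] [Fintype I₂]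
    (P₁ : Matrix I₁ X ℝ) (P₂ : Matrix I₂ X ℝ) (h : P₁ᵀ * P₁ = P₂ᵀ * P₂) {Φ : (X → ℝ) → ℝ}
    (hΦ : Measurable Φ) : Ech μ J P₁ Φ = Ech μ J P₂ Φ := by
  have hpost : post μ P₁ = post μ P₂ := by
    funext h'
    unfold post
    rw [← qf_gram, ← qf_gram, h]
  have hm := (continuous_Zs (em_post hμ P₂)).measurable
  have hlaw : P₁ᵀ * P₁ᵀᵀ = P₂ᵀ * P₂ᵀᵀ := by rw [transpose_transpose, transpose_transpose, h]
  unfold Ech
  rw [hpost]
  congr 1
  · exact H363.law_integral_eq_add (P₁ᵀ) (P₂ᵀ) hlaw J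
      (fun J => Φ J * Zs (post μ P₂) J) (hΦ.mul hm).stronglyMeasurable
  · exact H363.law_integral_eq_add (P₁ᵀ) (P₂ᵀ) hlaw J
      (fun J => Zs (post μ P₂) J) hm.stronglyMeasurable

lemma gram_rows {p q : ℝ} (hp : 0 ≤ p) (hq : 0 ≤ q) (B : Matrix L X ℝ) :
    (fromRows (√p • B) (√q • B))ᵀ * fromRows (√p • B) (√q • B) =
      (√(p + q) • B)ᵀ * (√(p + q) • B) := by
  rw [transpose_fromRows, fromCols_mul_fromRows]
  simp only [transpose_smul, Matrix.smul_mul, Matrix.mul_smul, smul_smul]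
  rw [Real.mul_self_sqrt hp, Real.mul_self_sqrt hq, Real.mul_self_sqrt (add_nonneg hp hq), add_smul]

/-- scalars of two levels -/
structure Lv (t' t l σ : ℝ) : Prop where
  t'0 : 0 < t'
  lt : t' < t
  l0 : 0 < l
  σ0 : 0 < σ
  hσ : σ ^ 2 = (t - t') / (t * t' * l ^ 2)

lemma Lv.t0 {t' t l σ : ℝ} (h : Lv t' t l σ) : 0 < t := h.t'0.trans h.lt

lemma Lv.inv {t' t l σ : ℝ} (h : Lv t' t l σ) : (1 + σ ^ 2 * (t * l ^ 2))⁻¹ = t' / t := by
  have h1 := h.t'0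
  have h2 := h.t0
  have h3 := h.l0
  rw [h.hσ, inv_eq_iff_eq_inv, inv_div]
  field_simp
  ring

/-- the tilted scale -/
def scl (t' t l : ℝ) : ℝ := √(t - t') / (t * l)

lemma Lv.scl_sq {t' t l σ : ℝ} (h : Lv t' t l σ) : scl t' t l ^ 2 = σ ^ 2 * (t' / t) := by
  have h1 := h.t'0
  have h2 := h.t0
  have h3 := h.l0
  have h4 := h.lt
  unfold scl
  rw [div_pow, Real.sq_sqrt (by linarith), h.hσ]
  field_simp

lemma sm_inv {r : ℝ} (hr : r ≠ 0) : (r • (1 : Matrix L L ℝ))⁻¹ = r⁻¹ • 1 := by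
  refine inv_eq_right_inv ?_
  rw [smul_mul_smul_comm, mul_inv_cancel₀ hr, one_smul, Matrix.one_mul]

lemma Lv.minv {t' t l σ : ℝ} (h : Lv t' t l σ) :
    (1 + σ ^ 2 • ((t * l ^ 2) • (1 : Matrix L L ℝ)))⁻¹ = (t' / t) • (1 : Matrix L L ℝ) := by
  have h1 := h.t'0
  have h2 := h.t0
  have h3 := h.l0
  have e : (1 : Matrix L L ℝ) + σ ^ 2 • ((t * l ^ 2) • (1 : Matrix L L ℝ)) =
      (1 + σ ^ 2 * (t * l ^ 2)) • (1 : Matrix L L ℝ) := by
    rw [smul_smul, add_smul, one_smul]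
  have h0 : 0 < 1 + σ ^ 2 * (t * l ^ 2) := by positivity
  rw [e, sm_inv h0.ne', h.inv]

lemma Lv.cov {t' t l σ : ℝ} (h : Lv t' t l σ) :
    (scl t' t l • (1 : Matrix L L ℝ)) * (scl t' t l • (1 : Matrix L L ℝ))ᵀ =
      σ ^ 2 • (1 + σ ^ 2 • ((t * l ^ 2) • (1 : Matrix L L ℝ)))⁻¹ := by
  rw [h.minv, transpose_smul, transpose_one, smul_mul_smul_comm, Matrix.one_mul, smul_smul,
    ← sq, h.scl_sq]

/-- the conditional law of the cell functional is the channel -/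
theorem EfZ_Ech {μ : (X → ℤ) → ℝ} (hμ : EM μ) {B : Matrix L X ℝ} (hB : B * Bᵀ = 1)
    {t' t l σ : ℝ} (h : Lv t' t l σ) (f : L → ℝ) {Y : (L → ℝ) → ℝ} (hY : Measurable Y) :
    EfZ (Zc (post μ (√(t - t') • B)) B t l) σ f Y =
      Ech μ ((t' * l) • (Bᵀ *ᵥ f)) (√(t - t') • B) fun J => Y ((t * l)⁻¹ • (B *ᵥ J)) := by
  have h1 := h.t'0
  have h2 := h.t0
  have h3 := h.l0
  have h4 := h.lt
  have hp := em_post hμ (√(t - t') • B)
  set μt := post μ (√(t - t') • B) with hμt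
  set W : (L → ℝ) → ℝ := fun F => Zs μt ((t * l) • (Bᵀ *ᵥ F)) with hW
  have hWm : Measurable W := ((continuous_Zs hp).comp (cont_src B _)).measurable
  have hqf : ∀ F : L → ℝ, qf ((t * l ^ 2) • (1 : Matrix L L ℝ)) F = t * l ^ 2 * ∑ x, F x ^ 2 :=
    fun F => qf_smul_one _ _
  have hr := H663.tilt_ratio (L := L) (Q := (t * l ^ 2) • (1 : Matrix L L ℝ))
    (by rw [transpose_smul, transpose_one])
    (fun v => by rw [hqf]; positivity) σ h.cov f hWm (ψ := Y) hY.stronglyMeasurable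
  have hZ : ∀ F, Zc μt B t l F = Real.exp (-(qf ((t * l ^ 2) • (1 : Matrix L L ℝ)) F / 2)) * W F := by
    intro F
    rw [hqf]
    rfl
  have hφ : ∀ g : L → ℝ, (1 + σ ^ 2 • ((t * l ^ 2) • (1 : Matrix L L ℝ)))⁻¹ *ᵥ f +
      (scl t' t l • (1 : Matrix L L ℝ)) *ᵥ g = (t' / t) • f + scl t' t l • g := by
    intro g
    rw [h.minv, smul_mulVec, one_mulVec, smul_mulVec, one_mulVec]
  have hscl : t * l * scl t' t l = √(t - t') := by
    unfold scl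
    field_simp
  have hJ : ∀ g : L → ℝ, (t * l) • (Bᵀ *ᵥ ((t' / t) • f + scl t' t l • g)) =
      (t' * l) • (Bᵀ *ᵥ f) + (√(t - t') • B)ᵀ *ᵥ g := by
    intro g
    rw [mulVec_add, mulVec_smul, mulVec_smul, smul_add, smul_smul, smul_smul, hscl,
      transpose_smul, smul_mulVec]
    congr 2
    field_simp
  have hF : ∀ g : L → ℝ, (t * l)⁻¹ • (B *ᵥ ((t' * l) • (Bᵀ *ᵥ f) + (√(t - t') • B)ᵀ *ᵥ g)) =
      (t' / t) • f + scl t' t l • g := by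
    intro g
    rw [← hJ, mulVec_smul, mulVec_mulVec, hB, one_mulVec, smul_smul,
      inv_mul_cancel₀ (by positivity), one_smul]
  simp only [hφ, smul_eq_mul] at hr
  unfold EfZ Ech
  simp only [hZ, hF]
  have e1 : ∀ g : L → ℝ, Y (f + σ • g) *
      (Real.exp (-(qf ((t * l ^ 2) • (1 : Matrix L L ℝ)) (f + σ • g) / 2)) * W (f + σ • g)) =
      Real.exp (-(qf ((t * l ^ 2) • (1 : Matrix L L ℝ)) (f + σ • g) / 2)) * W (f + σ • g) *
        Y (f + σ • g) := fun g => by ring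
  simp only [e1]
  rw [inv_mul_eq_div, inv_mul_eq_div] at hr
  rw [hr]
  have e2 : ∀ g : L → ℝ, W ((t' / t) • f + scl t' t l • g) =
      Zs μt ((t' * l) • (Bᵀ *ᵥ f) + (√(t - t') • B)ᵀ *ᵥ g) := by
    intro g
    rw [← hJ]
  simp only [e2]
  congr 1
  refine integral_congr_ae (Filter.Eventually.of_forall fun g => ?_)
  simp only
  ring

/-- mean of a linear functional of the source -/
lemma Ech_dot {μ : (X → ℤ) → ℝ} (hμ : EM μ) (J₁ : X → ℝ) {I : Type*} [Fintype I]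
    (P : Matrix I X ℝ) (b : X → ℝ) :
    Ech μ J₁ P (fun J => b ⬝ᵥ J) = b ⬝ᵥ J₁ + Ex μ J₁ (li (Pᵀ *ᵥ (P *ᵥ b))) := by
  rw [Ech_eq hμ J₁ P (H663.EGr.dot b)]
  simp only [H663.int_dot_obs]
  rw [TM.H104.Ex_add hμ (Gr.const _) (Gr.li _), TM.H104.Ex_const hμ]

lemma Ex_li_smul (μ : (X → ℤ) → ℝ) (J : X → ℝ) (r : ℝ) (a : X → ℝ) :
    Ex μ J (li (r • a)) = r * Ex μ J (li a) := by
  have : li (r • a) = fun h : X → ℤ => r * li a h := by
    funext h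
    exact TM.H104.li_smul r a h
  rw [this, TM.H104.Ex_cmul]

/-- mean of a linear functional under `E_f` -/
theorem Ef_mean {μ : (X → ℤ) → ℝ} (hμ : EM μ) {B : Matrix L X ℝ} (hB : B * Bᵀ = 1)
    {t' t l σ : ℝ} (h : Lv t' t l σ) (f c : L → ℝ) :
    EfZ (Zc (post μ (√(t - t') • B)) B t l) σ f (fun F => c ⬝ᵥ F) =
      (t' / t) * (c ⬝ᵥ f) +
        (t - t') / (t * l) * Ex μ ((t' * l) • (Bᵀ *ᵥ f)) (li (Bᵀ *ᵥ c)) := by
  have h1 := h.t'0
  have h2 := h.t0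
  have h3 := h.l0
  have h4 := h.lt
  rw [EfZ_Ech hμ hB h f (by unfold dotProduct; fun_prop)]
  have e : (fun J : X → ℝ => c ⬝ᵥ ((t * l)⁻¹ • (B *ᵥ J))) =
      fun J => ((t * l)⁻¹ • (Bᵀ *ᵥ c)) ⬝ᵥ J := by
    funext J
    rw [dotProduct_smul, dotProduct_mulVec, ← mulVec_transpose, smul_dotProduct]
  rw [e, Ech_dot hμ]
  have e2 : (√(t - t') • B)ᵀ *ᵥ ((√(t - t') • B) *ᵥ ((t * l)⁻¹ • (Bᵀ *ᵥ c))) =
      ((t - t') / (t * l)) • (Bᵀ *ᵥ c) := by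
    have hBB : B *ᵥ (Bᵀ *ᵥ c) = c := by rw [mulVec_mulVec, hB, one_mulVec]
    simp only [transpose_smul, smul_mulVec, mulVec_smul, smul_smul, hBB]
    congr 1
    have hsq : √(t - t') * √(t - t') = t - t' := Real.mul_self_sqrt (by linarith)
    calc _ = (√(t - t') * √(t - t')) / (t * l) := by
          field_simp
      _ = _ := by rw [hsq]
  rw [e2, Ex_li_smul]
  congr 1
  rw [smul_dotProduct, dotProduct_smul, smul_eq_mul, smul_eq_mul, mulVec_transpose,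
    ← dotProduct_mulVec, mulVec_mulVec, hB, one_mulVec]
  field_simp

/-- integrability of the second observation, averaged over the first -/
lemma chI_tower {μ' : (X → ℤ) → ℝ} (hμ : EM μ') {I I₂ : Type*} [Fintype I] [Fintype I₂]
    (J₀ : X → ℝ) (P : Matrix I X ℝ)
    (P₂ : Matrix I₂ X ℝ) {Φ : (X → ℝ) → ℝ} (hΦ : EGr Φ) :
    ChI μ' J₀ P fun J₁ => Ech (post μ' P) J₁ P₂ Φ := by
  have hp := em_post hμ P
  unfold H663.ChI
  have h1 : ∀ g : I → ℝ, Ech (post μ' P) (J₀ + Pᵀ *ᵥ g) P₂ Φ *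
      Zs (post μ' P) (J₀ + Pᵀ *ᵥ g) =
      ∫ g₂, Φ (J₀ + Pᵀ *ᵥ g + P₂ᵀ *ᵥ g₂) *
      Zs (post (post μ' P) P₂) (J₀ + Pᵀ *ᵥ g + P₂ᵀ *ᵥ g₂) ∂(gau I₂) := by
    intro g
    unfold Ech
    rw [ch_norm hp, div_mul_cancel₀ _ (Zs_pos hp _).ne']
  simp_rw [h1]
  have hint := ch_int hμ J₀ (fromRows P P₂) hΦ
  rw [post_fromRows] at hint
  have e1 : ∀ g : I ⊕ I₂ → ℝ, J₀ + (fromRows P P₂)ᵀ *ᵥ g =
      J₀ + Pᵀ *ᵥ (fun i => g (Sum.inl i)) + P₂ᵀ *ᵥ (fun i => g (Sum.inr i)) := by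
    intro g
    rw [transpose_fromRows, add_assoc]
    congr 1
    have : g = Sum.elim (fun i => g (Sum.inl i)) (fun i => g (Sum.inr i)) := by
      funext i; cases i <;> rfl
    conv_lhs => rw [this]
    rw [fromCols_mulVec_sumElim]
  simp_rw [e1] at hint
  have hmp := gau_sum (I₁ := I) (I₂ := I₂)
  have h2 := (hmp.integrable_comp_emb (MeasurableEquiv.measurableEmbedding _) (g := fun p :
    (I → ℝ) × (I₂ → ℝ) => Φ (J₀ + Pᵀ *ᵥ p.1 + P₂ᵀ *ᵥ p.2) *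
      Zs (post (post μ' P) P₂) (J₀ + Pᵀ *ᵥ p.1 + P₂ᵀ *ᵥ p.2))).1 hint
  exact h2.integral_prod_left

end

end Vale.Agent.P159.H462
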