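import Vale.Agent.P159.H462.L1e
import Vale.Agent.P159.TM.H104.Ubd

/-!
P159 (helper462), (L1) part f: the tower for `E_f` under the channel law and the identity
`<c, X> = -σ⁻² E_f <c, F - f>`.
-/

set_option linter.unusedSectionVars false
set_option linter.unusedVariables false

namespace Vale.Agent.P159.H462

open Finset MeasureTheory Matrix
open Vale.Agent.P159.TM.H104 (EM Ex Cv K3 Lg li nh Gr)
open Vale.Agent.P159.H37
open Vale.Agent.P159.H663 (ChI)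
open Vale.Agent.P159.H114 (nuP pm FF XX lc int_nuP integrable_nuP Ech_nuP)

noncomputable section

variable {X : Type*} [Fintype X] {L : Type*} [Fintype L] [DecidableEq L]

/-- prior `τ`, levels `t' < t`, cells of side `l` -/
structure Lw (μ' : (X → ℤ) → ℝ) (B : Matrix L X ℝ) (τ t' t l σ : ℝ) : Prop where
  em : EM μ'
  hB : B * Bᵀ = 1
  τ0 : 0 < τ
  τt : τ < t'
  lv : Lv t' t l σ

/-- the scale of the field -/
def al (τ t l : ℝ) : ℝ := √(t - τ) / (t * l)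

variable {μ' : (X → ℤ) → ℝ} {B : Matrix L X ℝ} {τ t' t l σ : ℝ}

/-- `E_f`, as a function of the noise variable -/
def Eg (μ' : (X → ℤ) → ℝ) (B : Matrix L X ℝ) (τ t' t l σ : ℝ) (Y : (L → ℝ) → ℝ) (g : L → ℝ) : ℝ :=
  EfZ (Zc (post μ' (√(t - τ) • B)) B t l) σ (al τ t' l • g) Y

lemma Lw.al_pos (h : Lw μ' B τ t' t l σ) : 0 < al τ t' l := by
  have h1 := h.τt
  have h2 := h.lv.t'0
  have h3 := h.lv.l0
  unfold al
  have : 0 < √(t' - τ) := Real.sqrt_pos.2 (by linarith)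
  positivity

lemma al_mul (ht : t ≠ 0) (hl : l ≠ 0) (τ : ℝ) : t * l * al τ t l = √(t - τ) := by
  unfold al
  field_simp

lemma src_al (ht : t ≠ 0) (hl : l ≠ 0) (τ : ℝ) (B : Matrix L X ℝ) (g : L → ℝ) :
    (t * l) • (Bᵀ *ᵥ (al τ t l • g)) = (√(t - τ) • B)ᵀ *ᵥ g := by
  rw [mulVec_smul, smul_smul, al_mul ht hl, transpose_smul, smul_mulVec]

lemma Lw.post_eq (h : Lw μ' B τ t' t l σ) :
    post (post μ' (√(t' - τ) • B)) (√(t - t') • B) = post μ' (√(t - τ) • B) := by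
  have h1 := h.τt
  have h2 := h.lv.lt
  rw [post_add (by linarith) (by linarith)]
  congr 3
  ring

lemma Lw.Eg_eq (h : Lw μ' B τ t' t l σ) {Y : (L → ℝ) → ℝ} (hY : Measurable Y) (g : L → ℝ) :
    Eg μ' B τ t' t l σ Y g = Ech (post μ' (√(t' - τ) • B)) ((√(t' - τ) • B)ᵀ *ᵥ g)
      (√(t - t') • B) fun J => Y ((t * l)⁻¹ • (B *ᵥ J)) := by
  unfold Eg
  rw [← h.post_eq, EfZ_Ech (em_post h.em _) h.hB h.lv _ hY,
    src_al h.lv.t'0.ne' h.lv.l0.ne']

lemma EGr.cell {Y : (L → ℝ) → ℝ} (hY : EGr Y) (B : Matrix L X ℝ) (r : ℝ) :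
    EGr fun J : X → ℝ => Y (r • (B *ᵥ J)) := by
  have h := EGr.lin_comp hY (r • B)
  simpa only [smul_mulVec] using h

/-- **tower** -/
theorem Lw.tower (h : Lw μ' B τ t' t l σ) {Y : (L → ℝ) → ℝ} (hY : EGr Y) :
    Integrable (Eg μ' B τ t' t l σ Y) (nuP μ' (√(t' - τ) • B)) ∧
    ∫ g, Eg μ' B τ t' t l σ Y g ∂(nuP μ' (√(t' - τ) • B)) =
      ∫ g, Y (al τ t l • g) ∂(nuP μ' (√(t - τ) • B)) := by
  have h1 := h.τt
  have h2 := h.lv.lt
  have h3 := h.lv.l0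
  have h4 := h.lv.t0
  have hΨ : EGr fun J : X → ℝ => Y ((t * l)⁻¹ • (B *ᵥ J)) := EGr.cell hY B _
  set Ψ := fun J : X → ℝ => Y ((t * l)⁻¹ • (B *ᵥ J)) with hΨd
  have hfun : Eg μ' B τ t' t l σ Y = fun g =>
      Ech (post μ' (√(t' - τ) • B)) ((√(t' - τ) • B)ᵀ *ᵥ g) (√(t - t') • B) Ψ := by
    funext g
    exact h.Eg_eq hY.meas g
  constructor
  · rw [hfun]
    refine integrable_nuP h.em _ ?_
    have h5 := chI_tower h.em 0 (√(t' - τ) • B) (√(t - t') • B) hΨ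
    unfold H663.ChI at h5
    simpa only [zero_add] using h5
  · rw [hfun]
    have h5 := Ech_nuP h.em (√(t' - τ) • B)
      fun J₁ => Ech (post μ' (√(t' - τ) • B)) J₁ (√(t - t') • B) Ψ
    rw [← h5, ← Ech_tower h.em 0 (√(t' - τ) • B) (√(t - t') • B) hΨ,
      Ech_gram h.em 0 _ (√(t - τ) • B) (by
        rw [gram_rows (by linarith) (by linarith)]
        have : t' - τ + (t - t') = t - τ := by ring
        rw [this]) hΨ.meas, Ech_nuP h.em]
    refine integral_congr_ae (Filter.Eventually.of_forall fun g => ?_)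
    simp only [hΨd]
    congr 1
    rw [← src_al h4.ne' h3.ne', mulVec_smul, mulVec_mulVec, h.hB, one_mulVec, smul_smul,
      inv_mul_cancel₀ (by positivity), one_smul]

/-! ### algebra of `E_f` -/

lemma Lw.Eg_mono (h : Lw μ' B τ t' t l σ) {Y Y' : (L → ℝ) → ℝ} (hY : EGr Y) (hY' : EGr Y')
    (hle : ∀ F, Y F ≤ Y' F) (g : L → ℝ) : Eg μ' B τ t' t l σ Y g ≤ Eg μ' B τ t' t l σ Y' g := by
  rw [h.Eg_eq hY.meas, h.Eg_eq hY'.meas]
  exact Ech_mono (em_post h.em _) _ _ (EGr.cell hY B _) (EGr.cell hY' B _) fun J => hle _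

lemma Lw.Eg_add (h : Lw μ' B τ t' t l σ) {Y Y' : (L → ℝ) → ℝ} (hY : EGr Y) (hY' : EGr Y')
    (g : L → ℝ) : Eg μ' B τ t' t l σ (fun F => Y F + Y' F) g =
      Eg μ' B τ t' t l σ Y g + Eg μ' B τ t' t l σ Y' g := by
  rw [h.Eg_eq hY.meas, h.Eg_eq hY'.meas, h.Eg_eq (hY.add hY').meas]
  exact Ech_add (em_post h.em _) _ _ (EGr.cell hY B _) (EGr.cell hY' B _)

lemma Lw.Eg_cmul (h : Lw μ' B τ t' t l σ) {Y : (L → ℝ) → ℝ} (hY : EGr Y) (r : ℝ)
    (g : L → ℝ) : Eg μ' B τ t' t l σ (fun F => r * Y F) g = r * Eg μ' B τ t' t l σ Y g := by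
  rw [h.Eg_eq hY.meas, h.Eg_eq (hY.cmul r).meas]
  exact Ech_cmul _ _ _ _ _

lemma Lw.Eg_const (h : Lw μ' B τ t' t l σ) (r : ℝ) (g : L → ℝ) :
    Eg μ' B τ t' t l σ (fun _ => r) g = r := by
  rw [h.Eg_eq measurable_const]
  exact Ech_const (em_post h.em _) _ _ _

/-! ### the score -/

lemma lc_pm (hμ : EM μ') (B : Matrix L X ℝ) (p : ℝ) (c g : L → ℝ) :
    ∑ i, c i * pm μ' B p (Pi.single i 1) g = pm μ' B p c g := by
  have hp := em_post hμ (√p • B)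
  unfold H114.pm
  have e1 : li (Bᵀ *ᵥ c) = fun h : X → ℤ => ∑ i, c i * li (Bᵀ *ᵥ (Pi.single i (1 : ℝ) : L → ℝ)) h := by
    funext h
    have e2 : ∀ d : L → ℝ, li (Bᵀ *ᵥ d) h = ∑ i, d i * (B *ᵥ re h) i := by
      intro d
      rw [li_obs]
      exact Finset.sum_congr rfl fun i _ => mul_comm _ _
    simp only [e2]
    refine Finset.sum_congr rfl fun i _ => ?_
    congr 1
    simp [Pi.single_apply]
  rw [e1, TM.H104.Ex_sum hp _ _ _ fun i => Gr.li _, Finset.mul_sum]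
  exact Finset.sum_congr rfl fun i _ => by ring

/-- the mass of the reference Gaussian -/
def ms (τ t l : ℝ) : ℝ := τ * t * l ^ 2 / (t - τ)

theorem Lw.score (h : Lw μ' B τ t' t l σ) (c g : L → ℝ) :
    lc c (XX μ' B (t' - τ) (al τ t' l) (ms τ t' l)) g =
      -((σ ^ 2)⁻¹ * (Eg μ' B τ t' t l σ (fun F => c ⬝ᵥ F) g - c ⬝ᵥ (al τ t' l • g))) := by
  have h1 := h.τt
  have h2 := h.lv.lt
  have h3 := h.lv.l0
  have h4 := h.lv.t0
  have h5 := h.lv.t'0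
  have hα := h.al_pos
  have hal := al_mul h5.ne' h3.ne' τ
  have hE : Eg μ' B τ t' t l σ (fun F => c ⬝ᵥ F) g = (t' / t) * (c ⬝ᵥ (al τ t' l • g)) +
      (t - t') / (t * l) * Ex (post μ' (√(t' - τ) • B)) ((√(t' - τ) • B)ᵀ *ᵥ g)
        (li (Bᵀ *ᵥ c)) := by
    unfold Eg
    rw [← h.post_eq, Ef_mean (em_post h.em _) h.hB h.lv, src_al h5.ne' h3.ne']
  have hpm := lc_pm h.em B (t' - τ) c g
  set E := Ex (post μ' (√(t' - τ) • B)) ((√(t' - τ) • B)ᵀ *ᵥ g) (li (Bᵀ *ᵥ c)) with hEd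
  have hpm2 : pm μ' B (t' - τ) c g = √(t' - τ) * E := rfl
  have hcg : c ⬝ᵥ (al τ t' l • g) = al τ t' l * ∑ i, c i * g i := by
    rw [dotProduct_smul, smul_eq_mul]
    rfl
  have hL : lc c (XX μ' B (t' - τ) (al τ t' l) (ms τ t' l)) g =
      (al τ t' l)⁻¹ * ((∑ i, c i * g i) - √(t' - τ) * E) -
        ms τ t' l * (al τ t' l * ∑ i, c i * g i) := by
    rw [← hpm2, ← hpm]
    unfold H114.lc H114.XX
    simp only [Finset.mul_sum, ← Finset.sum_sub_distrib]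
    exact Finset.sum_congr rfl fun i _ => by ring
  rw [hL, hE, hcg]
  set a := al τ t' l with ha
  set s := ∑ i, c i * g i with hs
  have hsq : √(t' - τ) ^ 2 = t' - τ := Real.sq_sqrt (by linarith)
  have ha2 : (t' * l * a) ^ 2 = t' - τ := by rw [hal, hsq]
  have hp' : 0 < t' - τ := by linarith
  have hp'' : 0 < t - t' := by linarith
  rw [← hal]
  have e1 : a⁻¹ * (s - t' * l * a * E) = a⁻¹ * s - t' * l * E := by
    field_simp
  have e2 : a⁻¹ * s = (t' * l) ^ 2 * a * s / (t' - τ) := by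
    rw [← ha2]
    field_simp
  have hσ : (σ ^ 2)⁻¹ = t * t' * l ^ 2 / (t - t') := by rw [h.lv.hσ, inv_div]
  rw [e1, e2, hσ]
  unfold ms
  field_simp
  ring

end

end Vale.Agent.P159.H462
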