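import Vale.Agent.P159.H462.L1f

/-!
P159 (helper462), (L1) part g: **(L1)** for the channel law.

`nu' = nuP μ' (√(t'-τ) B)` (level `t'`, prior `τ`), `F' = α' g`, `X` the score minus its Gaussian part;
`nu = nuP μ' (√(t-τ) B)` (level `t > t'`, same prior), cell functional at level `t` equal to
`K e^{-<F,QF>/2 + V(F)}`, good set `G` with `|V| ≤ η ≤ 1` on `G`. Then `L1` holds with
`A' = σ⁻² (1 - ah)`, `S' = S ah`, `z' = z e^{-2π²v}` and

`η_L1² = 24 σ⁻⁴ (9/(τ l²)) √δ + 6 σ⁻² (4 η⁴ + 48 b² η² + 48 D + 240 δ)`,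

`δ = nu(Gᶜ)`, `D = E_nu[(V - Vm)² 1_G]`, `b = 2 |z| n`.
-/

set_option linter.unusedSectionVars false
set_option linter.unusedVariables false

namespace Vale.Agent.P159.H462

open Finset MeasureTheory Matrix
open Vale.Agent.P159.TM.H104 (EM Ex Cv K3 Lg li nh Gr)
open Vale.Agent.P159.H37
open Vale.Agent.P159.H663 (ChI)
open Vale.Agent.P159.H114 (nuP pm FF XX lc int_nuP integrable_nuP Ech_nuP L1 th sg)
open scoped Real

noncomputable section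

variable {X : Type*} [Fintype X] {L : Type*} [Fintype L] [DecidableEq L] {I : Type*} [Fintype I]

/-- integrability under the conditional law -/
lemma Zc_int {μ : (X → ℤ) → ℝ} (hμ : EM μ) {B : Matrix L X ℝ} (hB : B * Bᵀ = 1)
    {t' t l σ : ℝ} (h : Lv t' t l σ) (f : L → ℝ) {Y : (L → ℝ) → ℝ} (hY : EGr Y) :
    Integrable (fun g => Y (f + σ • g) * Zc (post μ (√(t - t') • B)) B t l (f + σ • g))
      (gau L) := by
  have h1 := h.t'0
  have h2 := h.t0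
  have h3 := h.l0
  have h4 := h.lt
  have hp := em_post hμ (√(t - t') • B)
  set W : (L → ℝ) → ℝ := fun F => Zs (post μ (√(t - t') • B)) ((t * l) • (Bᵀ *ᵥ F)) with hW
  have hWm : Measurable W := ((continuous_Zs hp).comp (cont_src B _)).measurable
  have hqf : ∀ F : L → ℝ, qf ((t * l ^ 2) • (1 : Matrix L L ℝ)) F = t * l ^ 2 * ∑ x, F x ^ 2 :=
    fun F => qf_smul_one _ _
  have hr := (H663.tilt_integrable (L := L) (Q := (t * l ^ 2) • (1 : Matrix L L ℝ))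
    (by rw [transpose_smul, transpose_one])
    (fun v => by rw [hqf]; positivity) σ h.cov f (G := fun F => Y F * W F)
      (hY.meas.mul hWm).stronglyMeasurable).2
  have hφ : ∀ g : L → ℝ, (1 + σ ^ 2 • ((t * l ^ 2) • (1 : Matrix L L ℝ)))⁻¹ *ᵥ f +
      (scl t' t l • (1 : Matrix L L ℝ)) *ᵥ g = (t' / t) • f + scl t' t l • g := by
    intro g
    rw [h.minv, smul_mulVec, one_mulVec, smul_mulVec, one_mulVec]
  have hscl : t * l * scl t' t l = √(t - t') := by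
    unfold scl
    field_simp
  have hJ : ∀ g : L → ℝ, (t * l) • (Bᵀ *ᵥ ((t' / t) • f + scl t' t l • g)) =
      (t' * l) • (Bᵀ *ᵥ f) + (√(t - t') • B)ᵀ *ᵥ g := by
    intro g
    rw [mulVec_add, mulVec_smul, mulVec_smul, smul_add, smul_smul, smul_smul, hscl,
      transpose_smul, smul_mulVec]
    congr 2
    field_simp
  have hF : ∀ g : L → ℝ, (t * l)⁻¹ • (B *ᵥ ((t' * l) • (Bᵀ *ᵥ f) + (√(t - t') • B)ᵀ *ᵥ g)) =
      (t' / t) • f + scl t' t l • g := by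
    intro g
    rw [← hJ, mulVec_smul, mulVec_mulVec, hB, one_mulVec, smul_smul,
      inv_mul_cancel₀ (by positivity), one_smul]
  have hi := ch_int hμ ((t' * l) • (Bᵀ *ᵥ f)) (√(t - t') • B) (EGr.cell hY B ((t * l)⁻¹))
  simp only [hφ] at hr
  have hi2 : Integrable (fun g => Y ((t' / t) • f + scl t' t l • g) *
      W ((t' / t) • f + scl t' t l • g)) (gau L) := by
    refine hi.congr (Filter.Eventually.of_forall fun g => ?_)
    simp only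
    rw [hF, ← hJ]
  refine (hr hi2).congr (Filter.Eventually.of_forall fun g => ?_)
  simp only [smul_eq_mul, hqf]
  unfold Zc
  ring

variable {μ' : (X → ℤ) → ℝ} {B : Matrix L X ℝ} {τ t' t l σ : ℝ}

/-- the error of (L1), squared -/
def E2 (τ l σ η b D δ : ℝ) : ℝ :=
  24 * ((σ ^ 2)⁻¹) ^ 2 * (9 / (τ * l ^ 2)) * √δ +
    6 * (σ ^ 2)⁻¹ * (4 * η ^ 4 + 48 * b ^ 2 * η ^ 2 + 48 * D + 240 * δ)

lemma EGr.dotc (c : L → ℝ) : EGr fun F : L → ℝ => c ⬝ᵥ F := H663.EGr.dot c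

/-- `|ah c|² ≤ |c|²` -/
lemma ah_le {Q : Matrix L L ℝ} (hQ : Qᵀ = Q) (h0 : ∀ v : L → ℝ, 0 ≤ qf Q v) (σ : ℝ)
    (c : L → ℝ) : ∑ x, ((1 + σ ^ 2 • Q)⁻¹ *ᵥ c) x ^ 2 ≤ ∑ x, c x ^ 2 := by
  have hdet : IsUnit (1 + σ ^ 2 • Q).det := by
    have := H663.pd_of_psd h0 (sq_nonneg σ)
    by_contra hne
    rw [isUnit_iff_ne_zero, not_not] at hne
    obtain ⟨v, hv, hv2⟩ := Matrix.exists_mulVec_eq_zero_iff.2 hne
    have h2 := this v hv
    rw [qf_eq, hv2, dotProduct_zero] at h2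
    exact lt_irrefl _ h2
  set w := (1 + σ ^ 2 • Q)⁻¹ *ᵥ c with hw
  have hc : c = w + σ ^ 2 • (Q *ᵥ w) := by
    have h1 : (1 + σ ^ 2 • Q) *ᵥ w = c := by
      rw [hw, mulVec_mulVec, Matrix.mul_nonsing_inv _ hdet, one_mulVec]
    rw [← h1, add_mulVec, one_mulVec, smul_mulVec]
  have h1 : ∑ x, c x ^ 2 = ∑ x, w x ^ 2 + 2 * σ ^ 2 * qf Q w + σ ^ 4 * ∑ x, (Q *ᵥ w) x ^ 2 := by
    rw [qf_eq]
    conv_lhs => rw [hc]
    simp only [dotProduct, Pi.add_apply, Pi.smul_apply, smul_eq_mul, Finset.mul_sum,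
      ← Finset.sum_add_distrib]
    exact Finset.sum_congr rfl fun x _ => by ring
  rw [h1]
  have h2 := h0 w
  have h3 : 0 ≤ ∑ x, (Q *ᵥ w) x ^ 2 := Finset.sum_nonneg fun _ _ => sq_nonneg _
  have h4 : 0 ≤ 2 * σ ^ 2 * qf Q w := by positivity
  have h5 : 0 ≤ σ ^ 4 * ∑ x, (Q *ᵥ w) x ^ 2 := by positivity
  linarith

lemma Lw.al_sq (h : Lw μ' B τ t' t l σ) {s : ℝ} (hs : τ < s) :
    (τ + (s - τ)) / τ * al τ s l ^ 2 ≤ 1 / (τ * l ^ 2) := by
  have h1 := h.τ0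
  have h3 := h.lv.l0
  have hs0 : 0 < s := h1.trans hs
  unfold al
  rw [div_pow, Real.sq_sqrt (by linarith)]
  have e : (τ + (s - τ)) / τ * ((s - τ) / (s * l) ^ 2) = ((s - τ) / s) * (1 / (τ * l ^ 2)) := by
    field_simp
    ring
  rw [e]
  have h4 : (s - τ) / s ≤ 1 := by
    rw [div_le_one hs0]
    linarith
  exact mul_le_of_le_one_left (by positivity) h4

/-- fourth moments in field units -/
lemma Lw.mom (h : Lw μ' B τ t' t l σ)
    (hsub : ∀ u : L → ℝ, Zs μ' (Bᵀ *ᵥ u) ≤ Zs μ' 0 * Real.exp ((∑ i, u i ^ 2) / (2 * τ)))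
    {s : ℝ} (hs : τ < s) (c : L → ℝ) :
    ∫ g, (c ⬝ᵥ (al τ s l • g)) ^ 4 ∂(nuP μ' (√(s - τ) • B)) ≤
      (9 / (τ * l ^ 2) * ∑ x, c x ^ 2) ^ 2 := by
  have h1 := h.τ0
  have h3 := h.lv.l0
  have h4 := nu_mom4 h.em h.hB (p := s - τ) (τ := τ) (by linarith) h1 hsub (al τ s l • c)
  have e : ∀ g : L → ℝ, c ⬝ᵥ (al τ s l • g) = ∑ i, (al τ s l • c) i * g i := by
    intro g
    unfold dotProduct
    exact Finset.sum_congr rfl fun i _ => by
      rw [Pi.smul_apply, Pi.smul_apply, smul_eq_mul, smul_eq_mul]; ring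
  simp only [e]
  refine h4.trans ?_
  have e2 : ∑ i, (al τ s l • c) i ^ 2 = al τ s l ^ 2 * ∑ x, c x ^ 2 := by
    rw [Finset.mul_sum]
    exact Finset.sum_congr rfl fun i _ => by rw [Pi.smul_apply, smul_eq_mul]; ring
  rw [e2]
  have h5 := h.al_sq hs
  have hc : 0 ≤ ∑ x, c x ^ 2 := Finset.sum_nonneg fun _ _ => sq_nonneg _
  have h6 := mul_le_mul_of_nonneg_right h5 hc
  refine pow_le_pow_left₀ ?_ ?_ 2
  · have : 0 < τ + (s - τ) := by linarith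
    positivity
  · calc 9 * ((τ + (s - τ)) / τ * (al τ s l ^ 2 * ∑ x, c x ^ 2)) =
        9 * ((τ + (s - τ)) / τ * al τ s l ^ 2 * ∑ x, c x ^ 2) := by ring
      _ ≤ 9 * (1 / (τ * l ^ 2) * ∑ x, c x ^ 2) := by linarith
      _ = _ := by ring

/-- Cauchy-Schwarz against a function with values in `[0, 1]` -/
lemma cs_q {Ω : Type*} [MeasurableSpace Ω] {ρ : Measure Ω} {x q : Ω → ℝ}
    (hx : MemLp (fun ω => x ω ^ 2) 2 ρ) (hq : MemLp q 2 ρ) (hqi : Integrable q ρ)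
    (h0 : ∀ ω, 0 ≤ q ω) (h1 : ∀ ω, q ω ≤ 1) {κ : ℝ} (hκ : 0 ≤ κ)
    (hx4 : ∫ ω, x ω ^ 4 ∂ρ ≤ κ ^ 2) :
    ∫ ω, x ω ^ 2 * q ω ∂ρ ≤ κ * √(∫ ω, q ω ∂ρ) := by
  have h2 := (le_abs_self _).trans (abs_int_mul_le hx hq)
  refine h2.trans (mul_le_mul ?_ ?_ (nr_nonneg _) hκ)
  · have h3 : nr ρ (fun ω => x ω ^ 2) ^ 2 ≤ κ ^ 2 := by
      rw [nr_sq]
      have e : ∀ ω, (x ω ^ 2) ^ 2 = x ω ^ 4 := fun ω => by ring
      simp only [e]
      exact hx4
    exact (sq_le_sq₀ (nr_nonneg _) hκ).1 h3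
  · unfold nr
    refine Real.sqrt_le_sqrt ?_
    refine integral_mono hq.integrable_sq hqi fun ω => ?_
    have := h0 ω
    have := h1 ω
    nlinarith

end

end Vale.Agent.P159.H462
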