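import Vale.Agent.P159.H462.L1g

/-!
P159 (helper462), (L1) part h: the average and the final statement `l1_chan`.
-/

set_option linter.unusedSectionVars false
set_option linter.unusedVariables false

namespace Vale.Agent.P159.H462

open Finset MeasureTheory Matrix
open Vale.Agent.P159.TM.H104 (EM Ex Cv K3 Lg li nh Gr)
open Vale.Agent.P159.H37
open Vale.Agent.P159.H663 (ChI)
open Vale.Agent.P159.H114 (nuP pm FF XX lc int_nuP integrable_nuP Ech_nuP L1 th sg)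
open scoped Real

noncomputable section

variable {X : Type*} [Fintype X] {L : Type*} [Fintype L] [DecidableEq L] {I : Type*} [Fintype I]
variable {μ' : (X → ℤ) → ℝ} {B : Matrix L X ℝ} {τ t' t l σ : ℝ}

lemma nu_memLp (hμ : EM μ') (hB : B * Bᵀ = 1) {p : ℝ} (hp : 0 < p) {Φ : (L → ℝ) → ℝ}
    (hΦ : EGr Φ) : MemLp Φ 2 (nuP μ' (√p • B)) := by
  refine (memLp_two_iff_integrable_sq hΦ.meas.aestronglyMeasurable).2 ?_
  have h := nu_int hμ hB hp (hΦ.mul hΦ)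
  refine h.congr (Filter.Eventually.of_forall fun g => ?_)
  simp only
  ring

/-- the hypotheses on level `t` -/
structure Hy (μ' : (X → ℤ) → ℝ) (B : Matrix L X ℝ) (τ t' t l σ : ℝ) (Q : Matrix L L ℝ)
    (V : (L → ℝ) → ℝ) (G : Set (L → ℝ)) (η K : ℝ) : Prop where
  lw : Lw μ' B τ t' t l σ
  sub : ∀ u : L → ℝ, Zs μ' (Bᵀ *ᵥ u) ≤ Zs μ' 0 * Real.exp ((∑ i, u i ^ 2) / (2 * τ))
  win : WinD Q V G σ η
  K0 : 0 < K
  eq : ∀ F, Zc (post μ' (√(t - τ) • B)) B t l F = K * wQV Q V F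

variable {Q : Matrix L L ℝ} {V : (L → ℝ) → ℝ} {G : Set (L → ℝ)} {η K : ℝ}

lemma Hy.Eg_wQV (h : Hy μ' B τ t' t l σ Q V G η K) (Y : (L → ℝ) → ℝ) (g : L → ℝ) :
    EfZ (wQV Q V) σ (al τ t' l • g) Y = Eg μ' B τ t' t l σ Y g := by
  unfold Eg
  have e : Zc (post μ' (√(t - τ) • B)) B t l = fun F => K * wQV Q V F := funext h.eq
  rw [e, EfZ_cmul h.K0.ne']

/-- mass of the bad set -/
def dl (μ' : (X → ℤ) → ℝ) (B : Matrix L X ℝ) (τ t l : ℝ) (G : Set (L → ℝ)) : ℝ :=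
  ∫ g, Gᶜ.indicator (fun _ => (1 : ℝ)) (al τ t l • g) ∂(nuP μ' (√(t - τ) • B))

/-- `L²` deviation of `V` from the main functional on the good set -/
def Dv (μ' : (X → ℤ) → ℝ) (B : Matrix L X ℝ) (τ t l : ℝ) (V : (L → ℝ) → ℝ) (S : Matrix L L ℝ)
    (z : ℝ) (G : Set (L → ℝ)) : ℝ :=
  ∫ g, G.indicator (fun F => (V F - Vmn S z F) ^ 2) (al τ t l • g) ∂(nuP μ' (√(t - τ) • B))

lemma ahT (hQ : Qᵀ = Q) (σ : ℝ) : ((1 + σ ^ 2 • Q)⁻¹)ᵀ = (1 + σ ^ 2 • Q)⁻¹ := by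
  rw [transpose_nonsing_inv, transpose_add, transpose_one, transpose_smul, hQ]

lemma ah_dot (hQ : Qᵀ = Q) (σ : ℝ) (c f : L → ℝ) :
    c ⬝ᵥ ((1 + σ ^ 2 • Q)⁻¹ *ᵥ f) = ((1 + σ ^ 2 • Q)⁻¹ *ᵥ c) ⬝ᵥ f := by
  rw [dotProduct_mulVec, ← mulVec_transpose, ahT hQ]

/-- the left side of (L1) is the window expression -/
lemma Hy.lhs (h : Hy μ' B τ t' t l σ Q V G η K) (S : Matrix L L ℝ) (z v : ℝ) (c g : L → ℝ) :
    lc c (XX μ' B (t' - τ) (al τ t' l) (ms τ t' l)) g -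
      lc (((σ ^ 2)⁻¹ • (1 - (1 + σ ^ 2 • Q)⁻¹)) *ᵥ c) (FF (al τ t' l)) g -
      4 * π * (z * Real.exp (-(2 * π ^ 2 * v))) * sg (S * (1 + σ ^ 2 • Q)⁻¹)
        ((S * (1 + σ ^ 2 • Q)⁻¹) *ᵥ c) (FF (al τ t' l)) g =
    -((σ ^ 2)⁻¹ * EfZ (wQV Q V) σ (al τ t' l • g)
        (fun F => c ⬝ᵥ (F - (1 + σ ^ 2 • Q)⁻¹ *ᵥ (al τ t' l • g))) +
      4 * π * z * Real.exp (-(2 * π ^ 2 * v)) *
        ∑ w, ((S * (1 + σ ^ 2 • Q)⁻¹) *ᵥ c) w *
          Real.sin (2 * π * ((S * (1 + σ ^ 2 • Q)⁻¹) *ᵥ (al τ t' l • g)) w)) := by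
  rw [h.lw.score, h.Eg_wQV]
  set f := al τ t' l • g with hf
  set ah := (1 + σ ^ 2 • Q)⁻¹ with hah
  have e1 : Eg μ' B τ t' t l σ (fun F => c ⬝ᵥ (F - ah *ᵥ f)) g =
      Eg μ' B τ t' t l σ (fun F => c ⬝ᵥ F) g - (ah *ᵥ c) ⬝ᵥ f := by
    have e2 : (fun F : L → ℝ => c ⬝ᵥ (F - ah *ᵥ f)) = fun F => c ⬝ᵥ F + -((ah *ᵥ c) ⬝ᵥ f) := by
      funext F
      rw [dotProduct_sub, hah, ah_dot h.win.sy]
      ring
    rw [e2, h.lw.Eg_add (EGr.dotc c) (EGr.const _), h.lw.Eg_const]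
    ring
  have hlc : ∀ d : L → ℝ, lc d (FF (al τ t' l)) g = d ⬝ᵥ f := by
    intro d
    unfold H114.lc H114.FF dotProduct
    exact Finset.sum_congr rfl fun i _ => by rw [hf, Pi.smul_apply, smul_eq_mul]
  have e3 : (((σ ^ 2)⁻¹ • (1 - ah)) *ᵥ c) ⬝ᵥ f = (σ ^ 2)⁻¹ * (c ⬝ᵥ f - (ah *ᵥ c) ⬝ᵥ f) := by
    rw [smul_mulVec, smul_dotProduct, sub_mulVec, one_mulVec, sub_dotProduct, smul_eq_mul]
  have e4 : sg (S * ah) ((S * ah) *ᵥ c) (FF (al τ t' l)) g =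
      ∑ w, ((S * ah) *ᵥ c) w * Real.sin (2 * π * ((S * ah) *ᵥ f) w) := by
    unfold H114.sg
    refine Finset.sum_congr rfl fun w _ => ?_
    congr 2
    rw [hlc]
    unfold H114.th mulVec dotProduct
    rw [Finset.mul_sum]
    exact Finset.sum_congr rfl fun i _ => by ring
  rw [e1, hlc, e3, e4]
  ring

/-- pointwise bound -/
lemma Hy.pt (h : Hy μ' B τ t' t l σ Q V G η K)
    {A : Matrix L I ℝ} (hA : A * Aᵀ = σ ^ 2 • (1 + σ ^ 2 • Q)⁻¹)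
    (S : Matrix L L ℝ) {z v : ℝ} (hv : ∀ w, ∑ i, ((S * A) w i) ^ 2 = v)
    (hz : 2 * |z| * Fintype.card L ≤ 1) (c g : L → ℝ) :
    (lc c (XX μ' B (t' - τ) (al τ t' l) (ms τ t' l)) g -
      lc (((σ ^ 2)⁻¹ • (1 - (1 + σ ^ 2 • Q)⁻¹)) *ᵥ c) (FF (al τ t' l)) g -
      4 * π * (z * Real.exp (-(2 * π ^ 2 * v))) * sg (S * (1 + σ ^ 2 • Q)⁻¹)
        ((S * (1 + σ ^ 2 • Q)⁻¹) *ᵥ c) (FF (al τ t' l)) g) ^ 2 ≤
      12 * ((σ ^ 2)⁻¹) ^ 2 * Eg μ' B τ t' t l σ (Gᶜ.indicator fun F => (c ⬝ᵥ F) ^ 2) g +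
      12 * ((σ ^ 2)⁻¹) ^ 2 * ((((1 + σ ^ 2 • Q)⁻¹ *ᵥ c) ⬝ᵥ (al τ t' l • g)) ^ 2 *
        Eg μ' B τ t' t l σ (Gᶜ.indicator fun _ => 1) g) +
      6 * (σ ^ 2)⁻¹ * (∑ x, c x ^ 2) * (4 * η ^ 4 +
        48 * (2 * |z| * Fintype.card L) ^ 2 * η ^ 2 +
        48 * Eg μ' B τ t' t l σ (G.indicator fun F => (V F - Vmn S z F) ^ 2) g +
        240 * Eg μ' B τ t' t l σ (Gᶜ.indicator fun _ => 1) g) := by
  rw [h.lhs S z v c g, neg_sq]
  have hσ0 := h.lw.lv.σ0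
  set f := al τ t' l • g with hf
  have hGc := h.win.mG.compl
  have hint : ∀ {Y : (L → ℝ) → ℝ}, EGr Y →
      Integrable (fun x => Y (f + σ • x) * wQV Q V (f + σ • x)) (gau L) := by
    intro Y hY
    have h1 := Zc_int (em_post h.lw.em (√(t' - τ) • B)) h.lw.hB h.lw.lv f hY
    rw [h.lw.post_eq] at h1
    simp only [h.eq] at h1
    refine (h1.const_mul K⁻¹).congr (Filter.Eventually.of_forall fun x => ?_)
    simp only
    have := h.K0.ne'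
    field_simp
  have hdot : EGr fun F : L → ℝ => (c ⬝ᵥ (F - (1 + σ ^ 2 • Q)⁻¹ *ᵥ f)) ^ 2 := by
    have h1 : EGr fun F : L → ℝ => c ⬝ᵥ F + -(c ⬝ᵥ ((1 + σ ^ 2 • Q)⁻¹ *ᵥ f)) :=
      (EGr.dotc c).add (EGr.const _)
    have h2 := EGr.pow h1 2
    have e : (fun F : L → ℝ => (c ⬝ᵥ (F - (1 + σ ^ 2 • Q)⁻¹ *ᵥ f)) ^ 2) =
        fun F => (c ⬝ᵥ F + -(c ⬝ᵥ ((1 + σ ^ 2 • Q)⁻¹ *ᵥ f))) ^ 2 := by
      funext F
      rw [dotProduct_sub]
      ring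
    rw [e]
    exact h2
  have key := l1_window' h.win hσ0.ne' hA S hv hz f c
    (by simpa only [one_mul] using hint (EGr.const (V := L) 1)) (hint hdot)
  rw [h.Eg_wQV, h.Eg_wQV, h.Eg_wQV, h.Eg_wQV] at key
  rw [h.Eg_wQV]
  refine key.trans ?_
  have hY0 : EGr (Gᶜ.indicator fun _ : L → ℝ => (1 : ℝ)) := EGr.ind (EGr.const 1) hGc
  have hY1 : EGr (Gᶜ.indicator fun F : L → ℝ => (c ⬝ᵥ F) ^ 2) :=
    EGr.ind (EGr.pow (EGr.dotc c) 2) hGc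
  have h1 : Eg μ' B τ t' t l σ (Gᶜ.indicator fun F => (c ⬝ᵥ (F - (1 + σ ^ 2 • Q)⁻¹ *ᵥ f)) ^ 2) g ≤
      2 * Eg μ' B τ t' t l σ (Gᶜ.indicator fun F => (c ⬝ᵥ F) ^ 2) g +
        2 * (((1 + σ ^ 2 • Q)⁻¹ *ᵥ c) ⬝ᵥ f) ^ 2 *
          Eg μ' B τ t' t l σ (Gᶜ.indicator fun _ => 1) g := by
    rw [← h.lw.Eg_cmul hY1, ← h.lw.Eg_cmul hY0, ← h.lw.Eg_add (hY1.cmul _) (hY0.cmul _)]
    refine h.lw.Eg_mono (EGr.ind hdot hGc) ((hY1.cmul _).add (hY0.cmul _)) (fun F => ?_) g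
    by_cases hF : F ∈ Gᶜ
    · rw [Set.indicator_of_mem hF, Set.indicator_of_mem hF, Set.indicator_of_mem hF,
        dotProduct_sub, ah_dot h.win.sy]
      nlinarith [sq_nonneg (c ⬝ᵥ F + ((1 + σ ^ 2 • Q)⁻¹ *ᵥ c) ⬝ᵥ f)]
    · rw [Set.indicator_of_notMem hF, Set.indicator_of_notMem hF, Set.indicator_of_notMem hF]
      simp
  have h2 : 0 ≤ 6 * ((σ ^ 2)⁻¹) ^ 2 := by positivity
  have h3 := mul_le_mul_of_nonneg_left h1 h2
  refine add_le_add (h3.trans (le_of_eq ?_)) le_rfl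
  ring

/-- **(L1) for the channel law** -/
theorem l1_chan (h : Hy μ' B τ t' t l σ Q V G η K)
    {A : Matrix L I ℝ} (hA : A * Aᵀ = σ ^ 2 • (1 + σ ^ 2 • Q)⁻¹)
    (S : Matrix L L ℝ) {z v : ℝ} (hv : ∀ w, ∑ i, ((S * A) w i) ^ 2 = v)
    (hz : 2 * |z| * Fintype.card L ≤ 1) :
    L1 (nuP μ' (√(t' - τ) • B)) (FF (al τ t' l)) (XX μ' B (t' - τ) (al τ t' l) (ms τ t' l))
      ((σ ^ 2)⁻¹ • (1 - (1 + σ ^ 2 • Q)⁻¹)) (S * (1 + σ ^ 2 • Q)⁻¹)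
      (z * Real.exp (-(2 * π ^ 2 * v)))
      (√(E2 τ l σ η (2 * |z| * Fintype.card L) (Dv μ' B τ t l V S z G) (dl μ' B τ t l G))) := by
  intro c
  have hfact : Fact (EM μ') := ⟨h.lw.em⟩
  have hσ0 := h.lw.lv.σ0
  have hτ0 := h.lw.τ0
  have hl0 := h.lw.lv.l0
  have hτt := h.lw.τt
  have htt := h.lw.lv.lt
  have hGc := h.win.mG.compl
  have hp' : 0 < t' - τ := by linarith
  have hp : 0 < t - τ := by linarith
  set b := 2 * |z| * (Fintype.card L : ℝ) with hb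
  have hb0 : 0 ≤ b := by positivity
  have hY0 : EGr (Gᶜ.indicator fun _ : L → ℝ => (1 : ℝ)) := EGr.ind (EGr.const 1) hGc
  have hY1 : EGr (Gᶜ.indicator fun F : L → ℝ => (c ⬝ᵥ F) ^ 2) :=
    EGr.ind (EGr.pow (EGr.dotc c) 2) hGc
  have hY2 : EGr (G.indicator fun F : L → ℝ => (V F - Vmn S z F) ^ 2) := by
    refine EGr.of_bdd (C := 4)
      (((h.win.mV.sub (measurable_Vmn S z)).pow_const 2).indicator h.win.mG) fun F => ?_
    by_cases hF : F ∈ G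
    · rw [Set.indicator_of_mem hF, abs_of_nonneg (sq_nonneg _)]
      have h1 := h.win.good F hF
      have h2 := abs_Vmn_le S z F
      have h3 : |V F - Vmn S z F| ≤ 2 := (abs_sub _ _).trans (by linarith [h.win.η1])
      have h4 := pow_le_pow_left₀ (abs_nonneg _) h3 2
      rw [sq_abs] at h4
      linarith
    · rw [Set.indicator_of_notMem hF]
      norm_num
  have T0 := h.lw.tower hY0
  have T1 := h.lw.tower hY1
  have T2 := h.lw.tower hY2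
  set ν' := nuP μ' (√(t' - τ) • B) with hν'
  set ν := nuP μ' (√(t - τ) • B) with hν
  set c2 := ∑ x, c x ^ 2 with hc2
  have hc20 : 0 ≤ c2 := Finset.sum_nonneg fun _ _ => sq_nonneg _
  set κ := 9 / (τ * l ^ 2) with hκ
  have hκ0 : 0 ≤ κ := by positivity
  set s := (σ ^ 2)⁻¹ with hs
  have hs0 : 0 ≤ s := by positivity
  set ac := (1 + σ ^ 2 • Q)⁻¹ *ᵥ c with hac
  have hE0 : ∀ g, 0 ≤ Eg μ' B τ t' t l σ (Gᶜ.indicator fun _ => 1) g := by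
    intro g
    have h1 := h.lw.Eg_mono (EGr.const 0) hY0
      (fun F => Set.indicator_nonneg (fun _ _ => zero_le_one) F) g
    rwa [h.lw.Eg_const] at h1
  have hE1 : ∀ g, Eg μ' B τ t' t l σ (Gᶜ.indicator fun _ => 1) g ≤ 1 := by
    intro g
    have h1 := h.lw.Eg_mono hY0 (EGr.const 1) (fun F => by
      by_cases hF : F ∈ Gᶜ
      · rw [Set.indicator_of_mem hF]
      · rw [Set.indicator_of_notMem hF]; exact zero_le_one) g
    rwa [h.lw.Eg_const] at h1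
  have hqm : MemLp (Eg μ' B τ t' t l σ (Gᶜ.indicator fun _ => 1)) 2 ν' :=
    MemLp.of_bound T0.1.aestronglyMeasurable 1 (Filter.Eventually.of_forall fun g => by
      rw [Real.norm_eq_abs, abs_of_nonneg (hE0 g)]
      exact hE1 g)
  have hxm : MemLp (fun g : L → ℝ => (ac ⬝ᵥ (al τ t' l • g)) ^ 2) 2 ν' :=
    nu_memLp h.lw.em h.lw.hB hp' (EGr.pow (EGr.smul_comp (EGr.dotc ac) _) 2)
  have hδ : ∫ g, Eg μ' B τ t' t l σ (Gᶜ.indicator fun _ => 1) g ∂ν' = dl μ' B τ t l G := T0.2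
  have hD : ∫ g, Eg μ' B τ t' t l σ (G.indicator fun F => (V F - Vmn S z F) ^ 2) g ∂ν' =
      Dv μ' B τ t l V S z G := T2.2
  -- the two bad terms
  have hbad1 : ∫ g, Eg μ' B τ t' t l σ (Gᶜ.indicator fun F => (c ⬝ᵥ F) ^ 2) g ∂ν' ≤
      κ * c2 * √(dl μ' B τ t l G) := by
    rw [T1.2]
    have e : ∀ g : L → ℝ, (Gᶜ.indicator fun F : L → ℝ => (c ⬝ᵥ F) ^ 2) (al τ t l • g) =
        (c ⬝ᵥ (al τ t l • g)) ^ 2 * Gᶜ.indicator (fun _ => (1 : ℝ)) (al τ t l • g) := by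
      intro g
      by_cases hF : al τ t l • g ∈ Gᶜ
      · rw [Set.indicator_of_mem hF, Set.indicator_of_mem hF, mul_one]
      · rw [Set.indicator_of_notMem hF, Set.indicator_of_notMem hF, mul_zero]
    simp only [e]
    have hq2 : EGr fun g : L → ℝ => Gᶜ.indicator (fun _ => (1 : ℝ)) (al τ t l • g) :=
      EGr.smul_comp hY0 _
    refine cs_q (x := fun g : L → ℝ => c ⬝ᵥ (al τ t l • g))
      (q := fun g : L → ℝ => Gᶜ.indicator (fun _ => (1 : ℝ)) (al τ t l • g))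
      (nu_memLp h.lw.em h.lw.hB hp (EGr.pow (EGr.smul_comp (EGr.dotc c) _) 2))
      (nu_memLp h.lw.em h.lw.hB hp hq2) (nu_int h.lw.em h.lw.hB hp hq2)
      (fun g => Set.indicator_nonneg (fun _ _ => zero_le_one) _) (fun g => ?_)
      (mul_nonneg hκ0 hc20) ?_
    · by_cases hF : al τ t l • g ∈ Gᶜ
      · rw [Set.indicator_of_mem hF]
      · rw [Set.indicator_of_notMem hF]; exact zero_le_one
    · exact h.lw.mom h.sub (by linarith) c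
  have hbad2 : ∫ g, (ac ⬝ᵥ (al τ t' l • g)) ^ 2 *
      Eg μ' B τ t' t l σ (Gᶜ.indicator fun _ => 1) g ∂ν' ≤ κ * c2 * √(dl μ' B τ t l G) := by
    rw [← hδ]
    refine cs_q (x := fun g : L → ℝ => ac ⬝ᵥ (al τ t' l • g)) hxm hqm T0.1 hE0 hE1
      (mul_nonneg hκ0 hc20) ?_
    refine (h.lw.mom h.sub hτt ac).trans ?_
    have h1 := ah_le h.win.sy h.win.psd σ c
    refine pow_le_pow_left₀ ?_ (mul_le_mul_of_nonneg_left h1 hκ0) 2
    exact mul_nonneg hκ0 (Finset.sum_nonneg fun _ _ => sq_nonneg _)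
  -- integrate the pointwise bound
  have i1 := T1.1.const_mul (12 * s ^ 2)
  have i2 : Integrable (fun g => 12 * s ^ 2 * ((ac ⬝ᵥ (al τ t' l • g)) ^ 2 *
      Eg μ' B τ t' t l σ (Gᶜ.indicator fun _ => 1) g)) ν' :=
    (hxm.integrable_mul hqm).const_mul _
  have i3 : Integrable (fun g => 6 * s * c2 * (4 * η ^ 4 + 48 * b ^ 2 * η ^ 2 +
      48 * Eg μ' B τ t' t l σ (G.indicator fun F => (V F - Vmn S z F) ^ 2) g +
      240 * Eg μ' B τ t' t l σ (Gᶜ.indicator fun _ => 1) g)) ν' :=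
    (((integrable_const _).add (T2.1.const_mul 48)).add (T0.1.const_mul 240)).const_mul _
  have i12 : Integrable (fun g => 12 * s ^ 2 * Eg μ' B τ t' t l σ
      (Gᶜ.indicator fun F => (c ⬝ᵥ F) ^ 2) g + 12 * s ^ 2 * ((ac ⬝ᵥ (al τ t' l • g)) ^ 2 *
      Eg μ' B τ t' t l σ (Gᶜ.indicator fun _ => 1) g)) ν' := i1.add i2
  have i34 : Integrable (fun g => 4 * η ^ 4 + 48 * b ^ 2 * η ^ 2 +
      48 * Eg μ' B τ t' t l σ (G.indicator fun F => (V F - Vmn S z F) ^ 2) g) ν' :=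
    (integrable_const _).add (T2.1.const_mul 48)
  have hfin := integral_mono_of_nonneg (Filter.Eventually.of_forall fun g => sq_nonneg _)
    (i12.add i3) (Filter.Eventually.of_forall fun g => h.pt hA S hv hz c g)
  refine hfin.trans ?_
  simp only [Pi.add_apply]
  rw [integral_add i12 i3, integral_add i1 i2, integral_const_mul, integral_const_mul,
    integral_const_mul, integral_add i34 (T0.1.const_mul 240),
    integral_add (integrable_const _) (T2.1.const_mul 48), integral_const_mul, integral_const_mul,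
    hδ, hD]
  have hE2 : 0 ≤ E2 τ l σ η b (Dv μ' B τ t l V S z G) (dl μ' B τ t l G) := by
    have hD0 : 0 ≤ Dv μ' B τ t l V S z G :=
      integral_nonneg fun g => Set.indicator_nonneg (fun _ _ => sq_nonneg _) _
    have hδ0 : 0 ≤ dl μ' B τ t l G :=
      integral_nonneg fun g => Set.indicator_nonneg (fun _ _ => zero_le_one) _
    unfold E2
    positivity
  rw [Real.sq_sqrt hE2]
  simp only [integral_const, probReal_univ, one_smul]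
  have h12 : 0 ≤ 12 * s ^ 2 := by positivity
  have hb1 := mul_le_mul_of_nonneg_left hbad1 h12
  have hb2 := mul_le_mul_of_nonneg_left hbad2 h12
  refine (add_le_add (add_le_add hb1 hb2) le_rfl).trans (le_of_eq ?_)
  unfold E2
  ring

end

end Vale.Agent.P159.H462
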