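import Vale.Agent.P159.H462.L1h
import Vale.Agent.P159.H363.Win

/-!
P159 (helper462), (L1) part i: the deviation `Dv` of the total functional from the main function.

* `nu_gauss` : the law of `F` under the channel law is the Gaussian `N(0, (m + Q)⁻¹)` tilted by `e^V`;
* `good_le`  : `E_nu[Y 1_G] ≤ 6 E_N(0,(m+Q)⁻¹) [Y]`;
* `Dv_le`    : if `V = R + e`, `|R| ≤ ηR` on `G`, `|e - 2 Re Φ| ≤ ε₂`, `|Φ - Ψ| ≤ ηE` on `G`,
  `Ψ = ∑ ψ_x`, `|ψ_x - z main_x|_{L²(N(0,(m+Q)⁻¹))} ≤ d` then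
  `Dv ≤ 4 ηR² + 4 ε₂² + 16 ηE² + 96 (n d)²`.
-/

set_option linter.unusedSectionVars false
set_option linter.unusedVariables false

namespace Vale.Agent.P159.H462

open Finset MeasureTheory Matrix
open Vale.Agent.P159.TM.H104 (EM Ex Cv K3 Lg li nh Gr)
open Vale.Agent.P159.H37
open Vale.Agent.P159.H114 (nuP int_nuP integrable_nuP)
open Vale.Agent.P159.H363 (mainf ee)
open scoped Real

noncomputable section

variable {X : Type*} [Fintype X] {L : Type*} [Fintype L] [DecidableEq L] {I : Type*} [Fintype I]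
variable {μ' : (X → ℤ) → ℝ} {B : Matrix L X ℝ} {τ t' t l σ : ℝ}
variable {Q : Matrix L L ℝ} {V : (L → ℝ) → ℝ} {G : Set (L → ℝ)} {η K : ℝ}

/-- the quadratic form of the tilt -/
def Hm (Q : Matrix L L ℝ) (τ t l : ℝ) : Matrix L L ℝ :=
  al τ t l ^ 2 • Q - (t * l ^ 2 * al τ t l ^ 2) • (1 : Matrix L L ℝ)

lemma Lw.al_sq' (h : Lw μ' B τ t' t l σ) : t * l ^ 2 * al τ t l ^ 2 = (t - τ) / t := by
  have h1 := h.lv.t0
  have h3 := h.lv.l0
  have h4 := h.τt
  have h5 := h.lv.lt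
  unfold al
  rw [div_pow, Real.sq_sqrt (by linarith)]
  field_simp

lemma Lw.al_pos' (h : Lw μ' B τ t' t l σ) : 0 < al τ t l := by
  have h1 := h.τt
  have h2 := h.lv.t0
  have h3 := h.lv.l0
  have h5 := h.lv.lt
  unfold al
  have : 0 < √(t - τ) := Real.sqrt_pos.2 (by linarith)
  positivity

lemma Lw.ms_pos (h : Lw μ' B τ t' t l σ) : 0 < ms τ t l := by
  have h0 := h.τ0
  have h1 := h.τt
  have h2 := h.lv.t0
  have h3 := h.lv.l0
  have h5 := h.lv.lt
  unfold ms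
  have : 0 < t - τ := by linarith
  positivity

lemma Lw.ms_al (h : Lw μ' B τ t' t l σ) : al τ t l ^ 2 * ms τ t l = τ / t := by
  have h1 := h.lv.t0
  have h3 := h.lv.l0
  have h4 := h.τt
  have h5 := h.lv.lt
  have h6 : 0 < t - τ := by linarith
  unfold ms
  have := h.al_sq'
  have e : al τ t l ^ 2 * (τ * t * l ^ 2 / (t - τ)) =
      (t * l ^ 2 * al τ t l ^ 2) * (τ / (t - τ)) := by ring
  rw [e, this]
  field_simp

lemma Lw.one_Hm (h : Lw μ' B τ t' t l σ) (Q : Matrix L L ℝ) :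
    1 + (1 : ℝ) ^ 2 • Hm Q τ t l = al τ t l ^ 2 • (ms τ t l • (1 : Matrix L L ℝ) + Q) := by
  have h1 := h.lv.t0
  unfold Hm
  rw [one_pow, one_smul, smul_add, smul_smul, h.ms_al, h.al_sq']
  have e : (τ / t) • (1 : Matrix L L ℝ) = 1 - ((t - τ) / t) • (1 : Matrix L L ℝ) := by
    rw [← one_smul ℝ (1 : Matrix L L ℝ), smul_smul, smul_smul, ← sub_smul]
    congr 1
    field_simp
    ring
  rw [e]
  abel

lemma Hy.Hm_pos (h : Hy μ' B τ t' t l σ Q V G η K) (v : L → ℝ) (hv : v ≠ 0) :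
    0 < qf (1 + (1 : ℝ) ^ 2 • Hm Q τ t l) v := by
  rw [h.lw.one_Hm, qf_eq, smul_mulVec, add_mulVec, smul_mulVec, one_mulVec, dotProduct_smul,
    dotProduct_add, dotProduct_smul, smul_eq_mul, smul_eq_mul, ← qf_eq]
  have h1 : 0 < v ⬝ᵥ v := by
    have := (dotProduct_self_star_pos_iff (v := v)).2 hv
    simpa using this
  have h2 := h.win.psd v
  have h3 := h.lw.al_pos'
  have h4 := h.lw.ms_pos
  have h5 := mul_pos h4 h1
  exact mul_pos (pow_pos h3 2) (by linarith)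

lemma Hy.Hm_symm (h : Hy μ' B τ t' t l σ Q V G η K) : (Hm Q τ t l)ᵀ = Hm Q τ t l := by
  unfold Hm
  rw [transpose_sub, transpose_smul, transpose_smul, transpose_one, h.win.sy]

lemma Hy.cov (h : Hy μ' B τ t' t l σ Q V G η K) {C : Matrix L I ℝ}
    (hC : C * Cᵀ = (ms τ t l • (1 : Matrix L L ℝ) + Q)⁻¹) :
    ((al τ t l)⁻¹ • C) * ((al τ t l)⁻¹ • C)ᵀ =
      (1 : ℝ) ^ 2 • (1 + (1 : ℝ) ^ 2 • Hm Q τ t l)⁻¹ := by
  have h3 := h.lw.al_pos'
  have h4 := h.lw.ms_pos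
  have hdet : IsUnit (ms τ t l • (1 : Matrix L L ℝ) + Q).det := by
    by_contra hne
    rw [isUnit_iff_ne_zero, not_not] at hne
    obtain ⟨v, hv, hv2⟩ := Matrix.exists_mulVec_eq_zero_iff.2 hne
    have h1 : 0 < v ⬝ᵥ v := by
      have := (dotProduct_self_star_pos_iff (v := v)).2 hv
      simpa using this
    have h2 : v ⬝ᵥ ((ms τ t l • (1 : Matrix L L ℝ) + Q) *ᵥ v) = 0 := by
      rw [hv2, dotProduct_zero]
    rw [add_mulVec, smul_mulVec, one_mulVec, dotProduct_add, dotProduct_smul, smul_eq_mul,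
      ← qf_eq] at h2
    have h5 := mul_pos h4 h1
    linarith [h.win.psd v]
  have e : (al τ t l ^ 2 • (ms τ t l • (1 : Matrix L L ℝ) + Q))⁻¹ =
      ((al τ t l)⁻¹ ^ 2) • (ms τ t l • (1 : Matrix L L ℝ) + Q)⁻¹ := by
    refine inv_eq_right_inv ?_
    rw [Matrix.smul_mul, Matrix.mul_smul, Matrix.mul_nonsing_inv _ hdet, smul_smul,
      inv_pow, mul_inv_cancel₀ (pow_pos h3 2).ne', one_smul]
  rw [h.lw.one_Hm, e, transpose_smul, Matrix.smul_mul,
    Matrix.mul_smul, smul_smul, hC, one_pow, one_smul, sq]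

/-- the density of the channel law in field units -/
lemma Hy.dens (h : Hy μ' B τ t' t l σ Q V G η K) (g : L → ℝ) :
    Zs (post μ' (√(t - τ) • B)) ((√(t - τ) • B)ᵀ *ᵥ g) =
      K * (Real.exp (-(qf (Hm Q τ t l) g / 2)) * Real.exp (V (al τ t l • g))) := by
  have h1 := h.eq (al τ t l • g)
  unfold Zc at h1
  rw [src_al h.lw.lv.t0.ne' h.lw.lv.l0.ne'] at h1
  have e1 : ∑ x, (al τ t l • g) x ^ 2 = al τ t l ^ 2 * ∑ x, g x ^ 2 := by
    rw [Finset.mul_sum]
    exact Finset.sum_congr rfl fun i _ => by rw [Pi.smul_apply, smul_eq_mul]; ring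
  rw [e1] at h1
  have e2 : qf Q (al τ t l • g) = al τ t l ^ 2 * qf Q g := qf_smul _ _ _
  unfold wQV at h1
  rw [e2] at h1
  have e3 : qf (Hm Q τ t l) g = al τ t l ^ 2 * qf Q g -
      t * l ^ 2 * al τ t l ^ 2 * ∑ x, g x ^ 2 := by
    unfold Hm
    rw [qf_eq, sub_mulVec, smul_mulVec, smul_mulVec, one_mulVec, dotProduct_sub, dotProduct_smul,
      dotProduct_smul, ← qf_eq, smul_eq_mul, smul_eq_mul]
    have : g ⬝ᵥ g = ∑ x, g x ^ 2 := Finset.sum_congr rfl fun x _ => (sq _).symm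
    rw [this]
  rw [e3]
  set s := ∑ x, g x ^ 2
  set a2 := al τ t l ^ 2
  set Z := Zs (post μ' (√(t - τ) • B)) ((√(t - τ) • B)ᵀ *ᵥ g)
  have h2 : Z = Real.exp (t * l ^ 2 * (a2 * s) / 2) *
      (Real.exp (-(t * l ^ 2 * (a2 * s) / 2)) * Z) := by
    rw [← mul_assoc, ← Real.exp_add]
    simp
  rw [h2, h1]
  have e4 : Real.exp (-((a2 * qf Q g - t * l ^ 2 * a2 * s) / 2)) =
      Real.exp (t * l ^ 2 * (a2 * s) / 2) * Real.exp (-(a2 * qf Q g / 2)) := by
    rw [← Real.exp_add]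
    congr 1
    ring
  rw [e4]
  ring

/-- **the channel law is the Gaussian law tilted by `e^V`** -/
theorem Hy.nu_gauss (h : Hy μ' B τ t' t l σ Q V G η K) {C : Matrix L I ℝ}
    (hC : C * Cᵀ = (ms τ t l • (1 : Matrix L L ℝ) + Q)⁻¹) {Y : (L → ℝ) → ℝ} (hY : Measurable Y) :
    ∫ g, Y (al τ t l • g) ∂(nuP μ' (√(t - τ) • B)) =
      tE (gau I) (fun g => V (C *ᵥ g)) (fun g => Y (C *ᵥ g)) := by
  have hα := h.lw.al_pos'
  have hV := h.win.mV
  have hcov := h.cov hC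
  have hmap : ∀ g : I → ℝ, al τ t l • (((al τ t l)⁻¹ • C) *ᵥ g) = C *ᵥ g := by
    intro g
    rw [smul_mulVec, smul_smul, mul_inv_cancel₀ hα.ne', one_smul]
  have key : ∀ {W : (L → ℝ) → ℝ}, Measurable W →
      ∫ g, Real.exp (-(qf (Hm Q τ t l) g / 2)) * W (al τ t l • g) ∂(gau L) =
        H663.tc ((1 : ℝ) ^ 2) (Hm Q τ t l) 0 * ∫ g, W (C *ᵥ g) ∂(gau I) := by
    intro W hW
    have h1 := H663.tilt_pd h.Hm_symm h.Hm_pos hcov 0 (G := fun F => W (al τ t l • F))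
      (hW.comp (measurable_id.const_smul (al τ t l)) :
        Measurable fun F : L → ℝ => W (al τ t l • F)).stronglyMeasurable
    simp only [zero_add, one_smul, mulVec_zero, smul_eq_mul, hmap] at h1
    exact h1
  have hnum := key (W := fun F => Y F * Real.exp (V F)) (hY.mul (Real.measurable_exp.comp hV))
  have hden := key (W := fun F => Real.exp (V F)) (Real.measurable_exp.comp hV)
  have hZ : Zs μ' 0 = K * (H663.tc ((1 : ℝ) ^ 2) (Hm Q τ t l) 0 *
      ∫ g, Real.exp (V (C *ᵥ g)) ∂(gau I)) := by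
    rw [← hden, ← integral_const_mul, ← ch_norm h.lw.em 0 (√(t - τ) • B)]
    simp only [zero_add, h.dens]
  have htc : H663.tc ((1 : ℝ) ^ 2) (Hm Q τ t l) 0 ≠ 0 :=
    (H663.tc_pos h.Hm_symm h.Hm_pos 0).ne'
  rw [int_nuP h.lw.em]
  simp only [h.dens]
  have e1 : ∀ g : L → ℝ, Y (al τ t l • g) *
      (K * (Real.exp (-(qf (Hm Q τ t l) g / 2)) * Real.exp (V (al τ t l • g)))) =
      K * (Real.exp (-(qf (Hm Q τ t l) g / 2)) * (Y (al τ t l • g) *
        Real.exp (V (al τ t l • g)))) := fun g => by ring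
  simp only [e1]
  rw [integral_const_mul, hnum, hZ, mul_div_mul_left _ _ h.K0.ne', mul_div_mul_left _ _ htc]
  rfl

lemma Hy.gint (h : Hy μ' B τ t' t l σ Q V G η K) {C : Matrix L I ℝ}
    (hC : C * Cᵀ = (ms τ t l • (1 : Matrix L L ℝ) + Q)⁻¹) :
    Integrable (fun g => Real.exp (V (C *ᵥ g))) (gau I) := by
  have hα := h.lw.al_pos'
  have hcov := h.cov hC
  have hmap : ∀ g : I → ℝ, al τ t l • (((al τ t l)⁻¹ • C) *ᵥ g) = C *ᵥ g := by
    intro g
    rw [smul_mulVec, smul_smul, mul_inv_cancel₀ hα.ne', one_smul]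
  have h1 := (H663.tilt_pd_integrable h.Hm_symm h.Hm_pos hcov 0
    (G := fun F => Real.exp (V (al τ t l • F)))
    ((Real.measurable_exp.comp h.win.mV).comp (measurable_id.const_smul (al τ t l)) :
      Measurable fun F : L → ℝ => Real.exp (V (al τ t l • F))).stronglyMeasurable).1
  simp only [zero_add, one_smul, mulVec_zero, smul_eq_mul, hmap] at h1
  refine h1 ?_
  have h2 := ch_int h.lw.em 0 (√(t - τ) • B) (EGr.const (V := X) 1)
  simp only [zero_add, one_mul, h.dens] at h2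
  refine (h2.const_mul K⁻¹).congr (Filter.Eventually.of_forall fun g => ?_)
  simp only
  rw [← mul_assoc, inv_mul_cancel₀ h.K0.ne', one_mul]

/-- on the good set the channel law is dominated by the Gaussian law -/
theorem Hy.good_le (h : Hy μ' B τ t' t l σ Q V G η K) {C : Matrix L I ℝ}
    (hC : C * Cᵀ = (ms τ t l • (1 : Matrix L L ℝ) + Q)⁻¹) {Y : (L → ℝ) → ℝ} (hY : Measurable Y)
    (h0 : ∀ F, 0 ≤ Y F) (hi : Integrable (fun g => Y (C *ᵥ g)) (gau I)) :
    ∫ g, G.indicator Y (al τ t l • g) ∂(nuP μ' (√(t - τ) • B)) ≤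
      6 * ∫ g, Y (C *ᵥ g) ∂(gau I) := by
  have mC : Measurable fun g : I → ℝ => C *ᵥ g := H363.measurable_mulVec C
  have hd : L1D (gau I) (fun g => V (C *ᵥ g)) ((fun g => C *ᵥ g) ⁻¹' G) η :=
    { mV := h.win.mV.comp mC
      mS := mC h.win.mG
      ie := h.gint hC
      low := fun g => h.win.low _
      η0 := h.win.η0
      η1 := h.win.η1
      good := fun g hg => h.win.good _ hg }
  rw [h.nu_gauss hC (hY.indicator h.win.mG)]
  have e : (fun g => G.indicator Y (C *ᵥ g)) =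
      ((fun g => C *ᵥ g) ⁻¹' G).indicator fun g => Y (C *ᵥ g) := by
    funext g
    by_cases hg : C *ᵥ g ∈ G
    · rw [Set.indicator_of_mem hg, Set.indicator_of_mem (show g ∈ (fun g => C *ᵥ g) ⁻¹' G from hg)]
    · rw [Set.indicator_of_notMem hg,
        Set.indicator_of_notMem (show g ∉ (fun g => C *ᵥ g) ⁻¹' G from hg)]
  rw [e, tE_ind _ _ (mC h.win.mG)]
  have h1 : ∫ g in (fun g => C *ᵥ g) ⁻¹' G, Y (C *ᵥ g) * Real.exp (V (C *ᵥ g)) ∂(gau I) ≤
      3 * ∫ g, Y (C *ᵥ g) ∂(gau I) := by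
    have h2 : ∫ g in (fun g => C *ᵥ g) ⁻¹' G, Y (C *ᵥ g) * Real.exp (V (C *ᵥ g)) ∂(gau I) ≤
        ∫ g in (fun g => C *ᵥ g) ⁻¹' G, 3 * Y (C *ᵥ g) ∂(gau I) := by
      have i3 : IntegrableOn (fun g => 3 * Y (C *ᵥ g)) ((fun g => C *ᵥ g) ⁻¹' G) (gau I) :=
        (hi.const_mul 3).integrableOn
      have hpt : ∀ g ∈ (fun g => C *ᵥ g) ⁻¹' G,
          Y (C *ᵥ g) * Real.exp (V (C *ᵥ g)) ≤ 3 * Y (C *ᵥ g) := by
        intro g hg
        have h3 := hd.good_exp g hg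
        have h4 := h0 (C *ᵥ g)
        nlinarith
      refine setIntegral_mono_on ?_ i3 (mC h.win.mG) hpt
      refine Integrable.mono' i3 ?_ ?_
      · exact ((hY.comp mC).mul (Real.measurable_exp.comp (h.win.mV.comp mC))).aestronglyMeasurable
      · refine (ae_restrict_iff' (mC h.win.mG)).2 (Filter.Eventually.of_forall fun g hg => ?_)
        rw [Real.norm_eq_abs, abs_of_nonneg (mul_nonneg (h0 _) (Real.exp_pos _).le)]
        exact hpt g hg
    refine h2.trans ?_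
    rw [← integral_const_mul]
    exact setIntegral_le_integral (hi.const_mul 3)
      (Filter.Eventually.of_forall fun g => mul_nonneg (by norm_num) (h0 _))
  have h5 : 0 ≤ ∫ g, Y (C *ᵥ g) ∂(gau I) := integral_nonneg fun g => h0 _
  calc _ ≤ 2 * (3 * ∫ g, Y (C *ᵥ g) ∂(gau I)) := by
        refine mul_le_mul hd.inv_le h1 ?_ (by norm_num)
        refine setIntegral_nonneg (mC h.win.mG) fun g _ => ?_
        exact mul_nonneg (h0 _) (Real.exp_pos _).le
    _ = _ := by ring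

end

end Vale.Agent.P159.H462
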