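import Vale.Agent.P159.H462.L1i

/-!
P159 (helper462), (L1) part j: `Dv_le`, the deviation of the total functional from the main function
in terms of the state of the charged sector.
-/

set_option linter.unusedSectionVars false
set_option linter.unusedVariables false

namespace Vale.Agent.P159.H462

open Finset MeasureTheory Matrix
open Vale.Agent.P159.TM.H104 (EM Ex Cv K3 Lg li nh Gr)
open Vale.Agent.P159.H37
open Vale.Agent.P159.H114 (nuP int_nuP integrable_nuP)
open Vale.Agent.P159.H363 (mainf ee)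
open scoped Real

noncomputable section

variable {X : Type*} [Fintype X] {L : Type*} [Fintype L] [DecidableEq L] {I : Type*} [Fintype I]
variable {μ' : (X → ℤ) → ℝ} {B : Matrix L X ℝ} {τ t' t l σ : ℝ}
variable {Q : Matrix L L ℝ} {V : (L → ℝ) → ℝ} {G : Set (L → ℝ)} {η K : ℝ}

lemma ee_re (t : ℝ) : (ee t).re = Real.cos (2 * π * t) := by
  unfold H363.ee
  exact Complex.exp_ofReal_mul_I_re _

lemma sum_mainf {S : Matrix L L ℝ} (hS : ∀ w, ∑ x, S x w = 1) (F : L → ℝ) :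
    ∑ x, mainf S x F = ∑ w, ee ((S *ᵥ F) w) := by
  unfold H363.mainf
  rw [Finset.sum_comm]
  refine Finset.sum_congr rfl fun w _ => ?_
  rw [← Finset.sum_mul]
  have : ∑ x, (S x w : ℂ) = 1 := by
    rw [← Complex.ofReal_sum, hS w, Complex.ofReal_one]
  rw [this, one_mul]

lemma Vmn_eq {S : Matrix L L ℝ} (hS : ∀ w, ∑ x, S x w = 1) (z : ℝ) (F : L → ℝ) :
    Vmn S z F = 2 * ((z : ℂ) * ∑ x, mainf S x F).re := by
  rw [sum_mainf hS, Complex.re_ofReal_mul, Complex.re_sum]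
  unfold Vmn
  simp only [ee_re]
  ring

/-- **the deviation** -/
theorem Hy.Dv_le (h : Hy μ' B τ t' t l σ Q V G η K) {C : Matrix L I ℝ}
    (hC : C * Cᵀ = (ms τ t l • (1 : Matrix L L ℝ) + Q)⁻¹) {S : Matrix L L ℝ}
    (hS : ∀ w, ∑ x, S x w = 1) {z : ℝ} {R e : (L → ℝ) → ℝ} {Φ Ψ : (L → ℝ) → ℂ}
    {ψ : L → (L → ℝ) → ℂ} {ηR ε₂ ηE d b : ℝ}
    (hV : ∀ F, V F = R F + e F) (hR : ∀ F ∈ G, |R F| ≤ ηR)
    (he : ∀ F ∈ G, |e F - 2 * (Φ F).re| ≤ ε₂) (hE : ∀ F ∈ G, ‖Φ F - Ψ F‖ ≤ ηE)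
    (hΨ : ∀ F, Ψ F = ∑ x, ψ x F) (hψm : ∀ x, Measurable (ψ x)) (hψb : ∀ x F, ‖ψ x F‖ ≤ b)
    (hd : ∀ x, ∫ g, ‖ψ x (C *ᵥ g) - z * mainf S x (C *ᵥ g)‖ ^ 2 ∂(gau I) ≤ d ^ 2) :
    Dv μ' B τ t l V S z G ≤
      4 * ηR ^ 2 + 4 * ε₂ ^ 2 + 16 * ηE ^ 2 + 96 * (Fintype.card L * d) ^ 2 := by
  have mC : Measurable fun g : I → ℝ => C *ᵥ g := H363.measurable_mulVec C
  have hfact : Fact (EM μ') := ⟨h.lw.em⟩
  have hp : 0 < t - τ := by linarith [h.lw.τt, h.lw.lv.lt]
  set D : (L → ℝ) → ℂ := fun F => ∑ x, (ψ x F - z * mainf S x F) with hD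
  have mx : ∀ x, Measurable fun F : L → ℝ => ψ x F - z * mainf S x F := fun x =>
    (hψm x).sub ((H363.measurable_mainf S x).const_mul _)
  have mD : Measurable D := Finset.measurable_fun_sum _ fun x _ => mx x
  set Y : (L → ℝ) → ℝ := fun F => ‖D F‖ ^ 2 with hY
  have mY : Measurable Y := mD.norm.pow_const 2
  -- pointwise bound
  have hpt : ∀ F, G.indicator (fun F => (V F - Vmn S z F) ^ 2) F ≤
      (4 * ηR ^ 2 + 4 * ε₂ ^ 2 + 16 * ηE ^ 2) + 16 * G.indicator Y F := by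
    intro F
    by_cases hF : F ∈ G
    · rw [Set.indicator_of_mem hF, Set.indicator_of_mem hF]
      have h1 := hR F hF
      have h2 := he F hF
      have h3 := hE F hF
      have h4 : |(Φ F - Ψ F).re| ≤ ηE := (Complex.abs_re_le_norm _).trans h3
      have h5 : |(D F).re| ≤ ‖D F‖ := Complex.abs_re_le_norm _
      have h6 : V F - Vmn S z F = R F + (e F - 2 * (Φ F).re) + 2 * (Φ F - Ψ F).re +
          2 * (D F).re := by
        have h7 : (D F).re = (Ψ F).re - ((z : ℂ) * ∑ x, mainf S x F).re := by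
          rw [hD, hΨ F]
          simp only
          rw [Finset.sum_sub_distrib, ← Finset.mul_sum, Complex.sub_re]
        rw [hV F, Vmn_eq hS, h7, Complex.sub_re]
        ring
      have q1 : R F ^ 2 ≤ ηR ^ 2 := by
        rw [← sq_abs (R F)]
        exact pow_le_pow_left₀ (abs_nonneg _) h1 2
      have q2 : (e F - 2 * (Φ F).re) ^ 2 ≤ ε₂ ^ 2 := by
        rw [← sq_abs (e F - 2 * (Φ F).re)]
        exact pow_le_pow_left₀ (abs_nonneg _) h2 2
      have q3 : (Φ F - Ψ F).re ^ 2 ≤ ηE ^ 2 := by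
        rw [← sq_abs (Φ F - Ψ F).re]
        exact pow_le_pow_left₀ (abs_nonneg _) h4 2
      have q4 : (D F).re ^ 2 ≤ ‖D F‖ ^ 2 := by
        rw [← sq_abs (D F).re]
        exact pow_le_pow_left₀ (abs_nonneg _) h5 2
      rw [h6]
      set r1 := R F
      set r2 := e F - 2 * (Φ F).re
      set r3 := (Φ F - Ψ F).re
      set r4 := (D F).re
      have : (r1 + r2 + 2 * r3 + 2 * r4) ^ 2 ≤
          4 * (r1 ^ 2 + r2 ^ 2 + (2 * r3) ^ 2 + (2 * r4) ^ 2) := by
        nlinarith [sq_nonneg (r1 - r2), sq_nonneg (r1 - 2 * r3), sq_nonneg (r1 - 2 * r4),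
          sq_nonneg (r2 - 2 * r3), sq_nonneg (r2 - 2 * r4), sq_nonneg (2 * r3 - 2 * r4)]
      have hYF : Y F = ‖D F‖ ^ 2 := rfl
      rw [hYF]
      nlinarith
    · rw [Set.indicator_of_notMem hF, Set.indicator_of_notMem hF]
      positivity
  -- the Gaussian second moment of the local error
  have hbd : ∀ x F, ‖ψ x F - z * mainf S x F‖ ≤ b + |z| * ∑ w, |S x w| := by
    intro x F
    refine (norm_sub_le _ _).trans (add_le_add (hψb x F) ?_)
    rw [norm_mul, Complex.norm_real, Real.norm_eq_abs]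
    exact mul_le_mul_of_nonneg_left (H363.norm_mainf_le S x F) (abs_nonneg _)
  have ix : ∀ x, Integrable (fun g => ‖ψ x (C *ᵥ g) - z * mainf S x (C *ᵥ g)‖ ^ 2) (gau I) := by
    intro x
    refine Integrable.of_bound (C := (b + |z| * ∑ w, |S x w|) ^ 2)
      (((mx x).comp mC).norm.pow_const 2).aestronglyMeasurable
      (Filter.Eventually.of_forall fun g => ?_)
    rw [Real.norm_eq_abs, abs_of_nonneg (sq_nonneg _)]
    exact pow_le_pow_left₀ (norm_nonneg _) (hbd x _) 2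
  have hYle : ∀ F, Y F ≤ Fintype.card L * ∑ x, ‖ψ x F - z * mainf S x F‖ ^ 2 := by
    intro F
    have h1 : ‖D F‖ ≤ ∑ x, ‖ψ x F - z * mainf S x F‖ := norm_sum_le _ _
    have h2 := pow_le_pow_left₀ (norm_nonneg _) h1 2
    have h3 := sq_sum_le_card_mul_sum_sq (s := (univ : Finset L))
      (f := fun x => ‖ψ x F - z * mainf S x F‖)
    rw [Finset.card_univ] at h3
    exact h2.trans h3
  have iY : Integrable (fun g => Y (C *ᵥ g)) (gau I) := by
    have i1 : Integrable (fun g => (Fintype.card L : ℝ) *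
        ∑ x, ‖ψ x (C *ᵥ g) - z * mainf S x (C *ᵥ g)‖ ^ 2) (gau I) :=
      (integrable_finsetSum _ fun x _ => ix x).const_mul _
    refine i1.mono' (mY.comp mC).aestronglyMeasurable (Filter.Eventually.of_forall fun g => ?_)
    rw [Real.norm_eq_abs, abs_of_nonneg (sq_nonneg _)]
    exact hYle _
  have hYint : ∫ g, Y (C *ᵥ g) ∂(gau I) ≤ (Fintype.card L * d) ^ 2 := by
    have i1 : Integrable (fun g => (Fintype.card L : ℝ) *
        ∑ x, ‖ψ x (C *ᵥ g) - z * mainf S x (C *ᵥ g)‖ ^ 2) (gau I) :=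
      (integrable_finsetSum _ fun x _ => ix x).const_mul _
    refine (integral_mono iY i1 fun g => hYle _).trans ?_
    rw [integral_const_mul, integral_finsetSum _ fun x _ => ix x]
    have h1 : ∑ x, ∫ g, ‖ψ x (C *ᵥ g) - z * mainf S x (C *ᵥ g)‖ ^ 2 ∂(gau I) ≤
        ∑ _x : L, d ^ 2 := Finset.sum_le_sum fun x _ => hd x
    rw [Finset.sum_const, Finset.card_univ, nsmul_eq_mul] at h1
    calc _ ≤ (Fintype.card L : ℝ) * (Fintype.card L * d ^ 2) :=
          mul_le_mul_of_nonneg_left h1 (Nat.cast_nonneg _)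
      _ = _ := by ring
  have hgood := h.good_le hC mY (fun F => sq_nonneg _) iY
  -- integrate
  have hYb : EGr (G.indicator Y) := by
    refine EGr.of_bdd (C := Fintype.card L * ∑ x, (b + |z| * ∑ w, |S x w|) ^ 2)
      (mY.indicator h.win.mG) fun F => ?_
    have h1 : Y F ≤ Fintype.card L * ∑ x, (b + |z| * ∑ w, |S x w|) ^ 2 :=
      (hYle F).trans (mul_le_mul_of_nonneg_left
        (Finset.sum_le_sum fun x _ => pow_le_pow_left₀ (norm_nonneg _) (hbd x F) 2)
        (Nat.cast_nonneg _))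
    by_cases hF : F ∈ G
    · rw [Set.indicator_of_mem hF, abs_of_nonneg (sq_nonneg _)]
      exact h1
    · rw [Set.indicator_of_notMem hF, abs_zero]
      positivity
  have iG := nu_int h.lw.em h.lw.hB hp (EGr.smul_comp hYb (al τ t l))
  unfold Dv
  have hfin : ∫ g, G.indicator (fun F => (V F - Vmn S z F) ^ 2) (al τ t l • g)
      ∂(nuP μ' (√(t - τ) • B)) ≤
      ∫ g, ((4 * ηR ^ 2 + 4 * ε₂ ^ 2 + 16 * ηE ^ 2) + 16 * G.indicator Y (al τ t l • g))
        ∂(nuP μ' (√(t - τ) • B)) :=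
    integral_mono_of_nonneg (Filter.Eventually.of_forall fun g =>
      Set.indicator_nonneg (fun _ _ => sq_nonneg _) _)
      ((integrable_const _).add (iG.const_mul 16)) (Filter.Eventually.of_forall fun g => hpt _)
  refine hfin.trans ?_
  rw [integral_add (integrable_const _) (iG.const_mul 16), integral_const_mul]
  simp only [integral_const, probReal_univ, one_smul]
  have : ∫ g, G.indicator Y (al τ t l • g) ∂(nuP μ' (√(t - τ) • B)) ≤
      6 * (Fintype.card L * d) ^ 2 := hgood.trans (by linarith)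
  linarith

end

end Vale.Agent.P159.H462
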