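import Vale.Agent.P159.H462.L1j
import Vale.Agent.P159.H363.Brd
import Vale.Agent.P159.H114.Tor2
import Vale.Agent.P159.H43.Num
import Vale.Agent.P159.H513.Cor

/-!
P159 (helper462), (L1) part k: the cell torus. Prior: mass `t₀` off the cells, `τ` on the cells;
level `t`, `τ < t < t₀`; the state lives at the scalar mass `t₀`.
-/

set_option linter.unusedSectionVars false
set_option linter.unusedVariables false

namespace Vale.Agent.P159.H462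

open Finset MeasureTheory Matrix
open Vale.Agent.P159.TM.H104 (EM Ex Cv K3 Lg li nh Gr)
open Vale.Agent.P159.H37 (qf bf qf_eq Un Zn Zq ZM ZM_eq wM gau Gm Cm cellP post Zs Zs_pos qf_smul
  Ev qf_zero_vec continuous_Zs)
open Vale.Agent.P159.TM.Spec (V)
open Vale.Agent.P159.TM.SpecC (Tor wT)
open Vale.Agent.P159.TM.H764 (EE cN sN dt)
open Vale.Agent.P159.H864 (TI sym mlt CT CInv MC cl up cobV Gc fc)
open Vale.Agent.P159.H730 (wC Cbk)
open Vale.Agent.P159.H963 (Pn Gnc PinC gw_wT mf_MC)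
open Vale.Agent.P159.H896 (Ph om WM)
open Vale.Agent.P159.H43 (Phq omT omH)
open Vale.Agent.P159.H145 (LM L0)
open Vale.Agent.P159.H363 (lf lf_eq acl ti_acl sym_acl sym_acl_eq Rcl Rcl_nonneg Zn_lf qf_acl_nonneg
  sym_acl_nonneg sym_acl_le gm ti_gm sn sn_pos gm_mul0 ahat_mul0 wm_MC)
open Vale.Agent.P159.H114 (nuP FF XX L1 sA sS mm)
open scoped Real

noncomputable section

variable {N l : ℕ} [NeZero N] [NeZero (N / l)] {b t₀ t τ : ℝ}

/-- the cell functional is `ZM` at the lifted field -/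
lemma Zc_lf (hl : l ∣ N) (w : (V N → ℤ) → ℝ) (t₀ t : ℝ) (F : V (N / l) → ℝ) :
    Zc (wM w (MC N l t₀ t)) (cobV N l) t l F = ZM w (MC N l t₀ t) (lf N l F) := by
  have h1 : MC N l t₀ t *ᵥ lf N l F = (t * l) • ((cobV N l)ᵀ *ᵥ F) := by
    rw [lf_eq hl, mulVec_smul, H864.MC_mulVec_tr hl, smul_smul, mul_comm]
  have h2 : qf (MC N l t₀ t) (lf N l F) = t * l ^ 2 * ∑ x, F x ^ 2 := by
    have h3 : ((cobV N l)ᵀ *ᵥ F) ⬝ᵥ ((cobV N l)ᵀ *ᵥ F) = ∑ x, F x ^ 2 := by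
      rw [← H864.sq_cobV_tr hl F]
      exact Finset.sum_congr rfl fun x _ => (pow_two _).symm
    rw [qf_eq, h1, lf_eq hl, smul_dotProduct, dotProduct_smul, smul_eq_mul, smul_eq_mul, h3]
    ring
  unfold Zc
  rw [ZM_eq w (H864.MC_tr N l t₀ t), h1, h2]

/-- posterior at a cell mass -/
lemma post_wC (b : ℝ) (hl : l ∣ N) (h : τ ≤ t) :
    post (wC N l b t₀ τ) (√(t - τ) • cobV N l) = wM (wT b N) (MC N l t₀ t) := by
  rw [← H864.post_cob hl]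
  exact H864.post_MC _ h

/-- the remainder of the cell functional at scalar mass `t₀` -/
def Vt (N l : ℕ) [NeZero N] [NeZero (N / l)] (b t₀ : ℝ) (F : V (N / l) → ℝ) : ℝ :=
  Rcl N l b t₀ t₀ F + (LM (wT b N) (MC N l t₀ t₀) (lf N l F) - L0 (wT b N) (MC N l t₀ t₀) (lf N l F))

lemma exp_Vt (hb : 0 ≤ b) (hl : l ∣ N) (ht : 0 < t₀) (F : V (N / l) → ℝ) :
    Real.exp (Vt N l b t₀ F) = Real.exp (Rcl N l b t₀ t₀ F) *
      (ZM (wT b N) (MC N l t₀ t₀) (lf N l F) / Zn (wT b N) (MC N l t₀ t₀) (lf N l F)) := by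
  have hw := wm_MC (b := b) hb hl ht (le_refl t₀)
  unfold Vt LM L0
  rw [← Real.log_div (H37.ZM_pos hw.sym hw.em _).ne' (H896.Zn_pos hw _).ne', Real.exp_add,
    Real.exp_log (div_pos (H37.ZM_pos hw.sym hw.em _) (H896.Zn_pos hw _))]

/-- the density at level `t₀` -/
lemma eq_tor (hb : 0 ≤ b) (hl : l ∣ N) (hτ : 0 < τ) (h : τ ≤ t₀) (F : V (N / l) → ℝ) :
    Zc (post (wC N l b t₀ τ) (√(t₀ - τ) • cobV N l)) (cobV N l) t₀ l F =
      Zn (wT b N) (MC N l t₀ t₀) 0 * wQV (acl N l b t₀ t₀) (Vt N l b t₀) F := by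
  have ht : 0 < t₀ := hτ.trans_le h
  have hw := wm_MC (b := b) hb hl ht (le_refl t₀)
  have h0 := H896.Zn_pos hw (lf N l F)
  rw [post_wC b hl h, Zc_lf hl]
  unfold wQV
  rw [exp_Vt hb hl ht]
  have h1 := Zn_lf (b := b) hb hl ht (le_refl t₀) F
  calc ZM (wT b N) (MC N l t₀ t₀) (lf N l F) = Zn (wT b N) (MC N l t₀ t₀) (lf N l F) *
      (ZM (wT b N) (MC N l t₀ t₀) (lf N l F) / Zn (wT b N) (MC N l t₀ t₀) (lf N l F)) := by
        field_simp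
    _ = (Zn (wT b N) (MC N l t₀ t₀) 0 * (Real.exp (-(qf (acl N l b t₀ t₀) F / 2))
        * Real.exp (Rcl N l b t₀ t₀ F))) *
      (ZM (wT b N) (MC N l t₀ t₀) (lf N l F) / Zn (wT b N) (MC N l t₀ t₀) (lf N l F)) := by
        rw [← h1]
    _ = _ := by ring

/-- total oscillation number at scalar mass `t₀` -/
def oT (N l : ℕ) [NeZero N] [NeZero (N / l)] (b t₀ : ℝ) : ℝ := omT (wT b N) (MC N l t₀ t₀)

lemma ratio_le (hb : 0 ≤ b) (hl : l ∣ N) (ht : 0 < t₀) (F : V N → ℝ) :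
    |ZM (wT b N) (MC N l t₀ t₀) F / Zn (wT b N) (MC N l t₀ t₀) F - 1| ≤ oT N l b t₀ := by
  have hw := wm_MC (b := b) hb hl ht (le_refl t₀)
  have h0 := H896.Zn_pos hw F
  have h1 := H43.oscZ_omT hw F 0 ⟨le_rfl, zero_le_one⟩
  rw [H145.cs_zero] at h1
  have h2 : ZM (wT b N) (MC N l t₀ t₀) F / Zn (wT b N) (MC N l t₀ t₀) F - 1 =
      (ZM (wT b N) (MC N l t₀ t₀) F - Zn (wT b N) (MC N l t₀ t₀) F) /
        Zn (wT b N) (MC N l t₀ t₀) F := by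
    field_simp
  rw [h2, abs_div, abs_of_pos h0, div_le_iff₀ h0]
  exact h1

lemma oT_nonneg (hb : 0 ≤ b) (hl : l ∣ N) (ht : 0 < t₀) : 0 ≤ oT N l b t₀ :=
  H43.omT_nonneg (wm_MC hb hl ht (le_refl t₀))

lemma low_Vt (hb : 0 ≤ b) (hl : l ∣ N) (ht : 0 < t₀) (ho : oT N l b t₀ ≤ 1 / 2)
    (F : V (N / l) → ℝ) : 1 / 2 ≤ Real.exp (Vt N l b t₀ F) := by
  rw [exp_Vt hb hl ht]
  have h1 := (abs_le.1 (ratio_le hb hl ht (lf N l F))).1
  have h2 : 1 ≤ Real.exp (Rcl N l b t₀ t₀ F) := Real.one_le_exp (Rcl_nonneg hb hl ht (le_refl t₀) F)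
  nlinarith

lemma el_le (hb : 0 ≤ b) (hl : l ∣ N) (ht : 0 < t₀) (ho : oT N l b t₀ ≤ 1 / 2) (F : V N → ℝ) :
    |LM (wT b N) (MC N l t₀ t₀) F - L0 (wT b N) (MC N l t₀ t₀) F| ≤ 2 * oT N l b t₀ := by
  have hw := wm_MC (b := b) hb hl ht (le_refl t₀)
  have h0 := H896.Zn_pos hw F
  have hZ := H37.ZM_pos hw.sym hw.em F
  have h2 := ratio_le hb hl ht F
  set x := ZM (wT b N) (MC N l t₀ t₀) F / Zn (wT b N) (MC N l t₀ t₀) F - 1 with hx
  have h3 : LM (wT b N) (MC N l t₀ t₀) F - L0 (wT b N) (MC N l t₀ t₀) F = Real.log (1 + x) := by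
    unfold LM L0
    rw [← Real.log_div hZ.ne' h0.ne']
    congr 1
    rw [hx]
    ring
  have hx1 : |x| ≤ 1 / 2 := h2.trans ho
  have h5 := H145.log_one_add_ge hx1
  have hx2 := abs_le.1 hx1
  have h6 : Real.log (1 + x) ≤ x := by
    have := Real.log_le_sub_one_of_pos (x := 1 + x) (by linarith)
    linarith
  have h7 : x ^ 2 ≤ |x| * (1 / 2) := by
    rw [← sq_abs]
    nlinarith [abs_nonneg x]
  rw [h3, abs_le]
  have h8 := neg_abs_le x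
  have h9 := le_abs_self x
  constructor <;> linarith

lemma measurable_Vt (hb : 0 ≤ b) (hl : l ∣ N) (ht : 0 < t₀) : Measurable (Vt N l b t₀) := by
  have hw := wm_MC (b := b) hb hl ht (le_refl t₀)
  have h1 : Measurable fun F : V (N / l) → ℝ => LM (wT b N) (MC N l t₀ t₀) (lf N l F) :=
    Real.measurable_log.comp ((H896.continuous_ZM hw).comp H363.continuous_lf).measurable
  have h2 : Measurable fun F : V (N / l) → ℝ => L0 (wT b N) (MC N l t₀ t₀) (lf N l F) :=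
    Real.measurable_log.comp ((H363.continuous_Zn hw).comp H363.continuous_lf).measurable
  exact (H363.continuous_Rcl hb hl ht (le_refl t₀)).measurable.add (h1.sub h2)

section win

variable {A : Matrix (V (N / l)) (V (N / l)) ℝ}

lemma inv_ahat (hA : TI A) (h0 : ∀ k, 0 ≤ sym A k) {s : ℝ} (hs : 0 ≤ s) :
    (1 + s • A)⁻¹ = ahat s A := inv_eq_left_inv (ahat_mul0 hA h0 hs)

lemma gm_sq (hA : TI A) (h0 : ∀ k, 0 ≤ sym A k) {s : ℝ} (hs : 0 ≤ s) :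
    gm s A * (gm s A)ᵀ = s • (1 + s • A)⁻¹ := by
  rw [inv_ahat hA h0 hs, (ti_gm s A).transpose]
  refine H864.sym_inj ((ti_gm s A).mul (ti_gm s A)) ((ti_ahat s A).smul s) fun k => ?_
  rw [H864.sym_mul (ti_gm s A) (ti_gm s A), H864.sym_smul, sym_ahat]
  unfold gm
  rw [H864.sym_fc]
  have h1 := h0 k
  rw [Real.mul_self_sqrt (by positivity)]

end win

/-- standard deviation of the window noise, height units -/
def sgm (l : ℕ) (t₀ t : ℝ) : ℝ := √(sn l t₀ t)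

lemma sgm_sq (hl : l ∣ N) (ht : 0 < t) (h : t < t₀) : sgm l t₀ t ^ 2 = sn l t₀ t :=
  Real.sq_sqrt (sn_pos hl ht h).le

lemma lv_tor (hl : l ∣ N) (ht : 0 < t) (h : t < t₀) : Lv t t₀ l (sgm l t₀ t) where
  t'0 := ht
  lt := h
  l0 := by exact_mod_cast H864.l_pos hl
  σ0 := Real.sqrt_pos.2 (sn_pos hl ht h)
  hσ := by
    have hlp : (0 : ℝ) < l := by exact_mod_cast H864.l_pos hl
    have h0 : 0 < t₀ := ht.trans h
    rw [sgm_sq hl ht h]
    unfold H363.sn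
    field_simp

lemma lw_tor (hb : 0 < b) (hl : l ∣ N) (hτ : 0 < τ) (h1 : τ < t) (h : t < t₀) :
    Lw (wC N l b t₀ τ) (cobV N l) τ t t₀ l (sgm l t₀ t) where
  em := H864.em_MC hb.le hl hτ (h1.le.trans h.le)
  hB := H864.cobV_mul_tr hl
  τ0 := hτ
  τt := h1
  lv := lv_tor hl (hτ.trans h1) h

/-- sub-Gaussian bound of the prior -/
lemma sub_tor (hb : 0 < b) (hl : l ∣ N) (hτ : 0 < τ) (h : τ ≤ t₀) (u : V (N / l) → ℝ) :
    Zs (wC N l b t₀ τ) ((cobV N l)ᵀ *ᵥ u) ≤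
      Zs (wC N l b t₀ τ) 0 * Real.exp ((∑ i, u i ^ 2) / (2 * τ)) := by
  have hD := H864.dm_MC (N := N) (l := l) hb hl hτ h
  have h1 := hD.Lg_le ((cobV N l)ᵀ *ᵥ u)
  have h2 : qf (MC N l t₀ τ)⁻¹ ((cobV N l)ᵀ *ᵥ u) = τ⁻¹ * ∑ i, u i ^ 2 := by
    rw [H864.MC_inv hl (hτ.trans_le h).ne' hτ.ne', qf_eq, H864.MC_mulVec_tr hl,
      dotProduct_smul, smul_eq_mul, ← H864.sq_cobV_tr hl u]
    congr 1
    exact Finset.sum_congr rfl fun x _ => (pow_two _).symm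
  rw [h2] at h1
  have hZ := Zs_pos hD.em ((cobV N l)ᵀ *ᵥ u)
  have hZ0 := Zs_pos hD.em 0
  have h3 : Real.log (Zs (wC N l b t₀ τ) ((cobV N l)ᵀ *ᵥ u)) ≤
      Real.log (Zs (wC N l b t₀ τ) 0) + (∑ i, u i ^ 2) / (2 * τ) := by
    have e : τ⁻¹ * (∑ i, u i ^ 2) / 2 = (∑ i, u i ^ 2) / (2 * τ) := by
      field_simp
    rw [e] at h1
    have h4 : Lg (wM (wT b N) (MC N l t₀ τ)) ((cobV N l)ᵀ *ᵥ u) =
        Real.log (Zs (wC N l b t₀ τ) ((cobV N l)ᵀ *ᵥ u)) := rfl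
    have h5 : Lg (wM (wT b N) (MC N l t₀ τ)) 0 = Real.log (Zs (wC N l b t₀ τ) 0) := rfl
    rw [h4, h5] at h1
    linarith
  have h6 := Real.exp_le_exp.2 h3
  rwa [Real.exp_add, Real.exp_log hZ, Real.exp_log hZ0] at h6

/-- window data on the torus -/
lemma win_tor (hb : 0 < b) (hl : l ∣ N) (ht : 0 < t) (h : t < t₀) {G : Set (V (N / l) → ℝ)}
    (mG : MeasurableSet G) {ηR : ℝ} (hR : ∀ F ∈ G, Rcl N l b t₀ t₀ F ≤ ηR)
    (ho : oT N l b t₀ ≤ 1 / 2) (h0 : 0 ≤ ηR) (h1 : ηR + 2 * oT N l b t₀ ≤ 1) :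
    WinD (acl N l b t₀ t₀) (Vt N l b t₀) G (sgm l t₀ t) (ηR + 2 * oT N l b t₀) where
  sy := (ti_acl hb.le hl (ht.trans h) (le_refl t₀)).transpose
  psd := qf_acl_nonneg hb.le hl (ht.trans h) (le_refl t₀)
  row := by
    intro v
    have hA := ti_acl (N := N) hb.le hl (ht.trans h) (le_refl t₀)
    have hn := sym_acl_nonneg (N := N) hb.le hl (ht.trans h) (le_refl t₀)
    have hs : (0 : ℝ) ≤ sgm l t₀ t ^ 2 := sq_nonneg _
    rw [inv_ahat hA hn hs]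
    have e2 : ∑ x, v x ^ 2 = qf (1 : Matrix (V (N / l)) (V (N / l)) ℝ) v := by
      rw [qf_eq, one_mulVec]
      exact Finset.sum_congr rfl fun x _ => by ring
    rw [e2]
    refine (H864.qf_le_iff (ti_ahat _ _) TI.one).2 (fun k => ?_) v
    rw [sym_ahat, H864.sym_one]
    have h3 := mul_nonneg hs (hn k)
    exact inv_le_one_of_one_le₀ (by linarith)
  mV := measurable_Vt hb.le hl (ht.trans h)
  mG := mG
  low := low_Vt hb.le hl (ht.trans h) ho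
  η0 := by
    have := oT_nonneg (N := N) hb.le hl (ht.trans h)
    linarith
  η1 := h1
  good := by
    intro F hF
    have h2 := Rcl_nonneg hb.le hl (ht.trans h) (le_refl t₀) F
    have h3 := hR F hF
    have h4 := el_le hb.le hl (ht.trans h) ho (lf N l F)
    unfold Vt
    refine (abs_add_le _ _).trans (add_le_add ?_ h4)
    rwa [abs_of_nonneg h2]

lemma hy_tor (hb : 0 < b) (hl : l ∣ N) (hτ : 0 < τ) (h2 : τ < t) (h : t < t₀)
    {G : Set (V (N / l) → ℝ)} (mG : MeasurableSet G) {ηR : ℝ}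
    (hR : ∀ F ∈ G, Rcl N l b t₀ t₀ F ≤ ηR) (ho : oT N l b t₀ ≤ 1 / 2) (h0 : 0 ≤ ηR)
    (h1 : ηR + 2 * oT N l b t₀ ≤ 1) :
    Hy (wC N l b t₀ τ) (cobV N l) τ t t₀ l (sgm l t₀ t) (acl N l b t₀ t₀) (Vt N l b t₀) G
      (ηR + 2 * oT N l b t₀) (Zn (wT b N) (MC N l t₀ t₀) 0) where
  lw := lw_tor hb hl hτ h2 h
  sub := sub_tor hb hl hτ (h2.le.trans h.le)
  win := win_tor hb hl (hτ.trans h2) h mG hR ho h0 h1
  K0 := H896.Zn_pos (wm_MC hb.le hl ((hτ.trans h2).trans h) (le_refl t₀)) 0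
  eq := eq_tor hb.le hl hτ (h2.le.trans h.le)

/-! ### the matrices -/

/-- self energy of the neutral functional at scalar mass `t₀`, height units -/
def Pst (N l : ℕ) [NeZero N] [NeZero (N / l)] (b t₀ : ℝ) (k : V (N / l)) : ℝ :=
  if k = 0 then 0 else (l : ℝ) ^ 2 * PinC N l b t₀ t₀ k

lemma Pst_nonneg (hb : 0 < b) (hl : l ∣ N) (ht : 0 < t₀) (k : V (N / l)) :
    0 ≤ Pst N l b t₀ k := by
  unfold Pst
  split_ifs with hk
  · exact le_rfl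
  · exact mul_nonneg (sq_nonneg _) (H963.PinC_nonneg hb hl ht (le_refl t₀) hk)

lemma sym_acl_Pst (hb : 0 < b) (hl : l ∣ N) (ht : 0 < t₀) (k : V (N / l)) :
    sym (acl N l b t₀ t₀) k = sA (Pst N l b t₀) (t₀ * l ^ 2) k := by
  have hlp : (0 : ℝ) < l := by exact_mod_cast H864.l_pos hl
  unfold H114.sA Pst
  split_ifs with hk
  · rw [hk, H363.sym_acl_zero hl hb.le ht (le_refl t₀)]
    ring
  · rw [sym_acl_eq hb hl ht (le_refl t₀) hk]
    have h1 := H963.PinC_nonneg hb hl ht (le_refl t₀) hk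
    field_simp

lemma Pst_neg (hb : 0 < b) (hl : l ∣ N) (ht : 0 < t₀) (k : V (N / l)) :
    Pst N l b t₀ (-k) = Pst N l b t₀ k := by
  have h1 := H864.sym_neg_arg (acl N l b t₀ t₀) k
  rw [sym_acl_Pst hb hl ht, sym_acl_Pst hb hl ht] at h1
  have h2 := Pst_nonneg hb hl ht k
  have h3 := Pst_nonneg hb hl ht (-k)
  have hlp : (0 : ℝ) < l := by exact_mod_cast H864.l_pos hl
  have h4 : 0 < t₀ * (l : ℝ) ^ 2 := by positivity
  unfold H114.sA at h1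
  rw [div_eq_div_iff (by positivity) (by positivity)] at h1
  have h5 : (t₀ * (l : ℝ) ^ 2) ^ 2 * Pst N l b t₀ (-k) = (t₀ * (l : ℝ) ^ 2) ^ 2 * Pst N l b t₀ k := by
    linear_combination h1
  exact mul_left_cancel₀ (pow_pos h4 2).ne' h5

/-- `(σ²)⁻¹ (1 - ahat)` is the Hessian at level `t` -/
lemma mat_A (hb : 0 < b) (hl : l ∣ N) (ht : 0 < t) (h : t < t₀) :
    (sgm l t₀ t ^ 2)⁻¹ • (1 - (1 + sgm l t₀ t ^ 2 • acl N l b t₀ t₀)⁻¹) =
      mlt (sA (Pst N l b t₀) (t * l ^ 2)) := by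
  have h0 : 0 < t₀ := ht.trans h
  have hlp : (0 : ℝ) < l := by exact_mod_cast H864.l_pos hl
  have hA := ti_acl (N := N) hb.le hl h0 (le_refl t₀)
  have hn := sym_acl_nonneg (N := N) hb.le hl h0 (le_refl t₀)
  have hs := (lv_tor (N := N) hl ht h).σ0
  have hσ := (lv_tor (N := N) hl ht h).hσ
  rw [inv_ahat hA hn (sq_nonneg _)]
  refine H864.sym_inj ((TI.one.sub (ti_ahat _ _)).smul _) (H864.ti_mlt _) fun k => ?_
  rw [H864.sym_smul, H864.sym_sub, H864.sym_one, sym_ahat,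
    H864.sym_mlt _ (fun k => by unfold H114.sA; rw [Pst_neg hb hl h0])]
  rw [sym_acl_Pst hb hl h0]
  have hP := Pst_nonneg hb hl h0 k
  unfold H114.sA
  rw [hσ]
  have h4 : t₀ - t ≠ 0 := (sub_pos.2 h).ne'
  have h5 : 0 < t₀ * (l : ℝ) ^ 2 + Pst N l b t₀ k := by positivity
  have h6 : 0 < t * (l : ℝ) ^ 2 + Pst N l b t₀ k := by positivity
  set P := Pst N l b t₀ k
  have h7 : 1 + (t₀ - t) / (t₀ * t * (l : ℝ) ^ 2) * (t₀ * l ^ 2 * P / (t₀ * l ^ 2 + P)) =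
      t₀ * (t * l ^ 2 + P) / (t * (t₀ * l ^ 2 + P)) := by
    field_simp
    ring
  rw [h7]
  field_simp
  ring

/-- `S ahat` -/
lemma mat_S (hb : 0 < b) (hl : l ∣ N) (ht : 0 < t) (h : t < t₀) :
    (1 - (t₀ * (l : ℝ) ^ 2)⁻¹ • acl N l b t₀ t₀) * (1 + sgm l t₀ t ^ 2 • acl N l b t₀ t₀)⁻¹ =
      mlt (sS (Pst N l b t₀) (t * l ^ 2)) := by
  have h0 : 0 < t₀ := ht.trans h
  have hlp : (0 : ℝ) < l := by exact_mod_cast H864.l_pos hl
  have hA := ti_acl (N := N) hb.le hl h0 (le_refl t₀)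
  have hn := sym_acl_nonneg (N := N) hb.le hl h0 (le_refl t₀)
  have hσ := (lv_tor (N := N) hl ht h).hσ
  have hT : TI (1 - (t₀ * (l : ℝ) ^ 2)⁻¹ • acl N l b t₀ t₀) := TI.one.sub (hA.smul _)
  rw [inv_ahat hA hn (sq_nonneg _)]
  refine H864.sym_inj (hT.mul (ti_ahat _ _)) (H864.ti_mlt _) fun k => ?_
  rw [H864.sym_mul hT (ti_ahat _ _), H864.sym_sub, H864.sym_smul, H864.sym_one, sym_ahat,
    H864.sym_mlt _ (fun k => by unfold H114.sS; rw [Pst_neg hb hl h0])]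
  rw [sym_acl_Pst hb hl h0]
  have hP := Pst_nonneg hb hl h0 k
  unfold H114.sA H114.sS
  rw [hσ]
  have h4 : t₀ - t ≠ 0 := (sub_pos.2 h).ne'
  have h5 : 0 < t₀ * (l : ℝ) ^ 2 + Pst N l b t₀ k := by positivity
  have h6 : 0 < t * (l : ℝ) ^ 2 + Pst N l b t₀ k := by positivity
  set P := Pst N l b t₀ k
  have h7 : 1 + (t₀ - t) / (t₀ * t * (l : ℝ) ^ 2) * (t₀ * l ^ 2 * P / (t₀ * l ^ 2 + P)) =
      t₀ * (t * l ^ 2 + P) / (t * (t₀ * l ^ 2 + P)) := by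
    field_simp
    ring
  rw [h7]
  field_simp
  ring

end

end Vale.Agent.P159.H462
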