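import Vale.Agent.P159.H462.L1k
import Vale.Agent.P159.H363.Typ

/-!
P159 (helper462), (L1) part l: complex activity (the total functional is even), massive typical law,
the torus form of `l1_chan` and `Dv_le`.
-/

set_option linter.unusedSectionVars false
set_option linter.unusedVariables false

namespace Vale.Agent.P159.H462

open Finset MeasureTheory Matrix
open Vale.Agent.P159.TM.H104 (EM Ex Cv K3 Lg li nh Gr)
open Vale.Agent.P159.H37
open Vale.Agent.P159.H114 (nuP int_nuP integrable_nuP)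
open Vale.Agent.P159.H363 (mainf ee Ch lf acl ti_acl Rcl sym_acl_nonneg gm ti_gm pin ti_pin sym_pin)
open Vale.Agent.P159.TM.Spec (V)
open Vale.Agent.P159.TM.SpecC (Tor wT)
open Vale.Agent.P159.H864 (TI sym mlt fc MC cobV)
open Vale.Agent.P159.H730 (wC)
open Vale.Agent.P159.H896 (Ph)
open Vale.Agent.P159.H43 (omT omH)
open Vale.Agent.P159.H145 (LM L0)
open Vale.Agent.P159.H114 (FF XX L1 sA sS mm)
open Vale.Agent.P159.H963 (Pn)
open scoped Real ComplexConjugate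

noncomputable section

section abs

variable {X : Type*} [Fintype X] {L : Type*} [Fintype L] [DecidableEq L] {I : Type*} [Fintype I]
variable {μ' : (X → ℤ) → ℝ} {B : Matrix L X ℝ} {τ t' t l σ : ℝ}
variable {Q : Matrix L L ℝ} {V : (L → ℝ) → ℝ} {G : Set (L → ℝ)} {η K : ℝ}

lemma ee_conj (t : ℝ) : conj (ee t) = ee (-t) := by
  unfold H363.ee
  rw [← Complex.exp_conj, map_mul, Complex.conj_I, Complex.conj_ofReal]
  congr 1
  push_cast
  ring

lemma mainf_neg (S : Matrix L L ℝ) (x : L) (F : L → ℝ) : mainf S x (-F) = conj (mainf S x F) := by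
  unfold H363.mainf
  rw [map_sum]
  refine Finset.sum_congr rfl fun w _ => ?_
  rw [map_mul, Complex.conj_ofReal, ee_conj, mulVec_neg, Pi.neg_apply]

lemma gau_int_neg (u : (I → ℝ) → ℝ) : ∫ g, u (-g) ∂(gau I) = ∫ g, u g ∂(gau I) := by
  have h := gau_neg (I := I)
  have e : MeasurableEmbedding (fun g : I → ℝ => -g) := (MeasurableEquiv.neg (I → ℝ)).measurableEmbedding
  exact h.integral_comp e u

lemma memLp_sq {u : (I → ℝ) → ℂ} (hu : Measurable u) {K : ℝ} (hK : ∀ g, ‖u g‖ ≤ K) :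
    MemLp (fun g => ‖u g‖) 2 (gau I) :=
  (MemLp.of_bound hu.aestronglyMeasurable K (Filter.Eventually.of_forall hK)).norm

/-- **the deviation**, complex activity -/
theorem Hy.Dv_leC (h : Hy μ' B τ t' t l σ Q V G η K) {C : Matrix L I ℝ}
    (hC : C * Cᵀ = (ms τ t l • (1 : Matrix L L ℝ) + Q)⁻¹) {S : Matrix L L ℝ}
    (hS : ∀ w, ∑ x, S x w = 1) {z : ℂ} {R e : (L → ℝ) → ℝ} {Φ Ψ : (L → ℝ) → ℂ}
    {ψ : L → (L → ℝ) → ℂ} {ηR ε₂ ηE d b : ℝ}
    (hG : ∀ F ∈ G, -F ∈ G) (hΦ : ∀ F, Φ (-F) = conj (Φ F))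
    (hV : ∀ F, V F = R F + e F) (hR : ∀ F ∈ G, |R F| ≤ ηR)
    (he : ∀ F ∈ G, |e F - 2 * (Φ F).re| ≤ ε₂) (hE : ∀ F ∈ G, ‖Φ F - Ψ F‖ ≤ ηE)
    (hΨ : ∀ F, Ψ F = ∑ x, ψ x F) (hψm : ∀ x, Measurable (ψ x)) (hψb : ∀ x F, ‖ψ x F‖ ≤ b)
    (hd0 : 0 ≤ d)
    (hd : ∀ x, ∫ g, ‖ψ x (C *ᵥ g) - z * mainf S x (C *ᵥ g)‖ ^ 2 ∂(gau I) ≤ d ^ 2) :
    Dv μ' B τ t l V S z.re G ≤
      4 * ηR ^ 2 + 4 * ε₂ ^ 2 + 16 * ηE ^ 2 + 96 * (Fintype.card L * d) ^ 2 := by
  have mC : Measurable fun g : I → ℝ => C *ᵥ g := H363.measurable_mulVec C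
  set ψ' : L → (L → ℝ) → ℂ := fun x F => (ψ x F + conj (ψ x (-F))) / 2 with hψ'
  set Ψ' : (L → ℝ) → ℂ := fun F => (Ψ F + conj (Ψ (-F))) / 2 with hΨ'
  have mneg : Measurable fun F : L → ℝ => -F := measurable_neg
  refine h.Dv_le hC hS (z := z.re) (R := R) (e := e) (Φ := Φ) (Ψ := Ψ') (ψ := ψ') (b := b)
    hV hR he ?_ ?_ ?_ ?_ ?_
  · intro F hF
    have h1 := hE F hF
    have h2 := hE (-F) (hG F hF)
    rw [hΦ F] at h2
    have h3 : Φ F - Ψ' F = ((Φ F - Ψ F) + conj (conj (Φ F) - Ψ (-F))) / 2 := by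
      rw [hΨ', map_sub, Complex.conj_conj]
      ring
    rw [h3, norm_div, Complex.norm_ofNat]
    have h4 := norm_add_le (Φ F - Ψ F) (conj (conj (Φ F) - Ψ (-F)))
    rw [Complex.norm_conj] at h4
    linarith
  · intro F
    rw [hΨ', hψ']
    simp only
    rw [hΨ F, hΨ (-F), map_sum, ← Finset.sum_add_distrib, Finset.sum_div]
  · intro x
    exact ((hψm x).add (Complex.continuous_conj.measurable.comp ((hψm x).comp mneg))).div_const 2
  · intro x F
    rw [hψ']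
    simp only
    rw [norm_div, Complex.norm_ofNat]
    have h4 := norm_add_le (ψ x F) (conj (ψ x (-F)))
    rw [Complex.norm_conj] at h4
    linarith [hψb x F, hψb x (-F)]
  · intro x
    set u : (L → ℝ) → ℂ := fun F => ψ x F - z * mainf S x F with hu
    have mu : Measurable u := (hψm x).sub ((H363.measurable_mainf S x).const_mul _)
    have e1 : ∀ F, ψ' x F - (z.re : ℂ) * mainf S x F = (u F + conj (u (-F))) / 2 := by
      intro F
      rw [hψ', hu]
      simp only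
      rw [mainf_neg, map_sub, map_mul, Complex.conj_conj]
      have h5 : (z.re : ℂ) = (z + conj z) / 2 := by
        rw [Complex.add_conj]
        push_cast
        ring
      rw [h5]
      ring
    have hub : ∀ F, ‖u F‖ ≤ b + ‖z‖ * ∑ w, |S x w| := by
      intro F
      refine (norm_sub_le _ _).trans (add_le_add (hψb x F) ?_)
      rw [norm_mul]
      exact mul_le_mul_of_nonneg_left (H363.norm_mainf_le S x F) (norm_nonneg _)
    have i1 : Integrable (fun g => ‖u (C *ᵥ g)‖ ^ 2) (gau I) := by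
      refine Integrable.of_bound (C := (b + ‖z‖ * ∑ w, |S x w|) ^ 2)
        ((mu.comp mC).norm.pow_const 2).aestronglyMeasurable
        (Filter.Eventually.of_forall fun g => ?_)
      rw [Real.norm_eq_abs, abs_of_nonneg (sq_nonneg _)]
      exact pow_le_pow_left₀ (norm_nonneg _) (hub _) 2
    have i2 : Integrable (fun g => ‖u (C *ᵥ (-g))‖ ^ 2) (gau I) := by
      refine Integrable.of_bound (C := (b + ‖z‖ * ∑ w, |S x w|) ^ 2)
        ((mu.comp (mC.comp measurable_neg)).norm.pow_const 2).aestronglyMeasurable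
        (Filter.Eventually.of_forall fun g => ?_)
      rw [Real.norm_eq_abs, abs_of_nonneg (sq_nonneg _)]
      exact pow_le_pow_left₀ (norm_nonneg _) (hub _) 2
    have h6 : ∀ g : I → ℝ, ‖ψ' x (C *ᵥ g) - (z.re : ℂ) * mainf S x (C *ᵥ g)‖ ^ 2 ≤
        (‖u (C *ᵥ g)‖ ^ 2 + ‖u (C *ᵥ (-g))‖ ^ 2) / 2 := by
      intro g
      rw [e1, norm_div, Complex.norm_ofNat, mulVec_neg]
      have h7 := norm_add_le (u (C *ᵥ g)) (conj (u (-(C *ᵥ g))))
      rw [Complex.norm_conj] at h7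
      have h8 := norm_nonneg (u (C *ᵥ g) + conj (u (-(C *ᵥ g))))
      nlinarith [sq_nonneg (‖u (C *ᵥ g)‖ - ‖u (-(C *ᵥ g))‖)]
    have h9 : ∫ g, (‖u (C *ᵥ g)‖ ^ 2 + ‖u (C *ᵥ (-g))‖ ^ 2) / 2 ∂(gau I) ≤ d ^ 2 := by
      rw [integral_div, integral_add i1 i2, gau_int_neg fun g => ‖u (C *ᵥ g)‖ ^ 2]
      have := hd x
      linarith
    refine le_trans ?_ h9
    refine integral_mono_of_nonneg (Filter.Eventually.of_forall fun g => sq_nonneg _)
      ((i1.add i2).div_const 2) (Filter.Eventually.of_forall h6)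

end abs

section massive

variable {n : ℕ} [NeZero n] {A : Matrix (V n) (V n) ℝ}

/-- root of `(m + A)⁻¹` -/
def cm (m : ℝ) (A : Matrix (V n) (V n) ℝ) : Matrix (V n) (V n) ℝ := fc (fun a => √((m + a)⁻¹)) A

lemma ti_cm (m : ℝ) (A : Matrix (V n) (V n) ℝ) : TI (cm m A) := H864.ti_fc _ _

lemma sym_cm (m : ℝ) (A : Matrix (V n) (V n) ℝ) (k : V n) :
    sym (cm m A) k = √((m + sym A k)⁻¹) := H864.sym_fc _ _ _

lemma cm_mul (hA : TI A) (h0 : ∀ k, 0 ≤ sym A k) {m : ℝ} (hm : 0 < m) :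
    cm m A * (cm m A)ᵀ = (m • (1 : Matrix (V n) (V n) ℝ) + A)⁻¹ := by
  have t1 : TI (m • (1 : Matrix (V n) (V n) ℝ) + A) := (TI.one.smul m).add hA
  have t2 : TI (cm m A * cm m A) := (ti_cm m A).mul (ti_cm m A)
  symm
  rw [(ti_cm m A).transpose]
  refine inv_eq_left_inv (H864.sym_inj (t2.mul t1) TI.one fun k => ?_)
  rw [H864.sym_mul t2 t1, H864.sym_mul (ti_cm m A) (ti_cm m A), sym_cm, H864.sym_add,
    H864.sym_smul, H864.sym_one, mul_one]
  have h1 : 0 < m + sym A k := by have := h0 k; linarith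
  rw [Real.mul_self_sqrt (by positivity)]
  exact inv_mul_cancel₀ h1.ne'

/-- the massive form modulo constants -/
def mA (m : ℝ) (A : Matrix (V n) (V n) ℝ) : Matrix (V n) (V n) ℝ := A + m • Pn

lemma ti_mA (hA : TI A) (m : ℝ) : TI (mA m A) := hA.add (H963.ti_Pn.smul m)

lemma sym_mA (m : ℝ) (A : Matrix (V n) (V n) ℝ) (k : V n) :
    sym (mA m A) k = sym A k + m * (if k = 0 then 0 else 1) := by
  unfold mA
  rw [H864.sym_add, H864.sym_smul, H963.sym_Pn]

/-- the massive law and its version modulo constants agree on charge one functions -/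
theorem law_mA (hA : TI A) (h0 : ∀ k, 0 ≤ sym A k) (hz : sym A 0 = 0) {m : ℝ} (hm : 0 < m)
    {ψ : (V n → ℝ) → ℂ} (hch : Ch ψ) (hmψ : Measurable ψ) {C : ℝ} (hC : ∀ F, ‖ψ F‖ ≤ C) :
    ∫ g, ‖ψ (cm m A *ᵥ g)‖ ^ 2 ∂(gau (V n)) = ∫ g, ‖ψ (pin (mA m A) *ᵥ g)‖ ^ 2 ∂(gau (V n)) := by
  classical
  set q : Matrix (V n) (V n) ℝ := √(m⁻¹) • avgM n with hq
  set B2 : Matrix (V n) (V n ⊕ V n) ℝ := fromCols (pin (mA m A)) q with hB2
  have hsm : StronglyMeasurable fun F => ‖ψ F‖ ^ 2 := (hmψ.norm.pow_const 2).stronglyMeasurable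
  have e1 : ∀ (X Y : Matrix (V n) (V n) ℝ) (g b : V n → ℝ),
      fromCols X Y *ᵥ Sum.elim g b = X *ᵥ g + Y *ᵥ b := fun X Y g b =>
    fromCols_mulVec_sumElim _ _ _ _
  have hint : ∀ X : Matrix (V n) (V n ⊕ V n) ℝ,
      Integrable (fun g => ‖ψ (X *ᵥ g)‖ ^ 2) (gau (V n ⊕ V n)) := fun X =>
    Integrable.of_bound (C := C ^ 2)
      (hsm.comp_measurable (H363.measurable_mulVec X)).aestronglyMeasurable
      (Filter.Eventually.of_forall fun g => by
        rw [norm_pow, norm_norm]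
        exact pow_le_pow_left₀ (norm_nonneg _) (hC _) 2)
  have hR : ∫ g, ‖ψ (pin (mA m A) *ᵥ g)‖ ^ 2 ∂(gau (V n))
      = ∫ g, ‖ψ (B2 *ᵥ g)‖ ^ 2 ∂(gau (V n ⊕ V n)) := by
    rw [H363.integral_gau_sum _ (hint _)]
    refine integral_congr_ae (Filter.Eventually.of_forall fun g => ?_)
    have e2 : ∀ b : V n → ℝ, B2 *ᵥ Sum.elim g b = pin (mA m A) *ᵥ g + q *ᵥ b := fun b => e1 _ _ _ _
    simp only [e2]
    have h3 : ∀ b : V n → ℝ, ‖ψ (pin (mA m A) *ᵥ g + q *ᵥ b)‖ ^ 2 =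
        ‖ψ (pin (mA m A) *ᵥ g)‖ ^ 2 := by
      intro b
      have h4 : q *ᵥ b = fun _ => √(m⁻¹) * ∑ y, ((n : ℝ) ^ 2)⁻¹ * b y := by
        rw [hq, smul_mulVec]
        funext x
        rfl
      rw [h4]
      congr 1
      exact hch.norm_add _ _
    simp only [h3]
    simp
  rw [hR]
  refine H363.law_integral_eq _ B2 ?_ _ hsm
  rw [cm_mul hA h0 hm, hB2, transpose_fromCols, fromCols_mul_fromRows]
  have t3 : TI (pin (mA m A) * (pin (mA m A))ᵀ) := by
    rw [(ti_pin _).transpose]; exact (ti_pin _).mul (ti_pin _)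
  have tq : TI q := ti_avgM.smul _
  have t4 : TI (q * qᵀ) := by
    rw [tq.transpose]; exact tq.mul tq
  have t1 : TI (m • (1 : Matrix (V n) (V n) ℝ) + A) := (TI.one.smul m).add hA
  have hB0 : ∀ k, 0 ≤ sym (mA m A) k := by
    intro k
    rw [sym_mA]
    have := h0 k
    split_ifs
    · linarith
    · linarith
  refine inv_eq_left_inv (H864.sym_inj ((t3.add t4).mul t1) TI.one fun k => ?_)
  rw [H864.sym_mul (t3.add t4) t1, H864.sym_add, H363.pin_mul (ti_mA hA m) hB0, H864.sym_fc, sym_mA,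
    tq.transpose, H864.sym_mul tq tq, hq, H864.sym_smul, sym_avgM, H864.sym_add,
    H864.sym_smul, H864.sym_one]
  have hs2 : √(m⁻¹) * √(m⁻¹) = m⁻¹ := Real.mul_self_sqrt (by positivity)
  by_cases hk : k = 0
  · rw [if_pos hk, if_pos hk, hk, hz]
    simp only [mul_zero, add_zero, _root_.inv_zero, zero_add, mul_one]
    rw [hs2]
    exact inv_mul_cancel₀ hm.ne'
  · rw [if_neg hk, if_neg hk]
    have h2 := h0 k
    have h3 : 0 < sym A k + m := by linarith
    simp only [mul_zero, add_zero, mul_one]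
    rw [add_comm m, inv_mul_cancel₀ h3.ne']

end massive

end

end Vale.Agent.P159.H462
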