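import Vale.Agent.P159.H462.L1l
import Vale.Agent.P159.H767.Mass1

/-!
P159 (helper462), (L1) part m: the massive law of a tiny mass is dominated by the pinned law on
charge one functions.
-/

set_option linter.unusedSectionVars false
set_option linter.unusedVariables false

namespace Vale.Agent.P159.H462

open Finset MeasureTheory Matrix
open Vale.Agent.P159.H37 (gau qf qf_eq)
open Vale.Agent.P159.H363 (Ch pin ti_pin sym_pin)
open Vale.Agent.P159.TM.Spec (V)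
open Vale.Agent.P159.TM.H764 (EE)
open Vale.Agent.P159.H864 (TI sym fc)
open scoped Real

noncomputable section

variable {n : ℕ} [NeZero n] {A : Matrix (V n) (V n) ℝ} {ν c m : ℝ}

lemma card_Vn (n : ℕ) [NeZero n] : Fintype.card (V n) = n * n := by
  show Fintype.card (ZMod n × ZMod n) = _
  rw [Fintype.card_prod, ZMod.card]

lemma Dom.inv_le (h : Dom A ν c) {k : V n} (hk : k ≠ 0) :
    (sym A k)⁻¹ ≤ 1 / (c * EE k) + 1 / ν := by
  have hE := EE_pos hk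
  have hc := h.hc
  have hν := h.hν
  have h1 := h.ge k
  have h2 : 0 < ν * (c * EE k) / (ν + c * EE k) := by positivity
  have h3 := inv_anti₀ h2 h1
  refine h3.trans (le_of_eq ?_)
  field_simp

/-- `∑_{k ≠ 0} A(k)⁻²` -/
lemma Dom.sum_inv_sq (h : Dom A ν c) :
    ∑ k : V n, (if k = 0 then 0 else ((sym A k)⁻¹) ^ 2) ≤
      (n : ℝ) ^ 4 / c ^ 2 + 2 * (n : ℝ) ^ 2 / ν ^ 2 := by
  have hn : (0 : ℝ) < n := by exact_mod_cast NeZero.pos n
  have hc := h.hc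
  have hν := h.hν
  have h1 : ∀ k : V n, (if k = 0 then 0 else ((sym A k)⁻¹) ^ 2) ≤
      8 / c ^ 2 * ((EE k + 16 / (n : ℝ) ^ 2) ^ 2)⁻¹ + 2 / ν ^ 2 := by
    intro k
    have hE0 := EE_nonneg k
    by_cases hk : k = 0
    · rw [if_pos hk]
      positivity
    · rw [if_neg hk]
      have hE := EE_pos hk
      have hg := EE_gap hk
      have h2 := h.inv_le hk
      have h3 : 0 ≤ (sym A k)⁻¹ := inv_nonneg.2 (h.nn k)
      have h4 := pow_le_pow_left₀ h3 h2 2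
      have h5 : (1 / (c * EE k) + 1 / ν) ^ 2 ≤ 2 * (1 / (c * EE k)) ^ 2 + 2 * (1 / ν) ^ 2 := by
        nlinarith [sq_nonneg (1 / (c * EE k) - 1 / ν)]
      have h6 : (1 / (c * EE k)) ^ 2 ≤ 4 / c ^ 2 * ((EE k + 16 / (n : ℝ) ^ 2) ^ 2)⁻¹ := by
        have h7 : 1 / (c * EE k) ≤ 2 / (c * (EE k + 16 / (n : ℝ) ^ 2)) := by
          rw [div_le_div_iff₀ (by positivity) (by positivity)]
          nlinarith
        have h8 : 0 ≤ 1 / (c * EE k) := by positivity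
        refine (pow_le_pow_left₀ h8 h7 2).trans (le_of_eq ?_)
        rw [div_pow, mul_pow]
        field_simp
        norm_num
      have h9 : 2 * (1 / ν) ^ 2 = 2 / ν ^ 2 := by
        rw [div_pow, one_pow]
        ring
      have h10 : 8 / c ^ 2 * ((EE k + 16 / (n : ℝ) ^ 2) ^ 2)⁻¹ =
          2 * (4 / c ^ 2 * ((EE k + 16 / (n : ℝ) ^ 2) ^ 2)⁻¹) := by ring
      linarith
  refine (Finset.sum_le_sum fun k _ => h1 k).trans ?_
  rw [Finset.sum_add_distrib, ← Finset.mul_sum]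
  have h2 := sum2 (N := n) (x := 16 / (n : ℝ) ^ 2) (by positivity)
  have e1 : Real.sqrt (16 / (n : ℝ) ^ 2) = 4 / n := by
    rw [Real.sqrt_div' _ (sq_nonneg _), Real.sqrt_sq hn.le]
    congr 1
    rw [show (16 : ℝ) = 4 ^ 2 by norm_num, Real.sqrt_sq (by norm_num)]
  rw [e1] at h2
  have h3 : (1 / (16 / (n : ℝ) ^ 2) + n / (4 / (n : ℝ))) ^ 2 = 25 / 256 * (n : ℝ) ^ 4 := by
    field_simp
    ring
  rw [h3] at h2
  have h4 : 8 / c ^ 2 * ∑ k : V n, ((EE k + 16 / (n : ℝ) ^ 2) ^ 2)⁻¹ ≤ (n : ℝ) ^ 4 / c ^ 2 := by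
    calc 8 / c ^ 2 * ∑ k : V n, ((EE k + 16 / (n : ℝ) ^ 2) ^ 2)⁻¹ ≤
        8 / c ^ 2 * (25 / 256 * (n : ℝ) ^ 4) := mul_le_mul_of_nonneg_left h2 (by positivity)
      _ = 25 / 32 * ((n : ℝ) ^ 4 / c ^ 2) := by ring
      _ ≤ 1 * ((n : ℝ) ^ 4 / c ^ 2) := mul_le_mul_of_nonneg_right (by norm_num) (by positivity)
      _ = _ := one_mul _
  have h5 : ∑ _k : V n, 2 / ν ^ 2 = 2 * (n : ℝ) ^ 2 / ν ^ 2 := by
    rw [Finset.sum_const, Finset.card_univ, card_Vn, nsmul_eq_mul]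
    push_cast
    ring
  rw [h5]
  linarith

/-- **domination by the pinned law** -/
theorem law_tiny (h : Dom A ν c) (hm : 0 < m) {ψ : (V n → ℝ) → ℂ} (hch : Ch ψ)
    (hmψ : Measurable ψ) {C : ℝ} (hC : ∀ F, ‖ψ F‖ ≤ C) :
    ∫ g, ‖ψ (cm m A *ᵥ g)‖ ^ 2 ∂(gau (V n)) ≤
      Real.exp (m * (ν + m) / 2 * ((n : ℝ) ^ 4 / c ^ 2 + 2 * (n : ℝ) ^ 2 / ν ^ 2)) *
        ∫ g, ‖ψ (pin A *ᵥ g)‖ ^ 2 ∂(gau (V n)) := by
  classical
  have hν := h.hν
  set q : Matrix (V n) (V n) ℝ := √(m⁻¹) • avgM n with hq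
  set B1 : Matrix (V n) (V n ⊕ V n) ℝ := fromCols (pin A) q with hB1
  have hf : Measurable fun F : V n → ℝ => ‖ψ F‖ ^ 2 := hmψ.norm.pow_const 2
  have hCp : ∀ F, ‖ψ F‖ ^ 2 ≤ C ^ 2 := fun F => pow_le_pow_left₀ (norm_nonneg _) (hC F) 2
  have e1 : ∀ (X Y : Matrix (V n) (V n) ℝ) (g b : V n → ℝ),
      fromCols X Y *ᵥ Sum.elim g b = X *ᵥ g + Y *ᵥ b := fun X Y g b =>
    fromCols_mulVec_sumElim _ _ _ _
  have hint : Integrable (fun g => ‖ψ (B1 *ᵥ g)‖ ^ 2) (gau (V n ⊕ V n)) :=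
    Integrable.of_bound (C := C ^ 2)
      (hf.comp (H363.measurable_mulVec B1)).aestronglyMeasurable
      (Filter.Eventually.of_forall fun g => by
        rw [Real.norm_eq_abs, abs_of_nonneg (sq_nonneg _)]
        exact hCp _)
  have hR : ∫ g, ‖ψ (pin A *ᵥ g)‖ ^ 2 ∂(gau (V n)) = ∫ g, ‖ψ (B1 *ᵥ g)‖ ^ 2 ∂(gau (V n ⊕ V n)) := by
    rw [H363.integral_gau_sum _ hint]
    refine integral_congr_ae (Filter.Eventually.of_forall fun g => ?_)
    have e2 : ∀ b : V n → ℝ, B1 *ᵥ Sum.elim g b = pin A *ᵥ g + q *ᵥ b := fun b => e1 _ _ _ _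
    simp only [e2]
    have h3 : ∀ b : V n → ℝ, ‖ψ (pin A *ᵥ g + q *ᵥ b)‖ ^ 2 = ‖ψ (pin A *ᵥ g)‖ ^ 2 := by
      intro b
      have h4 : q *ᵥ b = fun _ => √(m⁻¹) * ∑ y, ((n : ℝ) ^ 2)⁻¹ * b y := by
        rw [hq, smul_mulVec]
        funext x
        rfl
      rw [h4]
      congr 1
      exact hch.norm_add _ _
    simp only [h3]
    simp
  rw [hR]
  have t2 : TI (cm m A * (cm m A)ᵀ) := by
    rw [(ti_cm m A).transpose]; exact (ti_cm m A).mul (ti_cm m A)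
  have t3 : TI (pin A * (pin A)ᵀ) := by
    rw [(ti_pin _).transpose]; exact (ti_pin _).mul (ti_pin _)
  have tq : TI q := ti_avgM.smul _
  have t4 : TI (q * qᵀ) := by
    rw [tq.transpose]; exact tq.mul tq
  have e3 : B1 * B1ᵀ = pin A * (pin A)ᵀ + q * qᵀ := by
    rw [hB1, transpose_fromCols, fromCols_mul_fromRows]
  have s2 : ∀ k, sym (cm m A * (cm m A)ᵀ) k = (m + sym A k)⁻¹ := by
    intro k
    have := h.nn k
    rw [(ti_cm m A).transpose, H864.sym_mul (ti_cm m A) (ti_cm m A), sym_cm]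
    exact Real.mul_self_sqrt (by positivity)
  have s1 : ∀ k, sym (B1 * B1ᵀ) k = (sym A k)⁻¹ + m⁻¹ * (if k = 0 then 1 else 0) := by
    intro k
    rw [e3, H864.sym_add, H363.pin_mul h.ti h.nn, H864.sym_fc, tq.transpose, H864.sym_mul tq tq, hq,
      H864.sym_smul, sym_avgM]
    have hs2 : √(m⁻¹) * √(m⁻¹) = m⁻¹ := Real.mul_self_sqrt (by positivity)
    split_ifs
    · rw [mul_one, mul_one, hs2]
    · simp
  have hdiff : ∀ k, sym (B1 * B1ᵀ - cm m A * (cm m A)ᵀ) k =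
      if k = 0 then 0 else (sym A k)⁻¹ - (m + sym A k)⁻¹ := by
    intro k
    rw [H864.sym_sub, s1, s2]
    by_cases hk : k = 0
    · rw [if_pos hk, if_pos hk, hk, h.zero, add_zero, _root_.inv_zero]
      ring
    · rw [if_neg hk, if_neg hk]
      ring
  have tD : TI (B1 * B1ᵀ - cm m A * (cm m A)ᵀ) := by
    rw [e3]
    exact (t3.add t4).sub t2
  have hd0 : ∀ k, 0 ≤ sym (B1 * B1ᵀ - cm m A * (cm m A)ᵀ) k ∧
      sym (B1 * B1ᵀ - cm m A * (cm m A)ᵀ) k ≤ m * (if k = 0 then 0 else ((sym A k)⁻¹) ^ 2) := by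
    intro k
    rw [hdiff]
    by_cases hk : k = 0
    · rw [if_pos hk, if_pos hk, mul_zero]
      exact ⟨le_rfl, le_rfl⟩
    · rw [if_neg hk, if_neg hk]
      have h2 := h.sym_pos hk
      have h3 : (sym A k)⁻¹ - (m + sym A k)⁻¹ = m * ((sym A k)⁻¹ * (m + sym A k)⁻¹) := by
        field_simp
        ring
      rw [h3]
      refine ⟨by positivity, ?_⟩
      rw [pow_two]
      have h4 : (m + sym A k)⁻¹ ≤ (sym A k)⁻¹ := inv_anti₀ h2 (by linarith)
      exact mul_le_mul_of_nonneg_left (mul_le_mul_of_nonneg_left h4 (by positivity)) hm.le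
  have hg : 0 < (ν + m)⁻¹ := by positivity
  have key := H767.law_mono (J := V n) (B₁ := B1) (B₂ := cm m A) (g := (ν + m)⁻¹)
    (δ := m * ((n : ℝ) ^ 4 / c ^ 2 + 2 * (n : ℝ) ^ 2 / ν ^ 2)) hg ?_ ?_ ?_ hf
    (fun F => sq_nonneg _) hCp
  · refine key.trans (le_of_eq ?_)
    congr 2
    have h5 : ν + m ≠ 0 := by positivity
    field_simp
  · intro u
    have e4 : (ν + m)⁻¹ * ∑ x, u x ^ 2 = qf ((ν + m)⁻¹ • (1 : Matrix (V n) (V n) ℝ)) u := by
      rw [qf_eq, smul_mulVec, one_mulVec, dotProduct_smul, smul_eq_mul]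
      congr 1
      exact Finset.sum_congr rfl fun x _ => by ring
    rw [e4]
    refine (H864.qf_le_iff (TI.one.smul _) t2).2 (fun k => ?_) u
    rw [H864.sym_smul, H864.sym_one, mul_one, s2]
    have := h.nn k
    have := h.le k
    exact inv_anti₀ (by linarith) (by linarith)
  · exact (H864.psd_iff tD).2 fun k => (hd0 k).1
  · have e5 : trace (B1 * B1ᵀ - cm m A * (cm m A)ᵀ) =
        ∑ k, sym (B1 * B1ᵀ - cm m A * (cm m A)ᵀ) k := by
      unfold trace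
      have hnn : (n : ℝ) ≠ 0 := by exact_mod_cast (NeZero.ne n)
      simp only [diag_apply, tD.diag_eq]
      rw [Finset.sum_const, Finset.card_univ, card_Vn, nsmul_eq_mul]
      push_cast
      field_simp
    rw [e5]
    refine (Finset.sum_le_sum fun k _ => (hd0 k).2).trans ?_
    rw [← Finset.mul_sum]
    exact mul_le_mul_of_nonneg_left h.sum_inv_sq hm.le

end

end Vale.Agent.P159.H462
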