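import Vale.Agent.P159.H462.L1m
import Vale.Agent.P159.H363.Cvf1
import Vale.Agent.P159.H896.TypI
import Vale.Agent.P159.H114.Tor3

/-!
P159 (helper462), (L1) part n: **(L1) on the cell torus** from the pinned state: bad mass of the exact
channel law from the exact neutral law; deviation of the total functional in the pinned law; the
normalised error.
-/

set_option linter.unusedSectionVars false
set_option linter.unusedVariables false

namespace Vale.Agent.P159.H462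

open Finset MeasureTheory Matrix
open Vale.Agent.P159.TM.H104 (EM Ex Cv K3 Lg li nh Gr)
open Vale.Agent.P159.H37
open Vale.Agent.P159.H363 (mainf ee Ch lf acl ti_acl Rcl Rcl_nonneg sym_acl_nonneg gm ti_gm pin ti_pin
  sym_pin Wcl one_le_Wcl wm_MC Nf)
open Vale.Agent.P159.H767 (cst)
open Vale.Agent.P159.TM.Spec (V)
open Vale.Agent.P159.TM.SpecC (Tor wT)
open Vale.Agent.P159.H864 (TI sym mlt fc MC cobV)
open Vale.Agent.P159.H730 (wC)
open Vale.Agent.P159.H896 (Ph srcF pinK kap)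
open Vale.Agent.P159.H963 (Pn nMC obsN ntr)
open Vale.Agent.P159.H43 (omT omH Phq)
open Vale.Agent.P159.H145 (LM L0)
open Vale.Agent.P159.H114 (nuP FF XX L1 sA sS mm nuC FC XC lc)
open scoped Real ComplexConjugate

noncomputable section

section law

variable {n : ℕ} [NeZero n] {A : Matrix (V n) (V n) ℝ}

/-- the massive covariance is the one modulo constants plus a constant mode -/
lemma cm_cst (hA : TI A) (h0 : ∀ k, 0 ≤ sym A k) (hz : sym A 0 = 0) {m : ℝ} (hm : 0 < m) :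
    cm m A * (cm m A)ᵀ = pinK A m * (pinK A m)ᵀ + cst (V n) (m⁻¹ * ((n : ℝ) ^ 2)⁻¹) := by
  have t1 : TI (m • (1 : Matrix (V n) (V n) ℝ) + A) := (TI.one.smul m).add hA
  have t3 : TI (pinK A m * (pinK A m)ᵀ) := by
    have h1 : TI (pinK A m) := ti_pin _
    rw [h1.transpose]
    exact h1.mul h1
  have e0 : cst (V n) (m⁻¹ * ((n : ℝ) ^ 2)⁻¹) = m⁻¹ • avgM n := by
    ext x y
    rfl
  have t4 : TI (m⁻¹ • avgM n) := ti_avgM.smul _
  have hB0 : ∀ k, 0 ≤ sym (A + m • (Pn : Matrix (V n) (V n) ℝ)) k := by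
    intro k
    rw [H864.sym_add, H864.sym_smul, H963.sym_Pn]
    have := h0 k
    split_ifs
    · linarith
    · linarith
  rw [cm_mul hA h0 hm, e0]
  refine inv_eq_left_inv (H864.sym_inj ((t3.add t4).mul t1) TI.one fun k => ?_)
  have hs : sym (pinK A m * (pinK A m)ᵀ) k = (sym (A + m • (Pn : Matrix (V n) (V n) ℝ)) k)⁻¹ := by
    unfold H896.pinK
    rw [H363.pin_mul (hA.add (H963.ti_Pn.smul m)) hB0, H864.sym_fc]
  rw [H864.sym_mul (t3.add t4) t1, H864.sym_add, hs, H864.sym_add A, H864.sym_smul, H963.sym_Pn,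
    H864.sym_smul, sym_avgM, H864.sym_add, H864.sym_smul, H864.sym_one]
  by_cases hk : k = 0
  · rw [if_pos hk, if_pos hk, hk, hz]
    simp only [mul_zero, add_zero, _root_.inv_zero, zero_add, mul_one]
    exact inv_mul_cancel₀ hm.ne'
  · rw [if_neg hk, if_neg hk]
    have h2 := h0 k
    have h3 : 0 < sym A k + m := by linarith
    simp only [mul_zero, add_zero, mul_one]
    rw [add_comm m, inv_mul_cancel₀ h3.ne']

end law

variable {N l : ℕ} [NeZero N] [NeZero (N / l)] {b t₀ t τ : ℝ}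

lemma ms_kap (N : ℕ) (τ t₀ : ℝ) (l : ℕ) : ms τ t₀ l = kap l t₀ τ := by
  unfold ms H896.kap
  ring

/-- good cell fields: small neutral remainder -/
def Gcl (N l : ℕ) [NeZero N] [NeZero (N / l)] (b t₀ ηR : ℝ) : Set (V (N / l) → ℝ) :=
  {F | Rcl N l b t₀ t₀ F ≤ ηR}

lemma meas_Gcl (hb : 0 ≤ b) (hl : l ∣ N) (ht : 0 < t₀) (ηR : ℝ) :
    MeasurableSet (Gcl N l b t₀ ηR) :=
  (H363.continuous_Rcl hb hl ht (le_refl t₀)).measurable measurableSet_Iic

lemma Rcl_neg (hb : 0 ≤ b) (hl : l ∣ N) (ht : 0 < t₀) (F : V (N / l) → ℝ) :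
    Rcl N l b t₀ t₀ (-F) = Rcl N l b t₀ t₀ F := by
  rw [H896.Rcl_eq, H896.Rcl_eq]
  have e : srcF N l t₀ t₀ (-F) = -srcF N l t₀ t₀ F := by
    rw [H896.srcF_eq hl ht (le_refl t₀), H896.srcF_eq hl ht (le_refl t₀), mulVec_neg]
  rw [e, H789.Rs_neg (H963.ev_nMC hb t₀ t₀ 0)]

lemma Rcl_cst (hl : l ∣ N) (ht : 0 < t₀) (F : V (N / l) → ℝ) (c : ℝ) :
    Rcl N l b t₀ t₀ (fun x => F x + c) = Rcl N l b t₀ t₀ F := by
  rw [H896.Rcl_eq, H896.Rcl_eq, H896.srcF_const F hl ht (le_refl t₀) c]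

/-- `exp Vt` between `Wcl/2` and `2 Wcl` -/
lemma expV_bd (hb : 0 ≤ b) (hl : l ∣ N) (ht : 0 < t₀) (ho : oT N l b t₀ ≤ 1 / 2)
    (F : V (N / l) → ℝ) :
    Wcl N l b t₀ t₀ F / 2 ≤ Real.exp (Vt N l b t₀ F) ∧
      Real.exp (Vt N l b t₀ F) ≤ 3 / 2 * Wcl N l b t₀ t₀ F := by
  rw [exp_Vt hb hl ht]
  have h1 := abs_le.1 (ratio_le (N := N) hb hl ht (lf N l F))
  have h2 : 1 ≤ Real.exp (Rcl N l b t₀ t₀ F) := Real.one_le_exp (Rcl_nonneg hb hl ht (le_refl t₀) F)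
  have e : Wcl N l b t₀ t₀ F = Real.exp (Rcl N l b t₀ t₀ F) := rfl
  rw [e]
  constructor
  · rw [div_eq_mul_inv]
    exact mul_le_mul_of_nonneg_left (by norm_num; linarith [h1.1]) (by linarith)
  · rw [mul_comm (3 / 2 : ℝ)]
    exact mul_le_mul_of_nonneg_left (by linarith [h1.2]) (by linarith)

/-- **the bad mass of the exact channel law** from the exact neutral law -/
theorem dl_le (hb : 0 < b) (hl : l ∣ N) (hτ : 0 < τ) (h1 : τ < t) (h : t < t₀) {ηR δ : ℝ}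
    (ho : oT N l b t₀ ≤ 1 / 2) (h0 : 0 ≤ ηR) (hη : ηR + 2 * oT N l b t₀ ≤ 1)
    (hA : Nf (acl N l b t₀ t₀))
    (hbad : Ech (nMC N l b t₀ τ 0) 0 (obsN N l (t₀ - τ))
      ({J | ηR < Rs (nMC N l b t₀ t₀ 0) J}.indicator fun _ => 1) ≤ δ) :
    dl (wC N l b t₀ τ) (cobV N l) τ t₀ l (Gcl N l b t₀ ηR) ≤ 3 * δ := by
  have ht₀ : 0 < t₀ := (hτ.trans h1).trans h
  have mG := meas_Gcl (N := N) hb.le hl ht₀ ηR
  have hy := hy_tor (G := Gcl N l b t₀ ηR) hb hl hτ h1 h mG (fun F hF => hF) ho h0 hη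
  have hms : 0 < ms τ t₀ l := hy.lw.ms_pos
  set m := ms τ t₀ l with hm
  have hA1 := ti_acl (N := N) hb.le hl ht₀ (le_refl t₀)
  have hn := sym_acl_nonneg (N := N) hb.le hl ht₀ (le_refl t₀)
  have hC := cm_mul hA1 hn hms
  have hcst := cm_cst hA1 hn hA.zero hms
  set A := acl N l b t₀ t₀ with hAd
  set C := cm m A with hCd
  have mC : Measurable fun g : V (N / l) → ℝ => C *ᵥ g := H363.measurable_mulVec C
  have mW : Measurable (Wcl N l b t₀ t₀) :=
    (H363.continuous_Wcl hb.le hl ht₀ (le_refl t₀)).measurable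
  have hV := fun F => expV_bd (N := N) hb.le hl ht₀ ho F
  have hgint := hy.gint hC
  -- the weight is integrable
  have iW : Integrable (fun g => Wcl N l b t₀ t₀ (C *ᵥ g)) (gau (V (N / l))) := by
    refine (hgint.const_mul 2).mono' (mW.comp mC).aestronglyMeasurable
      (Filter.Eventually.of_forall fun g => ?_)
    have h4 : 0 ≤ Wcl N l b t₀ t₀ (C *ᵥ g) := (Real.exp_pos _).le
    rw [Real.norm_eq_abs, abs_of_nonneg h4]
    have := (hV (C *ᵥ g)).1
    linarith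
  set bad : (V (N / l) → ℝ) → ℝ := (Gcl N l b t₀ ηR)ᶜ.indicator fun _ => 1 with hbd
  have mb : Measurable bad := measurable_const.indicator mG.compl
  have hb01 : ∀ F, 0 ≤ bad F ∧ bad F ≤ 1 := by
    intro F
    by_cases hF : F ∈ (Gcl N l b t₀ ηR)ᶜ
    · rw [hbd, Set.indicator_of_mem hF]; exact ⟨zero_le_one, le_rfl⟩
    · rw [hbd, Set.indicator_of_notMem hF]; exact ⟨le_rfl, zero_le_one⟩
  have iWb : Integrable (fun g => bad (C *ᵥ g) * Wcl N l b t₀ t₀ (C *ᵥ g)) (gau (V (N / l))) := by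
    refine iW.mono' ((mb.comp mC).mul (mW.comp mC)).aestronglyMeasurable
      (Filter.Eventually.of_forall fun g => ?_)
    have h3 := hb01 (C *ᵥ g)
    have h4 : 0 ≤ Wcl N l b t₀ t₀ (C *ᵥ g) := (Real.exp_pos _).le
    rw [Real.norm_eq_abs, abs_of_nonneg (mul_nonneg h3.1 h4)]
    nlinarith
  -- the two integrals modulo constants
  have hcs : ∀ F (c : ℝ), Wcl N l b t₀ t₀ (fun x => F x + c) = Wcl N l b t₀ t₀ F := by
    intro F c
    unfold H363.Wcl
    rw [Rcl_cst hl ht₀]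
  have hcb : ∀ F (c : ℝ), bad (fun x => F x + c) = bad F := by
    intro F c
    have : ((fun x => F x + c) ∈ (Gcl N l b t₀ ηR)ᶜ) ↔ F ∈ (Gcl N l b t₀ ηR)ᶜ := by
      simp only [Set.mem_compl_iff, Gcl, Set.mem_ofPred_eq, Rcl_cst hl ht₀]
    by_cases hF : F ∈ (Gcl N l b t₀ ηR)ᶜ
    · rw [hbd, Set.indicator_of_mem hF, Set.indicator_of_mem (this.2 hF)]
    · rw [hbd, Set.indicator_of_notMem hF, Set.indicator_of_notMem (fun h' => hF (this.1 h'))]
  have hσ0 : 0 ≤ m⁻¹ * (((N / l : ℕ) : ℝ) ^ 2)⁻¹ := by positivity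
  have q1 := H363.inv_int hσ0 hcst mW.stronglyMeasurable hcs iW
  have q2 := H363.inv_int hσ0 hcst (f := fun F => bad F * Wcl N l b t₀ t₀ F)
    (mb.mul mW).stronglyMeasurable (fun F c => by rw [hcb, hcs]) iWb
  -- the neutral law
  set Φ : (V N → ℝ) → ℝ := {J | ηR < Rs (nMC N l b t₀ t₀ 0) J}.indicator fun _ => 1 with hΦ
  have mRs : Measurable fun J : V N → ℝ => Rs (nMC N l b t₀ t₀ 0) J :=
    (H114.continuous_Rs (H963.em_nMC hb.le hl ht₀ (le_refl t₀) 0)).measurable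
  have mΦ : Measurable Φ := measurable_const.indicator (mRs measurableSet_Ioi)
  have hΦb : ∀ F, Φ (srcF N l t₀ t₀ F) = bad F := by
    intro F
    have : srcF N l t₀ t₀ F ∈ {J | ηR < Rs (nMC N l b t₀ t₀ 0) J} ↔
        F ∈ (Gcl N l b t₀ ηR)ᶜ := by
      simp only [Set.mem_compl_iff, Gcl, Set.mem_ofPred_eq, not_le, H896.Rcl_eq]
    by_cases hF : F ∈ (Gcl N l b t₀ ηR)ᶜ
    · rw [hbd, Set.indicator_of_mem hF, hΦ, Set.indicator_of_mem (this.2 hF)]
    · rw [hbd, Set.indicator_of_notMem hF, hΦ, Set.indicator_of_notMem (fun h' => hF (this.1 h'))]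
  have hE := H896.Ech_cell hb.le hl hτ (h1.trans h) (le_refl t₀) hA mΦ
  simp only [hΦb] at hE
  rw [← ms_kap N τ t₀ l, ← hm, ← q1.2, ← q2.2] at hE
  rw [hE] at hbad
  -- the exact law
  have hnu := hy.nu_gauss hC mb
  have hW0 : 0 < ∫ g, Wcl N l b t₀ t₀ (C *ᵥ g) ∂(gau (V (N / l))) := by
    have h5 : (1 : ℝ) ≤ ∫ g, Wcl N l b t₀ t₀ (C *ᵥ g) ∂(gau (V (N / l))) := by
      have := integral_mono (integrable_const (1 : ℝ)) iW
        fun g => one_le_Wcl hb.le hl ht₀ (le_refl t₀) (C *ᵥ g)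
      simpa using this
    linarith
  rw [div_le_iff₀ hW0] at hbad
  unfold dl
  rw [show (fun g : V (N / l) → ℝ => (Gcl N l b t₀ ηR)ᶜ.indicator (fun _ => (1 : ℝ))
    (al τ t₀ l • g)) = fun g => bad (al τ t₀ l • g) from rfl, hnu]
  unfold tE
  have hVint := hy.gint hC
  have hden : (1 / 2 : ℝ) * ∫ g, Wcl N l b t₀ t₀ (C *ᵥ g) ∂(gau (V (N / l))) ≤
      ∫ g, Real.exp (Vt N l b t₀ (C *ᵥ g)) ∂(gau (V (N / l))) := by
    rw [← integral_const_mul]
    refine integral_mono (iW.const_mul _) hVint fun g => ?_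
    have := (hV (C *ᵥ g)).1
    linarith
  have hnum : ∫ g, bad (C *ᵥ g) * Real.exp (Vt N l b t₀ (C *ᵥ g)) ∂(gau (V (N / l))) ≤
      3 / 2 * ∫ g, bad (C *ᵥ g) * Wcl N l b t₀ t₀ (C *ᵥ g) ∂(gau (V (N / l))) := by
    rw [← integral_const_mul]
    refine integral_mono_of_nonneg (Filter.Eventually.of_forall fun g => ?_) (iWb.const_mul _)
      (Filter.Eventually.of_forall fun g => ?_)
    · exact mul_nonneg (hb01 _).1 (Real.exp_pos _).le
    · have h5 := mul_le_mul_of_nonneg_left (hV (C *ᵥ g)).2 (hb01 (C *ᵥ g)).1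
      linarith
  have hdpos : 0 < ∫ g, Real.exp (Vt N l b t₀ (C *ᵥ g)) ∂(gau (V (N / l))) := by
    have : 0 < (1 / 2 : ℝ) * ∫ g, Wcl N l b t₀ t₀ (C *ᵥ g) ∂(gau (V (N / l))) := by positivity
    linarith
  rw [div_le_iff₀ hdpos]
  have hδ0 : 0 ≤ δ := by
    have h6 : 0 ≤ ∫ g, bad (C *ᵥ g) * Wcl N l b t₀ t₀ (C *ᵥ g) ∂(gau (V (N / l))) :=
      integral_nonneg fun g => mul_nonneg (hb01 _).1 (Real.exp_pos _).le
    by_contra hneg
    rw [not_le] at hneg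
    have : δ * ∫ g, Wcl N l b t₀ t₀ (C *ᵥ g) ∂(gau (V (N / l))) < 0 :=
      mul_neg_of_neg_of_pos hneg hW0
    linarith
  nlinarith

end

end Vale.Agent.P159.H462
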