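import Vale.Agent.P159.H462.L1n
import Vale.Agent.P159.H889.Vwin

/-!
P159 (helper462), (L1) part o: **(L1) on the cell torus** (pinned form): from the state at the scalar
mass `t₀` (exact neutral law, pinned `L²` norm of the total deviation) to (L1) in helper114's letters.
-/

set_option linter.unusedSectionVars false
set_option linter.unusedVariables false

namespace Vale.Agent.P159.H462

open Finset MeasureTheory Matrix
open Vale.Agent.P159.TM.H104 (EM Ex Cv K3 Lg li nh Gr)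
open Vale.Agent.P159.H37
open Vale.Agent.P159.H363 (mainf ee Ch lf acl ti_acl Rcl Rcl_nonneg sym_acl_nonneg gm ti_gm pin ti_pin
  sym_pin Wcl one_le_Wcl wm_MC Nf sn sn_pos)
open Vale.Agent.P159.H767 (cst)
open Vale.Agent.P159.TM.Spec (V)
open Vale.Agent.P159.TM.SpecC (Tor wT)
open Vale.Agent.P159.TM.H764 (EE)
open Vale.Agent.P159.H864 (TI sym mlt fc MC cobV)
open Vale.Agent.P159.H730 (wC)
open Vale.Agent.P159.H896 (Ph srcF pinK kap WM om)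
open Vale.Agent.P159.H963 (Pn nMC obsN ntr)
open Vale.Agent.P159.H43 (omT omH Phq)
open Vale.Agent.P159.H145 (LM L0)
open Vale.Agent.P159.H889 (tn2)
open Vale.Agent.P159.H114 (nuP FF XX L1 sA sS mm nuC FC XC lc QD)
open scoped Real ComplexConjugate

noncomputable section

variable {N l : ℕ} [NeZero N] [NeZero (N / l)] {b t₀ t τ : ℝ}

/-- charge one functional of the cell field at scalar mass `t₀` -/
def Phl (N l : ℕ) [NeZero N] [NeZero (N / l)] (b t₀ : ℝ) (F : V (N / l) → ℝ) : ℂ :=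
  Ph (wT b N) (MC N l t₀ t₀) 1 (lf N l F)

lemma measurable_Phl (hb : 0 ≤ b) (hl : l ∣ N) (ht : 0 < t₀) : Measurable (Phl N l b t₀) :=
  ((H363.continuous_Ph (wm_MC hb hl ht (le_refl t₀)) 1).comp H363.continuous_lf).measurable

lemma norm_Phl_le (hb : 0 ≤ b) (hl : l ∣ N) (ht : 0 < t₀) (F : V (N / l) → ℝ) :
    ‖Phl N l b t₀ F‖ ≤ om (wT b N) (MC N l t₀ t₀) 1 :=
  H896.norm_Ph_le (wm_MC hb hl ht (le_refl t₀)) 1 _

lemma lf_add_const (F : V (N / l) → ℝ) (c : ℝ) :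
    lf N l (fun x => F x + c) = fun v => lf N l F v + c := rfl

lemma lf_neg' (F : V (N / l) → ℝ) : lf N l (-F) = -lf N l F := rfl

lemma ch_Phl (hb : 0 ≤ b) (hl : l ∣ N) (ht : 0 < t₀) : Ch (Phl N l b t₀) := by
  intro F c
  unfold Phl
  rw [lf_add_const]
  unfold H896.Ph
  have hw := wm_MC (b := b) hb hl ht (le_refl t₀)
  rw [H896.Zq_shift hw, H896.Zn_shift hw, mul_div_assoc]
  congr 1
  unfold H896.ph
  congr 1
  push_cast
  ring

lemma Phl_neg (hb : 0 ≤ b) (hl : l ∣ N) (ht : 0 < t₀) (F : V (N / l) → ℝ) :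
    Phl N l b t₀ (-F) = conj (Phl N l b t₀ F) := by
  have hw := wm_MC (b := b) hb hl ht (le_refl t₀)
  unfold Phl
  rw [lf_neg', H896.Ph_neg hw]
  exact H43.Phq_neg hw 1 _

/-- the matrix of the main function -/
def Smf (N l : ℕ) [NeZero N] [NeZero (N / l)] (b t₀ : ℝ) : Matrix (V (N / l)) (V (N / l)) ℝ :=
  1 - (t₀ * (l : ℝ) ^ 2)⁻¹ • acl N l b t₀ t₀

lemma ti_Smf (hb : 0 ≤ b) (hl : l ∣ N) (ht : 0 < t₀) : TI (Smf N l b t₀) :=
  TI.one.sub ((ti_acl hb hl ht (le_refl t₀)).smul _)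

lemma sym_Smf_zero (hb : 0 ≤ b) (hl : l ∣ N) (ht : 0 < t₀) : sym (Smf N l b t₀) 0 = 1 := by
  unfold Smf
  rw [H864.sym_sub, H864.sym_smul, H864.sym_one, H363.sym_acl_zero hl hb ht (le_refl t₀)]
  ring

lemma row_Smf (hb : 0 ≤ b) (hl : l ∣ N) (ht : 0 < t₀) (x : V (N / l)) :
    ∑ w, Smf N l b t₀ x w = 1 := by
  rw [H363.row_sum (ti_Smf hb hl ht), sym_Smf_zero hb hl ht]

lemma col_Smf (hb : 0 ≤ b) (hl : l ∣ N) (ht : 0 < t₀) (w : V (N / l)) :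
    ∑ x, Smf N l b t₀ x w = 1 := by
  rw [← row_Smf hb hl ht w]
  refine Finset.sum_congr rfl fun x _ => ?_
  have h := (ti_Smf (N := N) hb hl ht).transpose
  exact congrFun (congrFun h w) x

/-- the total deviation -/
def Dtot (N l : ℕ) [NeZero N] [NeZero (N / l)] (b t₀ : ℝ) (z : ℂ) (F : V (N / l) → ℝ) : ℂ :=
  Phl N l b t₀ F - z * ∑ x, mainf (Smf N l b t₀) x F

lemma measurable_smf (S : Matrix (V (N / l)) (V (N / l)) ℝ) :
    Measurable fun F : V (N / l) → ℝ => ∑ x, mainf S x F :=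
  Finset.measurable_fun_sum _ fun x _ => H363.measurable_mainf S x

lemma norm_smf_le (S : Matrix (V (N / l)) (V (N / l)) ℝ) (F : V (N / l) → ℝ) :
    ‖∑ x, mainf S x F‖ ≤ ∑ x, ∑ w, |S x w| :=
  (norm_sum_le _ _).trans (Finset.sum_le_sum fun x _ => H363.norm_mainf_le S x F)

lemma measurable_Dtot (hb : 0 ≤ b) (hl : l ∣ N) (ht : 0 < t₀) (z : ℂ) :
    Measurable (Dtot N l b t₀ z) :=
  (measurable_Phl hb hl ht).sub ((measurable_smf _).const_mul _)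

lemma norm_Dtot_le (hb : 0 ≤ b) (hl : l ∣ N) (ht : 0 < t₀) (z : ℂ) (F : V (N / l) → ℝ) :
    ‖Dtot N l b t₀ z F‖ ≤ om (wT b N) (MC N l t₀ t₀) 1 +
      ‖z‖ * ∑ x, ∑ w, |Smf N l b t₀ x w| := by
  unfold Dtot
  refine (norm_sub_le _ _).trans (add_le_add (norm_Phl_le hb hl ht F) ?_)
  rw [norm_mul]
  exact mul_le_mul_of_nonneg_left (norm_smf_le _ F) (norm_nonneg _)

lemma ch_Dtot (hb : 0 ≤ b) (hl : l ∣ N) (ht : 0 < t₀) (z : ℂ) : Ch (Dtot N l b t₀ z) := by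
  intro F c
  have h1 := ch_Phl (N := N) hb hl ht F c
  have h2 : ∀ x, Ch (mainf (Smf N l b t₀) x) := fun x =>
    H552.ch_mainf (fun y => row_Smf hb hl ht y) x
  have h3 : ∑ x, mainf (Smf N l b t₀) x (fun y => F y + c) =
      Complex.exp (((2 * π * c : ℝ) : ℂ) * Complex.I) * ∑ x, mainf (Smf N l b t₀) x F := by
    rw [Finset.mul_sum]
    exact Finset.sum_congr rfl fun x _ => h2 x F c
  unfold Dtot
  rw [h1, h3]
  ring

/-- the state at the scalar mass `t₀` -/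
structure St (N l : ℕ) [NeZero N] [NeZero (N / l)] (b t₀ τ : ℝ) (z : ℂ) (ηR δ dT c : ℝ) :
    Prop where
  hb : 0 < b
  hl : l ∣ N
  hτ : 0 < τ
  lt : τ < t₀
  dom : Dom (acl N l b t₀ t₀) (t₀ * (l : ℝ) ^ 2) c
  ho : oT N l b t₀ ≤ 1 / 2
  η0 : 0 ≤ ηR
  η1 : ηR + 2 * oT N l b t₀ ≤ 1
  bad : Ech (nMC N l b t₀ τ 0) 0 (obsN N l (t₀ - τ))
    ({J | ηR < Rs (nMC N l b t₀ t₀ 0) J}.indicator fun _ => 1) ≤ δ
  dev : tn2 (acl N l b t₀ t₀) (Dtot N l b t₀ z) ≤ dT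
  tiny : ms τ t₀ l * (t₀ * (l : ℝ) ^ 2 + ms τ t₀ l) / 2 *
    (((N / l : ℕ) : ℝ) ^ 4 / c ^ 2 + 2 * ((N / l : ℕ) : ℝ) ^ 2 / (t₀ * (l : ℝ) ^ 2) ^ 2) ≤ 1
  z0 : 0 ≤ z.re
  z1 : 2 * z.re * ((N / l : ℕ) : ℝ) ^ 2 ≤ 1

variable {z : ℂ} {ηR δ dT c : ℝ}

lemma St.t₀0 (h : St N l b t₀ τ z ηR δ dT c) : 0 < t₀ := h.hτ.trans h.lt

/-- the square of the deviation of the total functional -/
def DvB (N l : ℕ) [NeZero N] [NeZero (N / l)] (b t₀ ηR dT : ℝ) : ℝ :=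
  4 * ηR ^ 2 + 4 * (omH (wT b N) (MC N l t₀ t₀) + 2 * oT N l b t₀ ^ 2) ^ 2 + 288 * dT ^ 2

theorem St.Dv_le (h : St N l b t₀ τ z ηR δ dT c) (h1 : τ < t) (h2 : t < t₀) :
    Dv (wC N l b t₀ τ) (cobV N l) τ t₀ l (Vt N l b t₀) (Smf N l b t₀) z.re (Gcl N l b t₀ ηR) ≤
      DvB N l b t₀ ηR dT := by
  have hb := h.hb
  have hl := h.hl
  have ht₀ := h.t₀0
  have mG := meas_Gcl (N := N) hb.le hl ht₀ ηR
  have hy := hy_tor (G := Gcl N l b t₀ ηR) hb hl h.hτ h1 h2 mG (fun F hF => hF) h.ho h.η0 h.η1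
  have hms : 0 < ms τ t₀ l := hy.lw.ms_pos
  have hA1 := ti_acl (N := N) hb.le hl ht₀ (le_refl t₀)
  have hn := sym_acl_nonneg (N := N) hb.le hl ht₀ (le_refl t₀)
  have hC := cm_mul hA1 hn hms
  set m := ms τ t₀ l with hm
  set A := acl N l b t₀ t₀ with hAd
  set S := Smf N l b t₀ with hSd
  have hnp : (0 : ℝ) < ((N / l : ℕ) : ℝ) := by exact_mod_cast NeZero.pos (N / l)
  set κ : ℝ := (((N / l : ℕ) : ℝ) ^ 2)⁻¹ with hκ
  have hκ0 : 0 < κ := by positivity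
  have hcard : (Fintype.card (V (N / l)) : ℝ) = ((N / l : ℕ) : ℝ) ^ 2 := by
    rw [card_Vn]
    push_cast
    ring
  have hcκ : (Fintype.card (V (N / l)) : ℝ) * κ = 1 := by
    rw [hcard, hκ, mul_inv_cancel₀ (by positivity)]
  set Kd : ℝ := om (wT b N) (MC N l t₀ t₀) 1 + ‖z‖ * ∑ x, ∑ w, |S x w| with hKd
  have mDt := measurable_Dtot (N := N) hb.le hl ht₀ z
  have bDt := norm_Dtot_le (N := N) hb.le hl ht₀ z
  have hdT : 0 ≤ dT := (H889.tn2_nonneg A _).trans h.dev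
  have key := hy.Dv_leC hC (S := S) (fun w => col_Smf hb.le hl ht₀ w) (z := z)
    (R := Rcl N l b t₀ t₀)
    (e := fun F => LM (wT b N) (MC N l t₀ t₀) (lf N l F) - L0 (wT b N) (MC N l t₀ t₀) (lf N l F))
    (Φ := Phl N l b t₀) (Ψ := Phl N l b t₀)
    (ψ := fun x F => z * mainf S x F + (κ : ℂ) * Dtot N l b t₀ z F)
    (ηR := ηR) (ε₂ := omH (wT b N) (MC N l t₀ t₀) + 2 * oT N l b t₀ ^ 2) (ηE := 0)
    (d := κ * (√3 * dT)) (b := ‖z‖ * (∑ x, ∑ w, |S x w|) + κ * Kd)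
    (fun F hF => ?_) (fun F => Phl_neg hb.le hl ht₀ F) (fun F => rfl) (fun F hF => ?_)
    (fun F _ => ?_) (fun F _ => ?_) (fun F => ?_) (fun x => ?_) (fun x F => ?_) ?_ (fun x => ?_)
  · refine key.trans (le_of_eq ?_)
    unfold DvB
    have e1 : (Fintype.card (V (N / l)) : ℝ) * (κ * (√3 * dT)) = √3 * dT := by
      rw [← mul_assoc, hcκ, one_mul]
    rw [e1, mul_pow, Real.sq_sqrt (by norm_num)]
    ring
  · show Rcl N l b t₀ t₀ (-F) ≤ ηR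
    rw [Rcl_neg hb.le hl ht₀]
    exact hF
  · rw [abs_of_nonneg (Rcl_nonneg hb.le hl ht₀ (le_refl t₀) F)]
    exact hF
  · exact H43.el_sub_le (wm_MC hb.le hl ht₀ (le_refl t₀)) h.ho (lf N l F)
  · rw [sub_self, norm_zero]
  · rw [Finset.sum_add_distrib, ← Finset.mul_sum, Finset.sum_const, Finset.card_univ, nsmul_eq_mul,
      ← mul_assoc]
    have e2 : ((Fintype.card (V (N / l)) : ℕ) : ℂ) * (κ : ℂ) = 1 := by exact_mod_cast hcκ
    rw [e2, one_mul]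
    unfold Dtot
    ring
  · exact ((H363.measurable_mainf S x).const_mul _).add (mDt.const_mul _)
  · refine (norm_add_le _ _).trans (add_le_add ?_ ?_)
    · rw [norm_mul]
      refine mul_le_mul_of_nonneg_left ?_ (norm_nonneg _)
      exact (H363.norm_mainf_le S x F).trans (Finset.single_le_sum
        (f := fun x => ∑ w, |S x w|) (fun i _ => Finset.sum_nonneg fun _ _ => abs_nonneg _)
        (Finset.mem_univ x))
    · rw [norm_mul, Complex.norm_real, Real.norm_eq_abs, abs_of_pos hκ0]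
      exact mul_le_mul_of_nonneg_left (bDt F) hκ0.le
  · positivity
  · have e3 : ∀ g : V (N / l) → ℝ, ‖z * mainf S x (cm m A *ᵥ g) +
        (κ : ℂ) * Dtot N l b t₀ z (cm m A *ᵥ g) - z * mainf S x (cm m A *ᵥ g)‖ ^ 2 =
        κ ^ 2 * ‖Dtot N l b t₀ z (cm m A *ᵥ g)‖ ^ 2 := by
      intro g
      rw [add_sub_cancel_left, norm_mul, Complex.norm_real, Real.norm_eq_abs, abs_of_pos hκ0,
        mul_pow]
    simp only [e3]
    rw [integral_const_mul, mul_pow κ]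
    refine mul_le_mul_of_nonneg_left ?_ (sq_nonneg _)
    have h5 := law_tiny h.dom hms (ch_Dtot (N := N) hb.le hl ht₀ z) mDt bDt
    rw [← H889.tn2_sq mDt bDt A] at h5
    have h6 : Real.exp (m * (t₀ * (l : ℝ) ^ 2 + m) / 2 * (((N / l : ℕ) : ℝ) ^ 4 / c ^ 2 +
        2 * ((N / l : ℕ) : ℝ) ^ 2 / (t₀ * (l : ℝ) ^ 2) ^ 2)) ≤ 3 := by
      have h7 := Real.exp_le_exp.2 h.tiny
      have h8 := Real.exp_one_lt_d9
      linarith
    have h9 : tn2 A (Dtot N l b t₀ z) ^ 2 ≤ dT ^ 2 :=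
      pow_le_pow_left₀ (H889.tn2_nonneg A _) h.dev 2
    calc _ ≤ _ := h5
      _ ≤ 3 * dT ^ 2 := mul_le_mul h6 h9 (sq_nonneg _) (by norm_num)
      _ = (√3 * dT) ^ 2 := by rw [mul_pow, Real.sq_sqrt (by norm_num)]

/-- the square of the error of (L1), normalised -/
def e2L (t τ η β D δ : ℝ) : ℝ :=
  864 * (t / τ) * √(3 * δ) + 12 * (4 * η ^ 4 + 48 * β ^ 2 * η ^ 2 + 48 * D + 720 * δ)

lemma E2_le {η β D δ : ℝ} {l' : ℝ} (hl : 0 < l') (hτ : 0 < τ) (ht : 0 < t) (h : 2 * t ≤ t₀)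
    {σ : ℝ} (hσ : σ ^ 2 = (t₀ - t) / (t₀ * t * l' ^ 2)) (hD0 : 0 ≤ D) {δ' : ℝ} (hδ0 : 0 ≤ δ')
    (hδ : δ' ≤ 3 * δ) :
    E2 τ l' σ η β D δ' ≤ e2L t τ η β D δ * (t * l' ^ 2) := by
  have ht₀ : 0 < t₀ := by linarith
  have h1 : 0 < t₀ - t := by linarith
  have h2 : (σ ^ 2)⁻¹ = t₀ * t * l' ^ 2 / (t₀ - t) := by rw [hσ, inv_div]
  have h3 : (σ ^ 2)⁻¹ ≤ 2 * (t * l' ^ 2) := by
    rw [h2, div_le_iff₀ h1]
    have : 0 < t * l' ^ 2 := by positivity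
    nlinarith
  have h4 : 0 ≤ (σ ^ 2)⁻¹ := by positivity
  have h5 : ((σ ^ 2)⁻¹) ^ 2 ≤ (2 * (t * l' ^ 2)) ^ 2 := pow_le_pow_left₀ h4 h3 2
  have h6 : √δ' ≤ √(3 * δ) := Real.sqrt_le_sqrt hδ
  unfold E2 e2L
  have h7 : 24 * ((σ ^ 2)⁻¹) ^ 2 * (9 / (τ * l' ^ 2)) * √δ' ≤
      24 * (2 * (t * l' ^ 2)) ^ 2 * (9 / (τ * l' ^ 2)) * √(3 * δ) := by
    refine mul_le_mul ?_ h6 (Real.sqrt_nonneg _) (by positivity)
    refine mul_le_mul_of_nonneg_right ?_ (by positivity)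
    exact mul_le_mul_of_nonneg_left h5 (by norm_num)
  have h8 : 24 * (2 * (t * l' ^ 2)) ^ 2 * (9 / (τ * l' ^ 2)) * √(3 * δ) =
      864 * (t / τ) * √(3 * δ) * (t * l' ^ 2) := by
    field_simp
    ring
  have h9 : 6 * (σ ^ 2)⁻¹ * (4 * η ^ 4 + 48 * β ^ 2 * η ^ 2 + 48 * D + 240 * δ') ≤
      6 * (2 * (t * l' ^ 2)) * (4 * η ^ 4 + 48 * β ^ 2 * η ^ 2 + 48 * D + 720 * δ) := by
    refine mul_le_mul (mul_le_mul_of_nonneg_left h3 (by norm_num)) (by linarith) (by positivity)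
      (by positivity)
  rw [h8] at h7
  linarith

/-- (L1) on the cell torus, normalised, pinned form -/
structure LPin (N l : ℕ) [NeZero N] [NeZero (N / l)] (b t0 t τ : ℝ) (P : V (N / l) → ℝ)
    (c0 y e : ℝ) : Prop where
  hb : 0 < b
  hl : l ∣ N
  hτ : 0 < τ
  hτt : 2 * τ ≤ t
  htt : t ≤ t0
  qd : QD (N / l) P c0 (t * l ^ 2) (τ * l ^ 2)
  hc01 : c0 ≤ 1
  hy : 0 ≤ y
  he : 0 ≤ e
  L : L1 (nuC N l b t0 t τ) (FC N l t τ) (XC N l b t0 t τ) (mlt (sA P (t * l ^ 2)))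
    (mlt (sS P (t * l ^ 2))) (y * (t * l ^ 2)) (e * (Real.sqrt t * l))

/-- variance of the smoothed field between the masses `t₀` and `t` -/
def vsm (N l : ℕ) [NeZero N] [NeZero (N / l)] (b t₀ t : ℝ) : ℝ :=
  ∑ i, ((Smf N l b t₀ * gm (sgm l t₀ t ^ 2) (acl N l b t₀ t₀)) 0 i) ^ 2

/-- the letter `y` at level `t` -/
def ysm (N l : ℕ) [NeZero N] [NeZero (N / l)] (b t₀ t : ℝ) (z : ℂ) : ℝ :=
  z.re * Real.exp (-(2 * π ^ 2 * vsm N l b t₀ t)) / (t * (l : ℝ) ^ 2)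

lemma L1_mono {Ω ι : Type*} [MeasurableSpace Ω] [Fintype ι] [DecidableEq ι] {ν : Measure Ω}
    {F X : ι → Ω → ℝ} {A S : Matrix ι ι ℝ} {z' η' η'' : ℝ} (h : L1 ν F X A S z' η')
    (h0 : η' ^ 2 ≤ η'' ^ 2) : L1 ν F X A S z' η'' := fun c =>
  (h c).trans (mul_le_mul_of_nonneg_right h0 (Finset.sum_nonneg fun _ _ => sq_nonneg _))

/-- **(L1) on the cell torus from the state at the scalar mass `t₀`** -/
theorem St.lpin (h : St N l b t₀ τ z ηR δ dT c) (h1 : 2 * τ ≤ t) (h2 : 2 * t ≤ t₀) {c0 : ℝ}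
    (hc0 : 0 < c0) (hc01 : c0 ≤ 1) (hP : ∀ k, c0 * EE k ≤ Pst N l b t₀ k) :
    LPin N l b t₀ t τ (Pst N l b t₀) c0 (ysm N l b t₀ t z)
      (√(e2L t τ (ηR + 2 * oT N l b t₀) (2 * z.re * ((N / l : ℕ) : ℝ) ^ 2)
        (DvB N l b t₀ ηR dT) δ)) := by
  have hb := h.hb
  have hl := h.hl
  have hτ := h.hτ
  have ht₀ := h.t₀0
  have ht : 0 < t := by linarith
  have hτt : τ < t := by linarith
  have htt : t < t₀ := by linarith
  have hlp : (0 : ℝ) < l := by exact_mod_cast H864.l_pos hl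
  have mG := meas_Gcl (N := N) hb.le hl ht₀ ηR
  have hy := hy_tor (G := Gcl N l b t₀ ηR) hb hl hτ hτt htt mG (fun F hF => hF) h.ho h.η0 h.η1
  have hA1 := ti_acl (N := N) hb.le hl ht₀ (le_refl t₀)
  have hn := sym_acl_nonneg (N := N) hb.le hl ht₀ (le_refl t₀)
  have hcard : (Fintype.card (V (N / l)) : ℝ) = ((N / l : ℕ) : ℝ) ^ 2 := by
    rw [card_Vn]
    push_cast
    ring
  have hgm := gm_sq hA1 hn (s := sgm l t₀ t ^ 2) (sq_nonneg _)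
  have hTS : TI (Smf N l b t₀ * gm (sgm l t₀ t ^ 2) (acl N l b t₀ t₀)) :=
    (ti_Smf hb.le hl ht₀).mul (ti_gm _ _)
  have hv : ∀ w, ∑ i, ((Smf N l b t₀ * gm (sgm l t₀ t ^ 2) (acl N l b t₀ t₀)) w i) ^ 2 =
      vsm N l b t₀ t := by
    intro w
    unfold vsm
    rw [← Equiv.sum_comp (Equiv.addRight w)]
    refine Finset.sum_congr rfl fun i _ => ?_
    rw [Equiv.coe_addRight]
    have h3 := hTS.tr w 0 i
    rw [zero_add] at h3
    rw [h3]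
  have hz : 2 * |z.re| * (Fintype.card (V (N / l)) : ℝ) ≤ 1 := by
    rw [abs_of_nonneg h.z0, hcard]
    exact h.z1
  have key := l1_chan hy hgm (Smf N l b t₀) hv hz
  have hdl := dl_le hb hl hτ hτt htt h.ho h.η0 h.η1 (H363.Nf.of_dom h.dom) h.bad
  have hdl0 : 0 ≤ dl (wC N l b t₀ τ) (cobV N l) τ t₀ l (Gcl N l b t₀ ηR) :=
    integral_nonneg fun g => Set.indicator_nonneg (fun _ _ => zero_le_one) _
  have hDv := h.Dv_le hτt htt
  have hDv0 : 0 ≤ Dv (wC N l b t₀ τ) (cobV N l) τ t₀ l (Vt N l b t₀) (Smf N l b t₀) z.re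
      (Gcl N l b t₀ ηR) :=
    integral_nonneg fun g => Set.indicator_nonneg (fun _ _ => sq_nonneg _) _
  have hE := E2_le (t₀ := t₀) (η := ηR + 2 * oT N l b t₀) (β := 2 * z.re * ((N / l : ℕ) : ℝ) ^ 2)
    hlp hτ ht h2
    (lv_tor (N := N) hl ht htt).hσ hDv0 hdl0 hdl
  have hE' : e2L t τ (ηR + 2 * oT N l b t₀) (2 * z.re * ((N / l : ℕ) : ℝ) ^ 2)
      (Dv (wC N l b t₀ τ) (cobV N l) τ t₀ l (Vt N l b t₀) (Smf N l b t₀) z.re
      (Gcl N l b t₀ ηR)) δ ≤ e2L t τ (ηR + 2 * oT N l b t₀) (2 * z.re * ((N / l : ℕ) : ℝ) ^ 2)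
        (DvB N l b t₀ ηR dT) δ := by
    unfold e2L
    linarith
  refine ⟨hb, hl, hτ, h1, htt.le, ⟨fun k => Pst_neg hb hl ht₀ k, hc0, hP, by positivity,
    mul_lt_mul_of_pos_right hτt (by positivity)⟩, hc01, ?_, Real.sqrt_nonneg _, ?_⟩
  · unfold ysm
    have := h.z0
    positivity
  · have e1 : mm (t * (l : ℝ) ^ 2) (τ * (l : ℝ) ^ 2) = ms τ t l := by
      unfold H114.mm ms
      have h5 : t - τ ≠ 0 := (sub_pos.2 hτt).ne'
      have h6 : t * (l : ℝ) ^ 2 - τ * (l : ℝ) ^ 2 = (t - τ) * l ^ 2 := by ring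
      rw [h6]
      field_simp
    have e2 : ysm N l b t₀ t z * (t * (l : ℝ) ^ 2) =
        z.re * Real.exp (-(2 * π ^ 2 * vsm N l b t₀ t)) := by
      unfold ysm
      rw [div_mul_cancel₀ _ (by positivity)]
    rw [mat_A hb hl ht htt] at key
    unfold Smf at key
    rw [mat_S hb hl ht htt] at key
    unfold nuC FC XC
    rw [e1, e2]
    refine L1_mono key ?_
    rw [mul_pow, mul_pow, Real.sq_sqrt ht.le]
    rw [hcard, abs_of_nonneg h.z0]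
    have h7 : 0 ≤ e2L t τ (ηR + 2 * oT N l b t₀) (2 * z.re * ((N / l : ℕ) : ℝ) ^ 2)
        (DvB N l b t₀ ηR dT) δ := by
      have := hdl0.trans hdl
      unfold e2L DvB
      have h8 : 0 ≤ δ := by linarith
      positivity
    rw [Real.sq_sqrt h7]
    have h9 : E2 τ (l : ℝ) (sgm l t₀ t) (ηR + 2 * oT N l b t₀)
        (2 * z.re * ((N / l : ℕ) : ℝ) ^ 2)
        (Dv (wC N l b t₀ τ) (cobV N l) τ t₀ l (Vt N l b t₀) (Smf N l b t₀) z.re
          (Gcl N l b t₀ ηR)) (dl (wC N l b t₀ τ) (cobV N l) τ t₀ l (Gcl N l b t₀ ηR)) ≤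
        e2L t τ (ηR + 2 * oT N l b t₀) (2 * z.re * ((N / l : ℕ) : ℝ) ^ 2)
        (DvB N l b t₀ ηR dT) δ * (t * (l : ℝ) ^ 2) :=
      hE.trans (mul_le_mul_of_nonneg_right hE' (by positivity))
    have h10 : 0 ≤ E2 τ (l : ℝ) (sgm l t₀ t) (ηR + 2 * oT N l b t₀)
        (2 * z.re * ((N / l : ℕ) : ℝ) ^ 2)
        (Dv (wC N l b t₀ τ) (cobV N l) τ t₀ l (Vt N l b t₀) (Smf N l b t₀) z.re
          (Gcl N l b t₀ ηR)) (dl (wC N l b t₀ τ) (cobV N l) τ t₀ l (Gcl N l b t₀ ηR)) := by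
      unfold E2
      positivity
    unfold Smf at h9 h10
    rw [Real.sq_sqrt h10]
    exact h9

/-- the total deviation from the densities of the charged state -/
theorem dev_of_den (hb : 0 ≤ b) (hl : l ∣ N) (ht : 0 < t₀) {z : ℂ} {d e : ℝ}
    {ψ : V (N / l) → (V (N / l) → ℝ) → ℂ} {Ψ : (V (N / l) → ℝ) → ℂ}
    (hψ : H889.Den (acl N l b t₀ t₀) (t₀ * (l : ℝ) ^ 2) z d ψ) (hΨ : ∀ F, Ψ F = ∑ x, ψ x F)
    (he : tn2 (acl N l b t₀ t₀) (fun F => Phl N l b t₀ F - Ψ F) ≤ e) :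
    tn2 (acl N l b t₀ t₀) (Dtot N l b t₀ z) ≤ e + ((N / l : ℕ) : ℝ) ^ 2 * d := by
  set A := acl N l b t₀ t₀ with hA
  set S := Smf N l b t₀ with hS
  obtain ⟨K, hK⟩ := hψ.bd
  have mΨ : Measurable Ψ := by
    rw [show Ψ = fun F => ∑ x, ψ x F from funext hΨ]
    exact Finset.measurable_fun_sum _ fun x _ => hψ.m x
  have bΨ : ∀ F, ‖Ψ F‖ ≤ ∑ _x : V (N / l), K := fun F => by
    rw [hΨ F]
    exact (norm_sum_le _ _).trans (Finset.sum_le_sum fun x _ => hK x F)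
  have m1 : MemLp (fun g => Phl N l b t₀ (pin A *ᵥ g) - Ψ (pin A *ᵥ g)) 2 (gau (V (N / l))) :=
    H889.memLp_tn ((measurable_Phl hb hl ht).sub mΨ)
      (K := om (wT b N) (MC N l t₀ t₀) 1 + ∑ _x : V (N / l), K)
      (fun F => (norm_sub_le _ _).trans (add_le_add (norm_Phl_le hb hl ht F) (bΨ F))) A
  have m2' : ∀ x, MemLp (fun g => ψ x (pin A *ᵥ g) - z * mainf S x (pin A *ᵥ g)) 2
      (gau (V (N / l))) := fun x =>
    H889.memLp_tn (K := K + ‖z‖ * ∑ y, ∑ w, |S y w|) ((hψ.m x).sub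
      ((H363.measurable_mainf S x).const_mul _)) (fun F => by
        refine (norm_sub_le _ _).trans (add_le_add (hK x F) ?_)
        rw [norm_mul]
        exact mul_le_mul_of_nonneg_left (H889.norm_mainf_bdd S x F) (norm_nonneg _)) A
  have e1 : ∀ g, Dtot N l b t₀ z (pin A *ᵥ g) = (Phl N l b t₀ (pin A *ᵥ g) - Ψ (pin A *ᵥ g)) +
      ∑ x, (ψ x (pin A *ᵥ g) - z * mainf S x (pin A *ᵥ g)) := by
    intro g
    unfold Dtot
    rw [Finset.sum_sub_distrib, ← Finset.mul_sum, ← hΨ]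
    ring
  unfold H889.tn2
  rw [H363.n2_congr e1]
  refine (H363.n2_add_le m1 (H363.memLp_sum _ fun x _ => m2' x)).trans (add_le_add he ?_)
  refine (H363.n2_sum_le _ fun x _ => m2' x).trans ?_
  refine (Finset.sum_le_sum fun x _ => hψ.dev x).trans (le_of_eq ?_)
  rw [Finset.sum_const, Finset.card_univ, nsmul_eq_mul, card_Vn]
  push_cast
  ring

end

end Vale.Agent.P159.H462
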