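import Vale.Agent.P159.H462.P2a

/-!
P159 (helper462), P#2 part b: if the posterior mean of `⟨a,h⟩` is `linear + r + Y` along the channel
and `r` is nearly orthogonal to the linear functionals, then the variance of the nonlinear part `nlin`
of the posterior mean is `|r|²` up to `2 |r| |Y| + 3 |Y|² + 2 δ² |r|²`.
-/

set_option linter.unusedSectionVars false

namespace Vale.Agent.P159.H462

open Finset Matrix MeasureTheory
open Vale.Agent.P159.TM.H104 (EM Ex Cv K3 Lg li nh Gr)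
open Vale.Agent.P159.H37
open Vale.Agent.P159.H663 (ChI)
open Vale.Agent.P159.H114 (LM nlin nc Gc Lw lm_Lw nlin_orth)

noncomputable section

variable {V : Type*} [Fintype V] {I : Type*} [Fintype I]
variable {μ' : (V → ℤ) → ℝ} {P : Matrix I V ℝ} {L : Matrix V V ℝ}

/-- the nonlinear part of a posterior mean is in `L²` -/
lemma memLp_nlin (hμ : EM μ') (P : Matrix I V ℝ) (L : Matrix V V ℝ) (a : V → ℝ) :
    MemLp (fun g => nlin (post μ' P) L a (0 + Pᵀ *ᵥ g)) 2 (chm μ' 0 P) := by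
  have h1 := memLp_Ex hμ 0 P (Gr.li a)
  have h2 := memLp_dot hμ 0 P (L *ᵥ a)
  refine (h1.sub h2).congr_norm ?_ ?_
  · have hc : Continuous fun J : V → ℝ => nlin (post μ' P) L a J := by
      unfold nlin
      exact (TM.H104.continuous_Ex (em_post hμ P) (Gr.li a)).sub (by fun_prop)
    exact (hc.measurable.comp (measurable_obs 0 P)).aestronglyMeasurable
  · refine Filter.Eventually.of_forall fun g => ?_
    rfl

/-- **P#2, abstract**: closeness of the posterior mean gives the variance of its nonlinear part. -/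
theorem nlin_close (hμ : EM μ') (he : Ev μ') (hL : LM μ' P L) (a : V → ℝ)
    {r Y : (I → ℝ) → ℝ} {b : V → ℝ}
    (hdec : ∀ g, Ex (post μ' P) (0 + Pᵀ *ᵥ g) (li a) = b ⬝ᵥ (0 + Pᵀ *ᵥ g) + r g + Y g)
    (hr : MemLp r 2 (chm μ' 0 P)) (hY : MemLp Y 2 (chm μ' 0 P)) {δ : ℝ} (hδ : 0 ≤ δ)
    (hnear : ∀ b' : V → ℝ, |∫ g, r g * (b' ⬝ᵥ (0 + Pᵀ *ᵥ g)) ∂(chm μ' 0 P)| ≤
      δ * nr (chm μ' 0 P) r * nr (chm μ' 0 P) fun g => b' ⬝ᵥ (0 + Pᵀ *ᵥ g)) :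
    |Ech μ' 0 P (fun J => nlin (post μ' P) L a J * nlin (post μ' P) L a J) -
        nr (chm μ' 0 P) r ^ 2| ≤
      2 * nr (chm μ' 0 P) r * nr (chm μ' 0 P) Y + 3 * nr (chm μ' 0 P) Y ^ 2 +
        2 * δ ^ 2 * nr (chm μ' 0 P) r ^ 2 := by
  set ρ := chm μ' 0 P with hρ
  set n : (I → ℝ) → ℝ := fun g => nlin (post μ' P) L a (0 + Pᵀ *ᵥ g) with hn
  set q : (I → ℝ) → ℝ := fun g => (b - L *ᵥ a) ⬝ᵥ (0 + Pᵀ *ᵥ g) with hq
  have hq2 : MemLp q 2 ρ := memLp_dot hμ 0 P _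
  have h1 : n = fun g => r g + q g + Y g := by
    funext g
    simp only [hn, hq]
    unfold nlin
    rw [hdec g, sub_dotProduct]
    have : (∑ x, (L *ᵥ a) x * (0 + Pᵀ *ᵥ g) x) = (L *ᵥ a) ⬝ᵥ (0 + Pᵀ *ᵥ g) := rfl
    rw [this]
    ring
  have h2 : ∫ g, n g * q g ∂ρ = 0 := by
    have h3 := nlin_orth hμ he hL a (b - L *ᵥ a)
    rw [Ech_chm hμ] at h3
    exact h3
  have h3 : Ech μ' 0 P (fun J => nlin (post μ' P) L a J * nlin (post μ' P) L a J) =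
      ∫ g, n g ^ 2 ∂ρ := by
    rw [Ech_chm hμ]
    refine integral_congr_ae (Filter.Eventually.of_forall fun g => ?_)
    simp only [hn]
    ring
  have h4 := l2_core hr hq2 hY h1 h2 hδ (hnear _)
  rw [h3, nr_sq r]
  rw [nr_sq r] at h4
  exact h4

variable [DecidableEq I]

/-- **P#2, abstract, at cell level** -/
theorem nc_close {Q : Matrix I V ℝ} {p : ℝ} {K : Matrix I I ℝ} (hμ : EM μ') (he : Ev μ')
    (hp : 0 ≤ p) (hKt : Kᵀ = K) (hK : K * (1 + p • Gc μ' Q) = 1) (u : I → ℝ)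
    {r Y : (I → ℝ) → ℝ} {b : V → ℝ}
    (hdec : ∀ g, Ex (post μ' (Real.sqrt p • Q)) (0 + (Real.sqrt p • Q)ᵀ *ᵥ g) (li (Qᵀ *ᵥ u)) =
      b ⬝ᵥ (0 + (Real.sqrt p • Q)ᵀ *ᵥ g) + r g + Y g)
    (hr : MemLp r 2 (chm μ' 0 (Real.sqrt p • Q))) (hY : MemLp Y 2 (chm μ' 0 (Real.sqrt p • Q)))
    {δ : ℝ} (hδ : 0 ≤ δ)
    (hnear : ∀ b' : V → ℝ, |∫ g, r g * (b' ⬝ᵥ (0 + (Real.sqrt p • Q)ᵀ *ᵥ g))
        ∂(chm μ' 0 (Real.sqrt p • Q))| ≤
      δ * nr (chm μ' 0 (Real.sqrt p • Q)) r *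
        nr (chm μ' 0 (Real.sqrt p • Q)) fun g => b' ⬝ᵥ (0 + (Real.sqrt p • Q)ᵀ *ᵥ g)) :
    |Ech μ' 0 (Real.sqrt p • Q) (fun J => nc μ' Q p K u J * nc μ' Q p K u J) -
        nr (chm μ' 0 (Real.sqrt p • Q)) r ^ 2| ≤
      2 * nr (chm μ' 0 (Real.sqrt p • Q)) r * nr (chm μ' 0 (Real.sqrt p • Q)) Y +
        3 * nr (chm μ' 0 (Real.sqrt p • Q)) Y ^ 2 +
        2 * δ ^ 2 * nr (chm μ' 0 (Real.sqrt p • Q)) r ^ 2 :=
  nlin_close hμ he (lm_Lw hp hKt hK) (Qᵀ *ᵥ u) hdec hr hY hδ hnear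

end

end Vale.Agent.P159.H462
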