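import Vale.Agent.P159.H462.Q2

/-!
P159 (helper462), P#, the letters at prior mass (law `pinK A κ`).

* `qK_hat` : `Σ_z qK z cN(dt k z) = a(k) - (a(k) + κ) mh (pinK A κ) V0l k`;
* `sum_qK` : `Σ_z qK z = 0`;
* `tendsto_qK`, `tendsto_aK` : the limit `κ → 0` is `qz`, `aq`.
-/

set_option linter.unusedSectionVars false
set_option linter.unusedVariables false

namespace Vale.Agent.P159.H462

open Finset MeasureTheory Matrix
open Vale.Agent.P159.TM.H104 (EM Ex Cv K3 Lg li nh Gr)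
open Vale.Agent.P159.H37
open Vale.Agent.P159.H896 (Ph WM om ph pinK kap)
open Vale.Agent.P159.H43 (omT omH Phq Wq dW dL dL0 el el1)
open Vale.Agent.P159.H145 (LM L0 cs OscZ)
open Vale.Agent.P159.H363 (mainf ee Ch lf acl ti_acl Rcl Rcl_nonneg sym_acl_nonneg gm ti_gm pin ti_pin
  sym_pin Wcl one_le_Wcl wm_MC Nf sh sh_eq sh_mulVec gau_permE)
open Vale.Agent.P159.H552 (lft idc)
open Vale.Agent.P159.H159 (GT egr_Ex egr_Lg egr_bf egr_qf egr_sum egr_coord egr_lin gt_wM)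
open Vale.Agent.P159.TM.Spec (V)
open Vale.Agent.P159.TM.SpecC (Tor wT)
open Vale.Agent.P159.TM.H764 (EE cN sN dt)
open Vale.Agent.P159.H864 (TI sym mlt fc MC cobV cl CT up tra)
open Vale.Agent.P159.H963 (PinC Pn)
open Filter Topology
open scoped Real ComplexConjugate

noncomputable section

/-! ### the form of a mode -/

section bk

variable {n : ℕ} [NeZero n] {A : Matrix (V n) (V n) ℝ}

lemma Bk_mul (hA : TI A) (k : V n) : Bk k * A = sym A k • Bk k := by
  ext x z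
  rw [mul_apply, Matrix.smul_apply, smul_eq_mul, ← Equiv.sum_comp (Equiv.addRight x)]
  have e1 : ∀ y : V n, Bk k x (Equiv.addRight x y) * A (Equiv.addRight x y) z =
      ((n : ℝ) ^ 2)⁻¹ * (A (z - x) y * cN (dt k y)) := by
    intro y
    simp only [Equiv.coe_addRight]
    unfold Bk
    rw [of_apply, add_sub_cancel_right]
    have h := hA.tr x y (z - x)
    rw [sub_add_cancel] at h
    rw [h, hA.sy y (z - x)]
    ring
  rw [Finset.sum_congr rfl fun y _ => e1 y, ← Finset.mul_sum]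
  have h2 := congrFun (hA.mulVec_cN k) (z - x)
  simp only [mulVec, dotProduct, Pi.smul_apply, smul_eq_mul] at h2
  rw [h2]
  unfold Bk
  rw [of_apply]
  ring

end bk

section kernel

variable {N l : ℕ} [NeZero N] [NeZero (N / l)] {b T κ : ℝ}

/-- the kernel in the law `pinK A κ` -/
def qK (N l : ℕ) [NeZero N] [NeZero (N / l)] (b T κ : ℝ) (z : V (N / l)) : ℝ :=
  -∫ g, Mx N l b T 0 (pinK (acl N l b T T) κ *ᵥ g) *
    ((acl N l b T T + κ • (Pn : Matrix (V (N / l)) (V (N / l)) ℝ)) *ᵥ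
      (pinK (acl N l b T T) κ *ᵥ g)) z ∂(gau (V (N / l)))

/-- half of the second moment of `-qK` -/
def aK (N l : ℕ) [NeZero N] [NeZero (N / l)] (b T κ : ℝ) : ℝ :=
  -(1 / 2) * ∑ z : V (N / l), (z.1.valMinAbs : ℝ) ^ 2 * qK N l b T κ z

lemma qK_zero (z : V (N / l)) : qK N l b T 0 z = qz N l b T z := by
  unfold qK qz H896.pinK
  simp only [zero_smul, add_zero]

lemma aK_zero : aK N l b T 0 = aq N l b T := by
  unfold aK aq
  simp only [qK_zero]

/-- **the transform of the kernel `qK`** : exact identity -/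
theorem qK_hat (hb : 0 ≤ b) (hl : l ∣ N) (hT : 0 < T) (hN : Nf (acl N l b T T)) (hκ : 0 ≤ κ)
    {k : V (N / l)} (hk : k ≠ 0) :
    ∑ z, qK N l b T κ z * cN (dt k z) = sym (acl N l b T T) k -
      (sym (acl N l b T T) k + κ) * mh (pinK (acl N l b T T) κ) (V0l N l b T) k := by
  set A := acl N l b T T with hA
  set A' := A + κ • (Pn : Matrix (V (N / l)) (V (N / l)) ℝ) with hA'
  set C := pinK A κ with hC
  have hCd : C = pin A' := rfl
  have hN' : Nf A' := H896.nf_add hN hκ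
  have hAt : TI A := ti_acl hb hl hT (le_refl T)
  have hAt' : TI A' := hN'.ti
  have hCt : TI C := ti_pin A'
  have hs : sym A' k = sym A k + κ := by
    rw [hA', H864.sym_add, H864.sym_smul, H963.sym_Pn, if_neg hk, mul_one]
  have h0 : ∀ k, 0 ≤ sym A' k := fun k => hN'.nn k
  have hp : ∀ k, k ≠ 0 → 0 < sym A' k := hN'.pos
  have hpk : 0 < sym A k + κ := by rw [← hs]; exact hp k hk
  have hB := ti_Bk k
  have i1 : ∀ z, Integrable (fun g : V (N / l) → ℝ => (Bk k *ᵥ (C *ᵥ g)) z *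
      Mx N l b T z (C *ᵥ g)) (gau (V (N / l))) := fun z =>
    H708.egr_integrable ((egr_mv (egr_lin' (Bk k) z) C).mul (egr_mv (egr_Mx hb hl hT z) C))
  have i2 : ∀ z, Integrable (fun g : V (N / l) → ℝ => (Bk k *ᵥ (C *ᵥ g)) z *
      (A *ᵥ (C *ᵥ g)) z) (gau (V (N / l))) := fun z =>
    H708.egr_integrable ((egr_mv (egr_lin' (Bk k) z) C).mul (egr_mv (egr_lin' A z) C))
  have s1 : mh C (V0l N l b T) k = ∑ z, ∫ g, (Bk k *ᵥ (C *ᵥ g)) z * Mx N l b T z (C *ᵥ g)
      ∂(gau (V (N / l))) + ∫ g, ∑ z, (Bk k *ᵥ (C *ᵥ g)) z * (A *ᵥ (C *ᵥ g)) z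
      ∂(gau (V (N / l))) := by
    rw [herm_ibp hCt (egr_V0l hb hl hT) (egr_V0x hb hl hT) (hasDerivAt_V0l hb hl hT) k,
      ← integral_finsetSum _ fun z _ => i1 z,
      ← integral_add (integrable_finsetSum _ fun z _ => i1 z)
        (integrable_finsetSum _ fun z _ => i2 z)]
    refine integral_congr_ae (Filter.Eventually.of_forall fun g => ?_)
    simp only
    rw [← Finset.sum_add_distrib]
    refine Finset.sum_congr rfl fun z _ => ?_
    unfold V0x
    ring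
  have s2' : ∫ g, ∑ z, (Bk k *ᵥ (C *ᵥ g)) z * (A' *ᵥ (C *ᵥ g)) z ∂(gau (V (N / l))) = 1 := by
    rw [← int_hk k]
    refine integral_congr_ae (Filter.Eventually.of_forall fun g => ?_)
    simp only
    have e1 : ∑ z, (Bk k *ᵥ (C *ᵥ g)) z * (A' *ᵥ (C *ᵥ g)) z =
        (Bk k *ᵥ (C *ᵥ g)) ⬝ᵥ (A' *ᵥ (C *ᵥ g)) := rfl
    have e2 := pin_A_pin hAt' h0 hp hB (sym_Bk_zero hk)
    have e3 : (Bk k *ᵥ (C *ᵥ g)) ⬝ᵥ (A' *ᵥ (C *ᵥ g)) = g ⬝ᵥ (Bk k *ᵥ g) := by
      have c1 : (A' * C)ᵀ * (Bk k * C) = Bk k := by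
        calc (A' * C)ᵀ * (Bk k * C) = C * A' * (Bk k * C) := by
              rw [transpose_mul, hCt.transpose, hAt'.transpose]
          _ = C * (A' * Bk k) * C := by simp only [Matrix.mul_assoc]
          _ = C * (Bk k * A') * C := by rw [hAt'.comm hB]
          _ = C * Bk k * (A' * C) := by simp only [Matrix.mul_assoc]
          _ = Bk k := e2
      rw [mulVec_mulVec, mulVec_mulVec, dotProduct_mulVec, ← mulVec_transpose, mulVec_mulVec,
        c1, dotProduct_comm]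
    rw [e1, e3]
    rfl
  have hBA : ∀ {D : Matrix (V (N / l)) (V (N / l)) ℝ} (hD : TI D) (F : V (N / l) → ℝ),
      ∑ z, (Bk k *ᵥ F) z * (D *ᵥ F) z = sym D k * (F ⬝ᵥ (Bk k *ᵥ F)) := by
    intro D hD F
    have e1 : ∑ z, (Bk k *ᵥ F) z * (D *ᵥ F) z = (Bk k *ᵥ F) ⬝ᵥ (D *ᵥ F) := rfl
    rw [e1, dotProduct_mulVec, ← mulVec_transpose, hD.transpose, mulVec_mulVec, hD.comm hB,
      Bk_mul hD, smul_mulVec, smul_dotProduct, smul_eq_mul, dotProduct_comm]
  have s2 : (sym A k + κ) * ∫ g, ∑ z, (Bk k *ᵥ (C *ᵥ g)) z * (A *ᵥ (C *ᵥ g)) z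
      ∂(gau (V (N / l))) = sym A k := by
    have e1 : ∀ g : V (N / l) → ℝ, (sym A k + κ) *
        ∑ z, (Bk k *ᵥ (C *ᵥ g)) z * (A *ᵥ (C *ᵥ g)) z =
        sym A k * ∑ z, (Bk k *ᵥ (C *ᵥ g)) z * (A' *ᵥ (C *ᵥ g)) z := by
      intro g
      rw [hBA hAt, hBA hAt', hs]
      ring
    rw [← integral_const_mul, integral_congr_ae (Filter.Eventually.of_forall e1),
      integral_const_mul, s2', mul_one]
  have s3 : ∀ z, ∫ g, (Bk k *ᵥ (C *ᵥ g)) z * Mx N l b T z (C *ᵥ g) ∂(gau (V (N / l))) =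
      ∫ g, (Bk k *ᵥ (C *ᵥ g)) 0 * Mx N l b T 0 (C *ᵥ g) ∂(gau (V (N / l))) := fun z =>
    int_sh hCt (φ := fun z F => (Bk k *ᵥ F) z * Mx N l b T z F) (fun a x F => by
      rw [Mx_sh hb hl hT]
      congr 1
      exact congrFun (sh_mulVec hB a F) x) z
  have s4 : ∑ z, qK N l b T κ z * cN (dt k z) = -((sym A k + κ) * ((N / l : ℕ) : ℝ) ^ 2 *
      ∫ g, (Bk k *ᵥ (C *ᵥ g)) 0 * Mx N l b T 0 (C *ᵥ g) ∂(gau (V (N / l)))) := by
    have i3 : ∀ z, Integrable (fun g : V (N / l) → ℝ => Mx N l b T 0 (C *ᵥ g) *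
        (A' *ᵥ (C *ᵥ g)) z * cN (dt k z)) (gau (V (N / l))) := fun z =>
      H708.egr_integrable (((egr_mv (egr_Mx hb hl hT 0) C).mul
        (egr_mv (egr_lin' A' z) C)).mul (EGr.const _))
    have e1 : ∀ z, qK N l b T κ z * cN (dt k z) = -∫ g, Mx N l b T 0 (C *ᵥ g) *
        (A' *ᵥ (C *ᵥ g)) z * cN (dt k z) ∂(gau (V (N / l))) := by
      intro z
      unfold qK
      rw [neg_mul, ← integral_mul_const]
    rw [Finset.sum_congr rfl fun z _ => e1 z, Finset.sum_neg_distrib,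
      ← integral_finsetSum _ fun z _ => i3 z, ← integral_const_mul]
    congr 1
    refine integral_congr_ae (Filter.Eventually.of_forall fun g => ?_)
    simp only
    have e2 := sum_cN_mv hAt' k (C *ᵥ g)
    have e3 : (Bk k *ᵥ (C *ᵥ g)) 0 = (((N / l : ℕ) : ℝ) ^ 2)⁻¹ *
        ∑ y, cN (dt k y) * (C *ᵥ g) y := by
      unfold Bk
      simp only [mulVec, dotProduct, Matrix.of_apply, sub_zero]
      rw [Finset.mul_sum]
      exact Finset.sum_congr rfl fun y _ => by ring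
    have hn : (((N / l : ℕ) : ℝ) ^ 2) ≠ 0 := H864.N_pos.ne'
    rw [e3]
    have e4 : ∑ z, Mx N l b T 0 (C *ᵥ g) * (A' *ᵥ (C *ᵥ g)) z * cN (dt k z) =
        Mx N l b T 0 (C *ᵥ g) * ∑ z, cN (dt k z) * (A' *ᵥ (C *ᵥ g)) z := by
      rw [Finset.mul_sum]
      exact Finset.sum_congr rfl fun z _ => by ring
    have e5 : ∀ a s m S : ℝ, m ≠ 0 → a * (s * S) = s * m * (m⁻¹ * S * a) := by
      intro a s m S hm
      field_simp
    rw [e4, e2, hs]
    exact e5 _ _ _ _ hn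
  rw [s4, s1, mul_add, s2, Finset.sum_congr rfl fun z _ => s3 z, Finset.sum_const,
    Finset.card_univ, nsmul_eq_mul, cardVr]
  ring

/-- (H1) -/
theorem sum_qK (hb : 0 ≤ b) (hl : l ∣ N) (hT : 0 < T) : ∑ z, qK N l b T κ z = 0 := by
  set A := acl N l b T T with hA
  set A' := A + κ • (Pn : Matrix (V (N / l)) (V (N / l)) ℝ) with hA'
  set C := pinK A κ with hC
  have hAt : TI A := ti_acl hb hl hT (le_refl T)
  have hAt' : TI A' := hAt.add (H963.ti_Pn.smul κ)
  have h0 : sym A' 0 = 0 := by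
    rw [hA', H864.sym_add, H864.sym_smul, H963.sym_Pn, if_pos rfl, hA,
      H363.sym_acl_zero hl hb hT (le_refl T)]
    ring
  have i3 : ∀ z, Integrable (fun g : V (N / l) → ℝ => Mx N l b T 0 (C *ᵥ g) *
      (A' *ᵥ (C *ᵥ g)) z) (gau (V (N / l))) := fun z =>
    H708.egr_integrable (((egr_mv (egr_Mx hb hl hT 0) C).mul
      (egr_mv (egr_lin' A' z) C)))
  unfold qK
  rw [Finset.sum_neg_distrib, ← integral_finsetSum _ fun z _ => i3 z, neg_eq_zero]
  rw [integral_eq_zero_of_ae]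
  refine Filter.Eventually.of_forall fun g => ?_
  simp only [Pi.zero_apply]
  rw [← Finset.mul_sum]
  have h := sum_cN_mv hAt' 0 (C *ᵥ g)
  simp only [H864.dt_zero_left, TM.H764.cN_zero, one_mul] at h
  rw [h, h0, zero_mul, mul_zero]

/-! ### the limit `κ → 0` -/

lemma continuousOn_pinK {n : ℕ} [NeZero n] {A : Matrix (V n) (V n) ℝ} (hA : Nf A) (x y : V n) :
    ContinuousOn (fun κ : ℝ => pinK A κ x y) (Set.Ici 0) := by
  have e : ∀ κ : ℝ, pinK A κ x y = ((n : ℝ) ^ 2)⁻¹ * ∑ k : V n,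
      (if k = 0 then 0 else √((sym A k + κ)⁻¹)) * cN (dt k (y - x)) := by
    intro κ
    have h : TI (pinK A κ) := ti_pin _
    rw [h.inversion]
    simp only [H896.sym_pinK hA]
  simp only [e]
  refine continuousOn_const.mul (continuousOn_finsetSum _ fun k _ => ?_)
  by_cases hk : k = 0
  · simp only [hk, if_true, zero_mul]
    exact continuousOn_const
  · simp only [hk, if_false]
    refine ContinuousOn.mul (ContinuousOn.sqrt (ContinuousOn.inv₀ (by fun_prop) ?_))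
      continuousOn_const
    intro κ hκ
    have h1 := hA.pos k hk
    have h2 : (0 : ℝ) ≤ κ := hκ
    linarith

lemma tendsto_qK (hb : 0 ≤ b) (hl : l ∣ N) (hT : 0 < T) (hN : Nf (acl N l b T T))
    (z : V (N / l)) : Tendsto (fun κ => qK N l b T κ z) (𝓝[≥] 0) (𝓝 (qz N l b T z)) := by
  classical
  set A := acl N l b T T with hA
  rw [← qK_zero z]
  -- a uniform bound of the entries
  have hcont : ∀ x y : V (N / l), ContinuousOn (fun κ : ℝ => pinK A κ x y) (Set.Icc 0 1) :=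
    fun x y => (continuousOn_pinK hN x y).mono fun κ h => h.1
  have hbd : ∀ x y : V (N / l), ∃ K : ℝ, ∀ κ ∈ Set.Icc (0 : ℝ) 1, |pinK A κ x y| ≤ K := by
    intro x y
    obtain ⟨K, hK⟩ := (isCompact_Icc.image_of_continuousOn (hcont x y).norm).bddAbove
    refine ⟨K, fun κ hκ => hK ⟨κ, hκ, rfl⟩⟩
  choose K hK using hbd
  set M := ∑ x : V (N / l), ∑ y : V (N / l), |K x y| with hM
  have hM0 : 0 ≤ M := Finset.sum_nonneg fun x _ => Finset.sum_nonneg fun y _ => abs_nonneg _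
  have hKM : ∀ x y : V (N / l), ∀ κ ∈ Set.Icc (0 : ℝ) 1, |pinK A κ x y| ≤ M := by
    intro x y κ hκ
    refine (hK x y κ hκ).trans ((le_abs_self _).trans ?_)
    refine (Finset.single_le_sum (f := fun y => |K x y|) (fun _ _ => abs_nonneg _)
      (Finset.mem_univ y)).trans ?_
    exact Finset.single_le_sum (f := fun x => ∑ y, |K x y|)
      (fun _ _ => Finset.sum_nonneg fun _ _ => abs_nonneg _) (Finset.mem_univ x)
  have hF : ∀ κ ∈ Set.Icc (0 : ℝ) 1, ∀ g : V (N / l) → ℝ, ∀ x,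
      |(pinK A κ *ᵥ g) x| ≤ M * ∑ y, |g y| := by
    intro κ hκ g x
    rw [Finset.mul_sum]
    refine (Finset.abs_sum_le_sum_abs _ _).trans (Finset.sum_le_sum fun y _ => ?_)
    rw [abs_mul]
    exact mul_le_mul_of_nonneg_right (hKM x y κ hκ) (abs_nonneg _)
  obtain ⟨C, hC, hCb⟩ := (egr_Mx (N := N) (l := l) (b := b) hb hl hT 0).bdd
  set cn : ℝ := (Fintype.card (V (N / l)) : ℝ) with hcn
  set M2 : ℝ := ∑ y, (|A z y| + |(Pn : Matrix (V (N / l)) (V (N / l)) ℝ) z y|) with hM2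
  have hM20 : 0 ≤ M2 := Finset.sum_nonneg fun y _ => by positivity
  set bd : (V (N / l) → ℝ) → ℝ := fun g =>
    C * Real.exp (C * (cn * (M * ∑ y, |g y|))) * (M2 * (M * ∑ y, |g y|)) with hbdd
  have hlim : Tendsto (fun κ => ∫ g, Mx N l b T 0 (pinK A κ *ᵥ g) *
      ((A + κ • (Pn : Matrix (V (N / l)) (V (N / l)) ℝ)) *ᵥ (pinK A κ *ᵥ g)) z
      ∂(gau (V (N / l)))) (𝓝[≥] 0) (𝓝 (∫ g, Mx N l b T 0 (pinK A 0 *ᵥ g) *
      ((A + (0 : ℝ) • (Pn : Matrix (V (N / l)) (V (N / l)) ℝ)) *ᵥ (pinK A 0 *ᵥ g)) z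
      ∂(gau (V (N / l))))) := by
    have h01 : ∀ᶠ κ : ℝ in 𝓝[≥] 0, κ ∈ Set.Icc (0 : ℝ) 1 := by
      have h1 : ∀ᶠ κ : ℝ in 𝓝[≥] 0, κ ∈ Set.Ici (0 : ℝ) := self_mem_nhdsWithin
      have h2 : ∀ᶠ κ : ℝ in 𝓝[≥] 0, κ < 1 :=
        (eventually_lt_nhds one_pos).filter_mono nhdsWithin_le_nhds
      filter_upwards [h1, h2] with κ a1 a2 using ⟨a1, a2.le⟩
    refine tendsto_integral_filter_of_dominated_convergence bd ?_ ?_ ?_ ?_
    · refine Eventually.of_forall fun κ => ?_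
      exact (H708.egr_integrable ((egr_mv (egr_Mx hb hl hT 0) (pinK A κ)).mul
        (egr_mv (egr_lin' (A + κ • (Pn : Matrix (V (N / l)) (V (N / l)) ℝ)) z)
          (pinK A κ)))).aestronglyMeasurable
    · filter_upwards [h01] with κ hκ
      refine Eventually.of_forall fun g => ?_
      rw [Real.norm_eq_abs, abs_mul, hbdd]
      have hsum : 0 ≤ ∑ y, |g y| := Finset.sum_nonneg fun _ _ => abs_nonneg _
      refine mul_le_mul ?_ ?_ (abs_nonneg _) (by positivity)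
      · refine (hCb _).trans ?_
        refine mul_le_mul_of_nonneg_left (Real.exp_le_exp.2
          (mul_le_mul_of_nonneg_left ?_ hC)) hC
        refine (Finset.sum_le_sum fun x _ => hF κ hκ g x).trans (le_of_eq ?_)
        rw [Finset.sum_const, Finset.card_univ, nsmul_eq_mul]
      · rw [hM2, Finset.sum_mul]
        refine (Finset.abs_sum_le_sum_abs _ _).trans (Finset.sum_le_sum fun y _ => ?_)
        rw [abs_mul]
        refine mul_le_mul ?_ (hF κ hκ g y) (abs_nonneg _) (by positivity)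
        show |A z y + κ * (Pn : Matrix (V (N / l)) (V (N / l)) ℝ) z y| ≤ _
        refine (abs_add_le _ _).trans ?_
        rw [abs_mul, abs_of_nonneg hκ.1]
        have := mul_le_mul_of_nonneg_right hκ.2
          (abs_nonneg ((Pn : Matrix (V (N / l)) (V (N / l)) ℝ) z y))
        linarith
    · refine H708.egr_integrable ?_
      have e0 : EGr fun g : V (N / l) → ℝ => ∑ y, |g y| :=
        egr_sum _ fun y _ => (egr_coord y).abs
      refine EGr.mul ?_ (EGr.cmul _ (EGr.cmul _ e0))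
      refine EGr.cmul _ ?_
      refine EGr.mk' ?_ (A := 1) (B := C * (cn * M)) fun g => ?_
      · exact Real.measurable_exp.comp (((e0.meas.const_mul _).const_mul _).const_mul _)
      · rw [Real.abs_exp, one_mul]
        refine Real.exp_le_exp.2 (le_of_eq ?_)
        ring
    · refine Eventually.of_forall fun g => ?_
      have hc1 : ∀ x, Tendsto (fun κ => (pinK A κ *ᵥ g) x) (𝓝[≥] 0)
          (𝓝 ((pinK A 0 *ᵥ g) x)) := by
        intro x
        refine tendsto_finsetSum _ fun y _ => ?_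
        exact ((continuousOn_pinK hN x y) 0 Set.self_mem_Ici).mul_const _
      have hc2 : Tendsto (fun κ => pinK A κ *ᵥ g) (𝓝[≥] 0) (𝓝 (pinK A 0 *ᵥ g)) :=
        tendsto_pi_nhds.2 hc1
      refine Tendsto.mul (((continuous_Mx hb hl hT 0).tendsto _).comp hc2) ?_
      refine tendsto_finsetSum _ fun y _ => ?_
      refine Tendsto.mul ?_ (hc1 y)
      have hc3 : Continuous fun κ : ℝ =>
          (A + κ • (Pn : Matrix (V (N / l)) (V (N / l)) ℝ)) z y := by
        simp only [Matrix.add_apply, Matrix.smul_apply, smul_eq_mul]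
        fun_prop
      exact (hc3.tendsto 0).mono_left nhdsWithin_le_nhds
  exact hlim.neg

theorem tendsto_aK (hb : 0 ≤ b) (hl : l ∣ N) (hT : 0 < T) (hN : Nf (acl N l b T T)) :
    Tendsto (fun κ => aK N l b T κ) (𝓝[≥] 0) (𝓝 (aq N l b T)) := by
  unfold aK aq
  refine Tendsto.const_mul _ (tendsto_finsetSum _ fun z _ => ?_)
  exact (tendsto_qK hb hl hT hN z).const_mul _

lemma tendsto_kap (hT : 0 < T) : Tendsto (fun τ => kap l T τ) (𝓝[>] 0) (𝓝[≥] 0) := by
  refine tendsto_nhdsWithin_iff.2 ⟨?_, ?_⟩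
  · have h : ContinuousAt (fun τ : ℝ => kap l T τ) 0 := by
      unfold H896.kap
      refine ContinuousAt.div (by fun_prop) (by fun_prop) ?_
      simpa using hT.ne'
    have h2 := h.tendsto
    have e : kap l T 0 = 0 := by
      unfold H896.kap
      simp
    rw [e] at h2
    exact h2.mono_left nhdsWithin_le_nhds
  · have h1 : ∀ᶠ τ : ℝ in 𝓝[>] 0, τ ∈ Set.Ioi (0 : ℝ) := self_mem_nhdsWithin
    have h2 : ∀ᶠ τ : ℝ in 𝓝[>] 0, τ < T :=
      (eventually_lt_nhds hT).filter_mono nhdsWithin_le_nhds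
    filter_upwards [h1, h2] with τ a1 a2
    have a3 : (0 : ℝ) < τ := a1
    show 0 ≤ kap l T τ
    unfold H896.kap
    have : 0 < T - τ := by linarith
    positivity

/-- at small prior mass the letters are `qz`, `aq` -/
theorem eventually_aK (hb : 0 ≤ b) (hl : l ∣ N) (hT : 0 < T) (hN : Nf (acl N l b T T)) {e : ℝ}
    (he : 0 < e) : ∀ᶠ τ in 𝓝[>] (0 : ℝ), |aK N l b T (kap l T τ) - aq N l b T| ≤ e := by
  have h := (tendsto_aK (b := b) hb hl hT hN).comp (tendsto_kap (l := l) hT)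
  have h2 := (h.sub_const (aq N l b T)).abs
  rw [sub_self, abs_zero] at h2
  exact (h2.eventually (ge_mem_nhds he))

theorem eventually_qK (hb : 0 ≤ b) (hl : l ∣ N) (hT : 0 < T) (hN : Nf (acl N l b T T)) {e : ℝ}
    (he : 0 < e) : ∀ᶠ τ in 𝓝[>] (0 : ℝ), ∀ z, |qK N l b T (kap l T τ) z - qz N l b T z| ≤ e := by
  refine Filter.eventually_all.2 fun z => ?_
  have h := (tendsto_qK (b := b) hb hl hT hN z).comp (tendsto_kap (l := l) hT)
  have h2 := (h.sub_const (qz N l b T z)).abs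
  rw [sub_self, abs_zero] at h2
  exact (h2.eventually (ge_mem_nhds he))

end kernel

end

end Vale.Agent.P159.H462
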