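import Vale.Agent.P159.H462.Q4
import Vale.Agent.P159.H846.La2
import Vale.Agent.P159.H159.Mz1

/-!
P159 (helper462), P#, **(P6)**, part 5: local functionals of a window against linear functionals of
the whole field, one torus.
-/

set_option linter.unusedSectionVars false
set_option linter.unusedVariables false

namespace Vale.Agent.P159.H462

open Finset MeasureTheory Matrix
open Vale.Agent.P159.H37
open Vale.Agent.P159.H363 (pin ti_pin sym_pin Nf sh sh_mulVec gau_permE sh_eq)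
open Vale.Agent.P159.TM.Spec (V)
open Vale.Agent.P159.H864 (TI sym)
open Vale.Agent.P159.H963 (Pn)
open Vale.Agent.P159.H358 (cutm av cutm_add continuous_cutm av_add)
open Vale.Agent.P159.H733.Torg (ip ip_zero val_ip)
open Vale.Agent.P159.H733.Vt (zb trp iw iw_mulVec trp_iw rz Jz mem_zb add_mem_zb zb_mono ip_add
  ip_mem_box zz zz_mem zz_ip measurable_rz trp_sh zero_mem_zb)

noncomputable section

section gen

variable {n K : ℕ} [NeZero n] [NeZero K] {A : Matrix (V n) (V n) ℝ}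

/-! ### the direction of a linear functional -/

/-- the direction of `u · (A pin A g)` -/
def wv (A : Matrix (V n) (V n) ℝ) (u : V n → ℝ) : V n → ℝ := (A * pin A) *ᵥ u

lemma wv_dot (hA : TI A) (u g : V n → ℝ) :
    wv A u ⬝ᵥ g = ∑ y, u y * (A *ᵥ (pin A *ᵥ g)) y := by
  have hM : (A * pin A)ᵀ = A * pin A := (hA.mul (ti_pin A)).transpose
  unfold wv
  rw [mulVec_mulVec, dotProduct_comm, dotProduct_mulVec, ← mulVec_transpose, hM, dotProduct_comm]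
  rfl

lemma wv_sub (u u' : V n → ℝ) : wv A (u - u') = wv A u - wv A u' := by
  unfold wv
  rw [mulVec_sub]

lemma wv_smul (c : ℝ) (u : V n → ℝ) : wv A (c • u) = c • wv A u := by
  unfold wv
  rw [mulVec_smul]

lemma wv_self (hA : Nf A) (u : V n → ℝ) : wv A u ⬝ᵥ wv A u = qf A u := by
  have hM : (A * pin A)ᵀ = A * pin A := (hA.ti.mul (ti_pin A)).transpose
  have h1 : (A * pin A) * (A * pin A) = A := by
    refine H864.sym_inj ((hA.ti.mul (ti_pin A)).mul (hA.ti.mul (ti_pin A))) hA.ti fun k => ?_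
    rw [H864.sym_mul (hA.ti.mul (ti_pin A)) (hA.ti.mul (ti_pin A)), H864.sym_mul hA.ti (ti_pin A),
      sym_pin]
    by_cases hk : k = 0
    · rw [hk, hA.zero]
      ring
    · have h2 : √((sym A k)⁻¹) * √((sym A k)⁻¹) = (sym A k)⁻¹ :=
        Real.mul_self_sqrt (inv_nonneg.2 (hA.nn k))
      calc sym A k * √((sym A k)⁻¹) * (sym A k * √((sym A k)⁻¹)) =
          (√((sym A k)⁻¹) * √((sym A k)⁻¹)) * sym A k * sym A k := by ring
        _ = sym A k := by rw [h2, inv_mul_cancel₀ (hA.pos k hk).ne', one_mul]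
  rw [H37.qf_eq]
  unfold wv
  rw [dotProduct_mulVec, ← mulVec_transpose, hM, mulVec_mulVec, h1, dotProduct_comm]

lemma pin_wv (hA : Nf A) (u : V n → ℝ) :
    pin A *ᵥ wv A u = (Pn : Matrix (V n) (V n) ℝ) *ᵥ u := by
  have hM : (A * pin A)ᵀ = A * pin A := (hA.ti.mul (ti_pin A)).transpose
  have h := H159.pin_pin_A hA
  rw [hM] at h
  unfold wv
  rw [mulVec_mulVec, h]

lemma iw_wv (hA : Nf A) (D : ℕ) (x : V n) (u : V n → ℝ) :
    (iw D x * pin A) *ᵥ wv A u = iw D x *ᵥ u := by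
  rw [← mulVec_mulVec, pin_wv hA, H963.Pn_mulVec]
  funext ζ
  rw [iw_mulVec, iw_mulVec]
  ring

/-! ### cut fields are linear -/

lemma av_smul (D : ℕ) (x : V K) (c : ℝ) (F : V K → ℝ) : av D x (c • F) = c * av D x F := by
  unfold H358.av
  simp only [Pi.smul_apply, smul_eq_mul]
  rw [← Finset.mul_sum]
  ring

lemma av_add' (D : ℕ) (x : V K) (F G : V K → ℝ) : av D x (F + G) = av D x F + av D x G := by
  unfold H358.av
  simp only [Pi.add_apply]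
  rw [Finset.sum_add_distrib]
  ring

/-- the cut window field as a linear map -/
def cLl (K : ℕ) [NeZero K] (D : ℕ) (x : V n) : (V n → ℝ) →ₗ[ℝ] (V K → ℝ) where
  toFun F := cutm D 0 (trp D (0 : V K) x F)
  map_add' F G := by
    have e : trp D (0 : V K) x (F + G) = trp D (0 : V K) x F + trp D (0 : V K) x G := rfl
    funext v
    rw [e]
    unfold H358.cutm
    rw [av_add']
    simp only [Pi.add_apply]
    split_ifs <;> rfl
  map_smul' c F := by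
    have e : trp D (0 : V K) x (c • F) = c • trp D (0 : V K) x F := rfl
    funext v
    rw [e]
    unfold H358.cutm
    rw [av_smul]
    simp only [Pi.smul_apply, smul_eq_mul, RingHom.id_apply]
    split_ifs <;> rfl

/-- its matrix -/
def cL (K : ℕ) [NeZero K] (D : ℕ) (x : V n) : Matrix (V K) (V n) ℝ :=
  LinearMap.toMatrix' (cLl K D x)

lemma cL_mulVec (D : ℕ) (x : V n) (F : V n → ℝ) :
    cL K D x *ᵥ F = cutm D 0 (trp D (0 : V K) x F) := by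
  unfold cL
  rw [LinearMap.toMatrix'_mulVec]
  rfl

/-! ### local functionals -/

/-- constants do not matter -/
def Bld (μ : (V K → ℝ) → ℝ) : Prop := ∀ (F : V K → ℝ) (c : ℝ), μ (fun y => F y + c) = μ F

/-- the functional `μ` of the window field around `x` -/
def gl (μ : (V K → ℝ) → ℝ) (D : ℕ) (x : V n) (F : V n → ℝ) : ℝ :=
  μ (cutm D 0 (trp D (0 : V K) x F))

lemma egr_gl {μ : (V K → ℝ) → ℝ} (hμ : EGr μ) (D : ℕ) (x : V n) :
    EGr fun F : V n → ℝ => gl μ D x F := by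
  have h := egr_mv hμ (cL K D x)
  simp only [cL_mulVec] at h
  exact h

/-- the same as a function of the window increments -/
def phw (μ : (V K → ℝ) → ℝ) (D : ℕ) (h : Jz D → ℝ) : ℝ := μ (cutm D 0 (rz D (0 : V K) h))

lemma measurable_phw {μ : (V K → ℝ) → ℝ} (hμ : Measurable μ) (D : ℕ) :
    Measurable (phw μ D) :=
  hμ.comp ((continuous_cutm D 0).measurable.comp (measurable_rz D 0))

lemma gl_eq {μ : (V K → ℝ) → ℝ} (hc : Bld μ) (D : ℕ) (x : V n) (F : V n → ℝ) :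
    gl μ D x F = phw μ D (iw D x *ᵥ F) := by
  unfold gl phw
  rw [trp_iw]
  have h := cutm_add D (0 : V K) (trp D (0 : V K) x F) (-F x)
  have e : (trp D (0 : V K) x F + fun _ => -F x) = fun y => trp D (0 : V K) x F y + -F x := rfl
  rw [e, h, hc]

lemma int_gl {μ : (V K → ℝ) → ℝ} (hμ : EGr μ) (C : Matrix (V n) (V n) ℝ) (D : ℕ) (x : V n)
    (w : V n → ℝ) : Integrable (fun g => gl μ D x (C *ᵥ g) * (w ⬝ᵥ g)) (gau (V n)) := by
  have h1 : EGr fun g : V n → ℝ => w ⬝ᵥ g := by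
    have e : (fun g : V n → ℝ => w ⬝ᵥ g) = fun g => ∑ x, w x * g x := rfl
    rw [e]
    exact H159.egr_sum _ fun x _ => (H159.egr_coord x).cmul _
  exact H708.egr_integrable ((egr_mv (egr_gl hμ D x) C).mul h1)

/-- **only the window increments of the direction matter** -/
theorem int_dir (hA : Nf A) {μ : (V K → ℝ) → ℝ} (hμ : EGr μ) (hc : Bld μ) {D : ℕ} {x : V n}
    {u u' : V n → ℝ} (h : ∀ ζ ∈ zb D, u (x + ip n ζ) - u x = u' (x + ip n ζ) - u' x) :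
    ∫ g, gl μ D x (pin A *ᵥ g) * (wv A u ⬝ᵥ g) ∂(gau (V n)) =
      ∫ g, gl μ D x (pin A *ᵥ g) * (wv A u' ⬝ᵥ g) ∂(gau (V n)) := by
  have h0 : (iw D x * pin A) *ᵥ wv A (u - u') = 0 := by
    rw [iw_wv hA]
    funext ζ
    rw [iw_mulVec]
    have := h ζ.1 ζ.2
    simp only [Pi.sub_apply, Pi.zero_apply]
    linarith
  have h1 := H846.La.ind0 h0 (measurable_phw hμ.meas D)
  rw [← sub_eq_zero, ← integral_sub (int_gl hμ _ D x _) (int_gl hμ _ D x _), ← h1]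
  refine integral_congr_ae (Filter.Eventually.of_forall fun g => ?_)
  simp only
  rw [gl_eq hc, mulVec_mulVec, wv_sub, sub_dotProduct]
  ring

/-- **translation** -/
theorem int_tr (hA : TI A) {μ : (V K → ℝ) → ℝ} {D : ℕ} (x : V n) (w : V n → ℝ) :
    ∫ g, gl μ D x (pin A *ᵥ g) * (wv A (fun y => w (y - x)) ⬝ᵥ g) ∂(gau (V n)) =
      ∫ g, gl μ D 0 (pin A *ᵥ g) * (wv A w ⬝ᵥ g) ∂(gau (V n)) := by
  have h := int_sh (ti_pin A) (φ := fun x F => gl μ D x F * ∑ y, w y * (A *ᵥ F) (y + x))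
    (fun a x F => by
      unfold gl
      rw [trp_sh]
      congr 1
      refine Finset.sum_congr rfl fun y _ => ?_
      rw [← sh_mulVec hA]
      show _ = w y * (A *ᵥ F) (y + x + a)
      rw [add_assoc]) x
  have e1 : ∀ g : V n → ℝ, wv A (fun y => w (y - x)) ⬝ᵥ g =
      ∑ y, w y * (A *ᵥ (pin A *ᵥ g)) (y + x) := by
    intro g
    rw [wv_dot hA, ← Equiv.sum_comp (Equiv.addRight x)]
    refine Finset.sum_congr rfl fun y _ => ?_
    simp only [Equiv.coe_addRight, add_sub_cancel_right]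
  have e2 : ∀ g : V n → ℝ, wv A w ⬝ᵥ g = ∑ y, w y * (A *ᵥ (pin A *ᵥ g)) (y + 0) := by
    intro g
    rw [wv_dot hA]
    simp only [add_zero]
  simp only [e1, e2]
  exact h

/-! ### boxes -/

/-- a function of the integer coordinates on the box -/
def bx (n : ℕ) [NeZero n] (D1 : ℕ) (G : ℤ × ℤ → ℝ) (y : V n) : ℝ :=
  if y ∈ box 0 D1 then G (y.1.valMinAbs, y.2.valMinAbs) else 0

lemma ip_in {D : ℕ} {ζ : ℤ × ℤ} (h : ζ ∈ zb D) : ip n ζ ∈ box (0 : V n) D := by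
  have := ip_mem_box h (0 : V n)
  rwa [zero_add] at this

lemma bx_ip {D1 : ℕ} (hD : 2 * D1 < n) (G : ℤ × ℤ → ℝ) {ζ : ℤ × ℤ} (h : ζ ∈ zb D1) :
    bx n D1 G (ip n ζ) = G ζ := by
  unfold bx
  rw [if_pos (ip_in h)]
  have h' := mem_zb.1 h
  unfold H733.Torg.ip
  rw [show ((((ζ.1 : ℤ) : ZMod n), ((ζ.2 : ℤ) : ZMod n)) : V n).1.valMinAbs = ζ.1 from
    val_ip hD h'.1, show ((((ζ.1 : ℤ) : ZMod n), ((ζ.2 : ℤ) : ZMod n)) : V n).2.valMinAbs = ζ.2 from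
    val_ip hD h'.2]

/-- square of the first coordinate -/
def w0 (n : ℕ) [NeZero n] (y : V n) : ℝ := (y.1.valMinAbs : ℝ) ^ 2

/-- window weights -/
def Gp (j : ℕ) (ζ : ℤ × ℤ) : ℝ := (ζ.1 : ℝ) ^ (2 - j)

lemma w0_ip {D : ℕ} (hD : 2 * D < n) {ζ : ℤ × ℤ} (h : ζ ∈ zb D) :
    w0 n (ip n ζ) = (ζ.1 : ℝ) ^ 2 := by
  have h' := mem_zb.1 h
  unfold w0 H733.Torg.ip
  rw [show ((((ζ.1 : ℤ) : ZMod n), ((ζ.2 : ℤ) : ZMod n)) : V n).1.valMinAbs = ζ.1 from
    val_ip hD h'.1]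

/-- **moving the centre of the quadratic weight** -/
theorem int_blk (hA : Nf A) {μ : (V K → ℝ) → ℝ} (hμ : EGr μ) (hc : Bld μ) {D m : ℕ}
    (hD : 2 * (D + m) < n) {ζ : ℤ × ℤ} (hζ : ζ ∈ zb m) :
    ∫ g, gl μ D 0 (pin A *ᵥ g) * (wv A (w0 n) ⬝ᵥ g) ∂(gau (V n)) =
      ∫ g, gl μ D (ip n ζ) (pin A *ᵥ g) * (wv A (bx n (D + m) (Gp 0)) ⬝ᵥ g) ∂(gau (V n)) -
      2 * ζ.1 * ∫ g, gl μ D (ip n ζ) (pin A *ᵥ g) * (wv A (bx n (D + m) (Gp 1)) ⬝ᵥ g)
        ∂(gau (V n)) := by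
  have hζ' : ζ ∈ zb (D + m) := zb_mono (by omega) hζ
  rw [← int_tr hA.ti (ip n ζ) (w0 n), int_dir hA hμ hc (x := ip n ζ)
    (u' := bx n (D + m) (Gp 0) - (2 * (ζ.1 : ℝ)) • bx n (D + m) (Gp 1)) ?_, ← integral_const_mul,
    ← integral_sub (int_gl hμ _ D _ _) ((int_gl hμ _ D _ _).const_mul _)]
  · refine integral_congr_ae (Filter.Eventually.of_forall fun g => ?_)
    simp only
    rw [wv_sub, wv_smul, sub_dotProduct, smul_dotProduct, smul_eq_mul]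
    ring
  · intro ξ hξ
    have h1 : ζ + ξ ∈ zb (D + m) := by
      rw [add_comm ζ ξ]
      exact add_mem_zb hξ hζ
    have h2 : 2 * D < n := by omega
    have e1 : w0 n (ip n ζ + ip n ξ - ip n ζ) = (ξ.1 : ℝ) ^ 2 := by
      rw [add_sub_cancel_left, w0_ip h2 hξ]
    have e2 : w0 n (ip n ζ - ip n ζ) = 0 := by
      rw [sub_self]
      unfold w0
      simp
    simp only [Pi.sub_apply, Pi.smul_apply, smul_eq_mul]
    rw [e1, e2, ← ip_add, bx_ip hD _ h1, bx_ip hD _ h1, bx_ip hD _ hζ', bx_ip hD _ hζ']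
    unfold Gp
    simp only [Prod.fst_add, Int.cast_add]
    norm_num
    ring

/-! ### the block -/

/-- the block -/
def blk (m : ℕ) : Finset (ℤ × ℤ) := Finset.Ico (0 : ℤ) m ×ˢ Finset.Ico (0 : ℤ) m

lemma blk_zb {m : ℕ} {ζ : ℤ × ℤ} (h : ζ ∈ blk m) : ζ ∈ zb m := by
  unfold blk at h
  rw [Finset.mem_product, Finset.mem_Ico, Finset.mem_Ico] at h
  rw [mem_zb]
  omega

lemma card_blk (m : ℕ) : ((blk m).card : ℝ) = (m : ℝ) ^ 2 := by
  unfold blk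
  rw [Finset.card_product, Int.card_Ico]
  simp
  ring

lemma blk_le {m : ℕ} (hm : 1 ≤ m) {ζ : ℤ × ℤ} (h : ζ ∈ blk m) (j : ℕ) :
    |((ζ.1 : ℝ) / m) ^ j| ≤ 1 := by
  unfold blk at h
  rw [Finset.mem_product, Finset.mem_Ico, Finset.mem_Ico] at h
  have hm0 : (0 : ℝ) < m := by exact_mod_cast hm
  have h1 : (0 : ℝ) ≤ ζ.1 := by exact_mod_cast h.1.1
  have h2 : (ζ.1 : ℝ) ≤ m := by exact_mod_cast h.1.2.le
  rw [abs_of_nonneg (by positivity)]
  exact pow_le_one₀ (by positivity) ((div_le_one hm0).2 h2)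

/-- the window field around `ζ` as a function of the increments on the large window -/
def rzs (K : ℕ) [NeZero K] (D D1 : ℕ) (ζ : ℤ × ℤ) (h : Jz D1 → ℝ) (v : V K) : ℝ :=
  if hm : ζ + zz D (0 : V K) v ∈ zb D1 then h ⟨ζ + zz D (0 : V K) v, hm⟩ else 0

lemma measurable_rzs (D D1 : ℕ) (ζ : ℤ × ℤ) : Measurable (rzs K D D1 ζ) := by
  refine measurable_pi_iff.2 fun v => ?_
  unfold rzs
  split_ifs with h
  · exact measurable_pi_apply _
  · exact measurable_const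

lemma rzs_iw {D m : ℕ} {ζ : ℤ × ℤ} (hζ : ζ ∈ zb m) (F : V n → ℝ) :
    rzs K D (D + m) ζ (iw (D + m) (0 : V n) *ᵥ F) =
      fun v => trp D (0 : V K) (ip n ζ) F v + -F 0 := by
  funext v
  have h1 : ζ + zz D (0 : V K) v ∈ zb (D + m) := by
    rw [add_comm ζ]
    exact add_mem_zb (zz_mem D 0 v) hζ
  unfold rzs
  rw [dif_pos h1, iw_mulVec]
  unfold H733.Vt.trp
  simp only
  rw [ip_add, zero_add]
  ring

/-- the weighted sum of the functionals over the block -/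
def Phj (μ : (V K → ℝ) → ℝ) (D m j : ℕ) (h : Jz (D + m) → ℝ) : ℝ :=
  ∑ ζ ∈ blk m, ((ζ.1 : ℝ) / m) ^ j * μ (cutm D 0 (rzs K D (D + m) ζ h))

lemma measurable_Phj {μ : (V K → ℝ) → ℝ} (hμ : Measurable μ) (D m j : ℕ) :
    Measurable (Phj μ D m j) := by
  unfold Phj
  refine Finset.measurable_fun_sum _ fun ζ _ => measurable_const.mul ?_
  exact hμ.comp ((continuous_cutm D 0).measurable.comp (measurable_rzs D (D + m) ζ))

lemma Phj_iw {μ : (V K → ℝ) → ℝ} (hc : Bld μ) (D m j : ℕ) (F : V n → ℝ) :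
    Phj μ D m j (iw (D + m) (0 : V n) *ᵥ F) =
      ∑ ζ ∈ blk m, ((ζ.1 : ℝ) / m) ^ j * gl μ D (ip n ζ) F := by
  unfold Phj gl
  refine Finset.sum_congr rfl fun ζ hζ => ?_
  rw [rzs_iw (blk_zb hζ), cutm_add, hc]

/-! ### the linear part -/

lemma int_linear (Q : Matrix (V K) (V n) ℝ) (k : V K) (C : Matrix (V n) (V n) ℝ)
    (w : V n → ℝ) :
    ∫ g, (Q *ᵥ (C *ᵥ g)) k * (w ⬝ᵥ g) ∂(gau (V n)) = (Q *ᵥ (C *ᵥ w)) k := by
  have h := H663.gau_lin_mul (fun i => (Q * C) k i) w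
  have e : ∀ g : V n → ℝ, (Q *ᵥ (C *ᵥ g)) k = ∑ i, (Q * C) k i * g i := by
    intro g
    rw [mulVec_mulVec]
    rfl
  rw [e w, ← h]
  refine integral_congr_ae (Filter.Eventually.of_forall fun g => ?_)
  simp only
  rw [e g]
  rfl

/-- the torus-independent number of the linear part -/
def Lc (A1 : Matrix (V K) (V K) ℝ) (D m : ℕ) : ℝ :=
  ∑ ζ ∈ blk m, ((A1 *ᵥ cutm D 0 (fun v => Gp 0 (ζ + zz D 0 v))) 0 -
    2 * ζ.1 * (A1 *ᵥ cutm D 0 (fun v => Gp 1 (ζ + zz D 0 v))) 0)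

/-- the linear functional of `A1` -/
def lnf (A1 : Matrix (V K) (V K) ℝ) (F : V K → ℝ) : ℝ := (A1 *ᵥ F) 0

lemma egr_lnf (A1 : Matrix (V K) (V K) ℝ) : EGr (lnf A1) := egr_lin' A1 0

lemma Nf.mul_const {B : Matrix (V K) (V K) ℝ} (hB : Nf B) (c : ℝ) :
    B *ᵥ (fun _ => c) = 0 := by
  have h1 : B *ᵥ (fun _ => (1 : ℝ)) = 0 := by
    have h2 := hB.ti.mulVec_cN 0
    have e : (fun z : V K => TM.H764.cN (TM.H764.dt 0 z)) = fun _ => (1 : ℝ) := by
      funext z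
      rw [H864.dt_zero_left, TM.H764.cN_zero]
    rw [e, hB.zero, zero_smul] at h2
    exact h2
  have e : (fun _ : V K => c) = c • fun _ : V K => (1 : ℝ) := by
    funext z
    simp
  rw [e, mulVec_smul, h1, smul_zero]

lemma bld_lnf {A1 : Matrix (V K) (V K) ℝ} (h1 : Nf A1) : Bld (lnf A1) := by
  intro F c
  unfold lnf
  have e : (fun y => F y + c) = F + fun _ => c := rfl
  rw [e, mulVec_add, Nf.mul_const h1, add_zero]

lemma int_lnf (hA : Nf A) {A1 : Matrix (V K) (V K) ℝ} (h1 : Nf A1) {D m : ℕ}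
    (hD : 2 * (D + m) < n) {ζ : ℤ × ℤ} (hζ : ζ ∈ zb m) (j : ℕ) :
    ∫ g, gl (lnf A1) D (ip n ζ) (pin A *ᵥ g) * (wv A (bx n (D + m) (Gp j)) ⬝ᵥ g)
      ∂(gau (V n)) = (A1 *ᵥ cutm D 0 (fun v => Gp j (ζ + zz D (0 : V K) v))) 0 := by
  have h := int_linear (A1 * cL K D (ip n ζ)) 0 (pin A) (wv A (bx n (D + m) (Gp j)))
  have e : ∀ F : V n → ℝ, (A1 * cL K D (ip n ζ)) *ᵥ F =
      A1 *ᵥ (cutm D 0 (trp D (0 : V K) (ip n ζ) F)) := by
    intro F
    rw [← mulVec_mulVec, cL_mulVec]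
  simp only [e] at h
  have e2 : ∀ g : V n → ℝ, gl (lnf A1) D (ip n ζ) (pin A *ᵥ g) =
      (A1 *ᵥ (cutm D 0 (trp D (0 : V K) (ip n ζ) (pin A *ᵥ g)))) 0 := fun g => rfl
  simp only [e2]
  rw [h, pin_wv hA, H963.Pn_mulVec]
  have e3 : trp D (0 : V K) (ip n ζ) (fun x => bx n (D + m) (Gp j) x -
      (∑ y, bx n (D + m) (Gp j) y) / Fintype.card (V n)) = fun v =>
        Gp j (ζ + zz D (0 : V K) v) + -((∑ y, bx n (D + m) (Gp j) y) / Fintype.card (V n)) := by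
    funext v
    unfold H733.Vt.trp
    have h2 : ζ + zz D (0 : V K) v ∈ zb (D + m) := by
      rw [add_comm ζ]
      exact add_mem_zb (zz_mem D 0 v) hζ
    simp only
    rw [← ip_add, bx_ip hD _ h2]
    ring
  rw [e3, cutm_add]
  exact bld_lnf h1 _ _

/-- **the structure identity on one torus**: the letter is a block sum, minus a torus-independent
number -/
theorem int_struct (hA : Nf A) {A1 : Matrix (V K) (V K) ℝ} (h1 : Nf A1)
    {μ : (V K → ℝ) → ℝ} (hμ : EGr μ) (hc : Bld μ) {D m : ℕ} (hm : 1 ≤ m)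
    (hD : 2 * (D + m) < n) :
    (m : ℝ) ^ 2 * ∫ g, gl (fun F => μ F - lnf A1 F) D 0 (pin A *ᵥ g) * (wv A (w0 n) ⬝ᵥ g)
      ∂(gau (V n)) =
      ∫ g, Phj μ D m 0 ((iw (D + m) (0 : V n) * pin A) *ᵥ g) *
        (wv A (bx n (D + m) (Gp 0)) ⬝ᵥ g) ∂(gau (V n)) -
      2 * m * ∫ g, Phj μ D m 1 ((iw (D + m) (0 : V n) * pin A) *ᵥ g) *
        (wv A (bx n (D + m) (Gp 1)) ⬝ᵥ g) ∂(gau (V n)) - Lc A1 D m := by
  have hm0 : (0 : ℝ) < m := by exact_mod_cast hm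
  set ν : (V K → ℝ) → ℝ := fun F => μ F - lnf A1 F with hν
  have eν : EGr ν := hμ.sub (egr_lnf A1)
  have cν : Bld ν := fun F c => by
    rw [hν]
    simp only
    rw [hc F c, bld_lnf h1 F c]
  have s1 : (m : ℝ) ^ 2 * ∫ g, gl ν D 0 (pin A *ᵥ g) * (wv A (w0 n) ⬝ᵥ g) ∂(gau (V n)) =
      ∑ ζ ∈ blk m, (∫ g, gl ν D (ip n ζ) (pin A *ᵥ g) *
        (wv A (bx n (D + m) (Gp 0)) ⬝ᵥ g) ∂(gau (V n)) -
      2 * ζ.1 * ∫ g, gl ν D (ip n ζ) (pin A *ᵥ g) * (wv A (bx n (D + m) (Gp 1)) ⬝ᵥ g)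
        ∂(gau (V n))) := by
    rw [← card_blk m, ← nsmul_eq_mul, ← Finset.sum_const]
    exact Finset.sum_congr rfl fun ζ hζ => int_blk hA eν cν hD (blk_zb hζ)
  have s2 : ∀ j, ∀ ζ ∈ blk m, ∫ g, gl ν D (ip n ζ) (pin A *ᵥ g) *
        (wv A (bx n (D + m) (Gp j)) ⬝ᵥ g) ∂(gau (V n)) =
      ∫ g, gl μ D (ip n ζ) (pin A *ᵥ g) * (wv A (bx n (D + m) (Gp j)) ⬝ᵥ g) ∂(gau (V n)) -
        (A1 *ᵥ cutm D 0 (fun v => Gp j (ζ + zz D (0 : V K) v))) 0 := by
    intro j ζ hζ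
    rw [← int_lnf hA h1 hD (blk_zb hζ) j, ← integral_sub (int_gl hμ _ D _ _)
      (int_gl (egr_lnf A1) _ D _ _)]
    refine integral_congr_ae (Filter.Eventually.of_forall fun g => ?_)
    simp only
    unfold gl
    rw [hν]
    ring
  have s3 : ∀ j, ∫ g, Phj μ D m j ((iw (D + m) (0 : V n) * pin A) *ᵥ g) *
        (wv A (bx n (D + m) (Gp j)) ⬝ᵥ g) ∂(gau (V n)) =
      ∑ ζ ∈ blk m, ((ζ.1 : ℝ) / m) ^ j * ∫ g, gl μ D (ip n ζ) (pin A *ᵥ g) *
        (wv A (bx n (D + m) (Gp j)) ⬝ᵥ g) ∂(gau (V n)) := by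
    intro j
    have i1 : ∀ ζ ∈ blk m, Integrable (fun g => ((ζ.1 : ℝ) / m) ^ j *
        (gl μ D (ip n ζ) (pin A *ᵥ g) * (wv A (bx n (D + m) (Gp j)) ⬝ᵥ g))) (gau (V n)) :=
      fun ζ _ => (int_gl hμ _ D _ _).const_mul _
    rw [Finset.sum_congr rfl fun ζ _ => (integral_const_mul _ _).symm,
      ← integral_finsetSum _ i1]
    refine integral_congr_ae (Filter.Eventually.of_forall fun g => ?_)
    simp only
    rw [← mulVec_mulVec, Phj_iw hc, Finset.sum_mul]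
    exact Finset.sum_congr rfl fun ζ _ => by ring
  rw [s1, s3, s3, Finset.sum_congr rfl fun ζ hζ => by rw [s2 0 ζ hζ, s2 1 ζ hζ]]
  unfold Lc
  rw [Finset.mul_sum, ← Finset.sum_sub_distrib, ← Finset.sum_sub_distrib]
  refine Finset.sum_congr rfl fun ζ _ => ?_
  rw [pow_zero, pow_one]
  field_simp
  ring

end gen

end

end Vale.Agent.P159.H462
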