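import Vale.Agent.P159.H462.Q5
import Vale.Agent.P159.H375.Cm

/-!
P159 (helper462), P#, **(P6)**, part 6: crude moments and truncation, one torus.
-/

set_option linter.unusedSectionVars false
set_option linter.unusedVariables false

namespace Vale.Agent.P159.H462

open Finset MeasureTheory Matrix
open Vale.Agent.P159.H37
open Vale.Agent.P159.H363 (pin ti_pin sym_pin Nf sh sh_mulVec gau_permE sh_eq acl ti_acl Rcl)
open Vale.Agent.P159.TM.Spec (V)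
open Vale.Agent.P159.TM.SpecC (Tor wT)
open Vale.Agent.P159.TM.H764 (EE)
open Vale.Agent.P159.H864 (TI sym)
open Vale.Agent.P159.H963 (Pn)
open Vale.Agent.P159.H358 (cutm av cutm_add continuous_cutm av_add)
open Vale.Agent.P159.H733.Torg (ip ip_zero val_ip)
open Vale.Agent.P159.H733.Vt (zb trp iw iw_mulVec trp_iw rz Jz mem_zb add_mem_zb zb_mono ip_add
  ip_mem_box zz zz_mem zz_ip measurable_rz trp_sh zero_mem_zb sum_box card_zb)

noncomputable section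

/-! ### truncation of numbers -/

/-- truncation at `lam` -/
def tc (lam x : ℝ) : ℝ := max (-lam) (min x lam)

lemma abs_tc_le {lam : ℝ} (h : 0 ≤ lam) (x : ℝ) : |tc lam x| ≤ lam := by
  unfold tc
  rw [abs_le]
  exact ⟨le_max_left _ _, max_le (by linarith) (min_le_right _ _)⟩

lemma tc_of_le {lam x : ℝ} (h : |x| ≤ lam) : tc lam x = x := by
  have h1 := abs_le.1 h
  unfold tc
  rw [min_eq_left h1.2, max_eq_right h1.1]

lemma abs_tc_le' {lam : ℝ} (h : 0 ≤ lam) (x : ℝ) : |tc lam x| ≤ |x| := by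
  by_cases hx : |x| ≤ lam
  · rw [tc_of_le hx]
  · exact (abs_tc_le h x).trans (not_le.1 hx).le

lemma tc_sq_le {lam : ℝ} (h : 0 ≤ lam) (x : ℝ) : tc lam x ^ 2 ≤ x ^ 2 := by
  rw [← sq_abs, ← sq_abs x]
  exact pow_le_pow_left₀ (abs_nonneg _) (abs_tc_le' h x) 2

lemma sub_tc_le {lam : ℝ} (h : 0 < lam) (x : ℝ) : |x - tc lam x| ≤ x ^ 2 / lam := by
  by_cases hx : |x| ≤ lam
  · rw [tc_of_le hx, sub_self, abs_zero]
    positivity
  · have hx' := not_le.1 hx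
    have h1 : |x - tc lam x| ≤ |x| := by
      rcases le_or_gt 0 x with h0 | h0
      · rw [abs_of_nonneg h0] at hx' ⊢
        have e : tc lam x = lam := by
          unfold tc
          rw [min_eq_right hx'.le, max_eq_right (by linarith)]
        rw [e, abs_of_nonneg (by linarith)]
        linarith
      · rw [abs_of_neg h0] at hx' ⊢
        have e : tc lam x = -lam := by
          unfold tc
          rw [min_eq_left (by linarith), max_eq_left (by linarith)]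
        rw [e, abs_of_nonpos (by linarith)]
        linarith
    refine h1.trans ?_
    rw [le_div_iff₀ h, ← sq_abs]
    nlinarith [abs_nonneg x]

lemma measurable_tc (lam : ℝ) : Measurable (tc lam) := by
  unfold tc
  exact measurable_const.max (measurable_id.min measurable_const)

section gen

variable {n K : ℕ} [NeZero n] [NeZero K] {A : Matrix (V n) (V n) ℝ} {ν c W : ℝ}

lemma nf_dom (h : Dom A ν c) : Nf A := by
  refine ⟨h.ti, fun k hk => ?_, h.zero⟩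
  have hν := h.hν
  have hc := h.hc
  have hE := EE_pos hk
  exact lt_of_lt_of_le (by positivity) (h.ge k)

lemma sum_sq_mv {B : Matrix (V n) (V n) ℝ} (hB : TI B) {s : ℝ} (h : ∀ k, sym B k ^ 2 ≤ s)
    (g : V n → ℝ) : ∑ x, (B *ᵥ g) x ^ 2 ≤ s * ∑ x, g x ^ 2 := by
  have h1 := (H864.qf_le_iff (hB.mul hB) (TI.one.smul s)).2 (fun k => by
    rw [H864.sym_smul, H864.sym_one, mul_one, H864.sym_mul hB hB, ← pow_two]
    exact h k) g
  have e1 : qf (B * B) g = ∑ x, (B *ᵥ g) x ^ 2 := by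
    rw [H37.qf_eq, ← mulVec_mulVec, dotProduct_mulVec, ← mulVec_transpose, hB.transpose]
    exact Finset.sum_congr rfl fun x _ => (pow_two _).symm
  have e2 : qf (s • (1 : Matrix (V n) (V n) ℝ)) g = s * ∑ x, g x ^ 2 := by
    rw [H37.qf_eq, smul_mulVec, one_mulVec, dotProduct_smul, smul_eq_mul]
    congr 1
    exact Finset.sum_congr rfl fun x _ => (pow_two _).symm
  rw [e1, e2] at h1
  exact h1

lemma inv_sym_le (h : Dom A ν c) (hW : 1 ≤ W) (hν : ν⁻¹ ≤ W) (hc : c⁻¹ ≤ W)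
    (hn : (n : ℝ) ^ 2 ≤ W) (k : V n) : (sym A k)⁻¹ ≤ 2 * W ^ 2 := by
  have hν0 := h.hν
  have hc0 := h.hc
  by_cases hk : k = 0
  · rw [hk, h.zero, _root_.inv_zero]
    positivity
  · have hE := EE_pos hk
    have hn0 : (0 : ℝ) < (n : ℝ) ^ 2 := by
      have : (n : ℝ) ≠ 0 := by exact_mod_cast NeZero.ne n
      positivity
    have h1 := h.ge k
    have h2 : 0 < ν * (c * EE k) / (ν + c * EE k) := by positivity
    have h3 : (sym A k)⁻¹ ≤ (ν * (c * EE k) / (ν + c * EE k))⁻¹ := inv_anti₀ h2 h1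
    refine h3.trans ?_
    have e : (ν * (c * EE k) / (ν + c * EE k))⁻¹ = c⁻¹ * (EE k)⁻¹ + ν⁻¹ := by
      field_simp
    rw [e]
    have h4 : (EE k)⁻¹ ≤ W := by
      have h5 := inv_anti₀ (by positivity) (EE_gap hk)
      refine h5.trans ?_
      rw [inv_div]
      linarith
    have h5 : c⁻¹ * (EE k)⁻¹ ≤ W * W := mul_le_mul hc h4 (by positivity) (by linarith)
    nlinarith

lemma pin_norm (h : Dom A ν c) (hW : 1 ≤ W) (hν : ν⁻¹ ≤ W) (hc : c⁻¹ ≤ W)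
    (hn : (n : ℝ) ^ 2 ≤ W) (g : V n → ℝ) :
    ∑ x, (pin A *ᵥ g) x ^ 2 ≤ 2 * W ^ 2 * ∑ x, g x ^ 2 := by
  refine sum_sq_mv (ti_pin A) (fun k => ?_) g
  rw [sym_pin, Real.sq_sqrt (inv_nonneg.2 (h.nn k))]
  exact inv_sym_le h hW hν hc hn k

lemma qf_dom (h : Dom A ν c) (u : V n → ℝ) : qf A u ≤ ν * ∑ x, u x ^ 2 := by
  have h1 := (H864.qf_le_iff h.ti (TI.one.smul ν)).2 (fun k => by
    rw [H864.sym_smul, H864.sym_one, mul_one]
    exact h.le k) u
  refine h1.trans (le_of_eq ?_)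
  rw [H37.qf_eq, smul_mulVec, one_mulVec, dotProduct_smul, smul_eq_mul]
  congr 1
  exact Finset.sum_congr rfl fun x _ => (pow_two _).symm

/-! ### weights -/

lemma sum_bx {D1 : ℕ} (hD : 2 * D1 < n) (j : ℕ) :
    ∑ y, bx n D1 (Gp j) y ^ 2 ≤ (2 * (D1 : ℝ) + 1) ^ 2 * ((D1 : ℝ) ^ (2 - j)) ^ 2 := by
  have h1 : ∑ y, bx n D1 (Gp j) y ^ 2 = ∑ y ∈ box 0 D1, bx n D1 (Gp j) y ^ 2 := by
    symm
    refine Finset.sum_subset (Finset.subset_univ _) fun y _ hy => ?_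
    unfold bx
    rw [if_neg hy, zero_pow two_ne_zero]
  rw [h1, sum_box hD]
  have h2 : ∀ ζ ∈ zb D1, bx n D1 (Gp j) (0 + ip n ζ) ^ 2 ≤ ((D1 : ℝ) ^ (2 - j)) ^ 2 := by
    intro ζ hζ
    rw [zero_add, bx_ip hD _ hζ]
    unfold Gp
    have h3 : |(ζ.1 : ℝ)| ≤ D1 := by
      have h4 := (mem_zb.1 hζ).1
      rw [← Int.cast_abs, Int.abs_eq_natAbs]
      exact_mod_cast h4
    rw [← sq_abs, abs_pow]
    exact pow_le_pow_left₀ (by positivity) (pow_le_pow_left₀ (abs_nonneg _) h3 _) 2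
  refine (Finset.sum_le_sum h2).trans (le_of_eq ?_)
  rw [Finset.sum_const, nsmul_eq_mul, card_zb]

lemma w0_le (y : V n) : w0 n y ≤ (n : ℝ) ^ 2 := by
  unfold w0
  have h1 : |(y.1.valMinAbs : ℝ)| ≤ n := by
    have h2 := ZMod.natAbs_valMinAbs_le y.1
    rw [← Int.cast_abs, Int.abs_eq_natAbs]
    have : y.1.valMinAbs.natAbs ≤ n := by omega
    exact_mod_cast this
  rw [← sq_abs]
  exact pow_le_pow_left₀ (abs_nonneg _) h1 2

lemma qf_w0 (h : Dom A ν c) (hW : 1 ≤ W) (hν1 : ν ≤ 1) (hn : (n : ℝ) ^ 2 ≤ W) :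
    qf A (w0 n) ≤ (W ^ 2) ^ 2 := by
  have hν := h.hν
  refine (qf_dom h _).trans ?_
  have h1 : ∑ x, w0 n x ^ 2 ≤ W ^ 3 := by
    calc ∑ x, w0 n x ^ 2 ≤ ∑ _x : V n, W ^ 2 := by
          refine Finset.sum_le_sum fun x _ => ?_
          refine pow_le_pow_left₀ ?_ ((w0_le x).trans hn) 2
          unfold w0
          positivity
      _ = (n : ℝ) ^ 2 * W ^ 2 := by
          rw [Finset.sum_const, Finset.card_univ, nsmul_eq_mul, cardVr]
      _ ≤ W * W ^ 2 := mul_le_mul_of_nonneg_right hn (by positivity)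
      _ = W ^ 3 := by ring
  calc ν * ∑ x, w0 n x ^ 2 ≤ 1 * W ^ 3 :=
        mul_le_mul hν1 h1 (Finset.sum_nonneg fun _ _ => sq_nonneg _) zero_le_one
    _ ≤ (W ^ 2) ^ 2 := by
        have : 0 ≤ W ^ 3 * (W - 1) := by
          have : 0 ≤ W - 1 := by linarith
          positivity
        nlinarith

/-! ### the crude bound of a window functional -/

lemma qf_cst {B : Matrix (V K) (V K) ℝ} (hB : Nf B) (F : V K → ℝ) (a : ℝ) :
    qf B (fun v => F v + a) = qf B F := by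
  have e : (fun v => F v + a) = F + fun _ => a := rfl
  have h1 := Nf.mul_const hB a
  rw [H37.qf_eq, H37.qf_eq, e, mulVec_add, h1, add_zero, add_dotProduct]
  have h2 : (fun _ : V K => a) ⬝ᵥ (B *ᵥ F) = 0 := by
    rw [dotProduct_mulVec, ← mulVec_transpose, hB.ti.transpose, h1, zero_dotProduct]
  rw [h2, add_zero]

lemma cut_qf {B : Matrix (V K) (V K) ℝ} (hB : Nf B) {ν : ℝ} (hν : 0 ≤ ν)
    (hle : ∀ G, qf B G ≤ ν * ∑ v, G v ^ 2) (D : ℕ) (F : V K → ℝ) :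
    qf B (cutm D 0 F) ≤ ν * ∑ v ∈ box 0 D, F v ^ 2 := by
  set a := av D 0 F with ha
  set G : V K → ℝ := fun v => if v ∈ box 0 D then F v - a else 0 with hG
  have e : cutm D 0 F = fun v => G v + a := by
    funext v
    unfold H358.cutm
    rw [hG]
    simp only
    split_ifs <;> ring
  rw [e, qf_cst hB]
  refine (hle G).trans (mul_le_mul_of_nonneg_left ?_ hν)
  have h1 : ∑ v, G v ^ 2 = ∑ v ∈ box 0 D, (F v - a) ^ 2 := by
    have h2 : ∑ v, G v ^ 2 = ∑ v ∈ box 0 D, G v ^ 2 := by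
      symm
      refine Finset.sum_subset (Finset.subset_univ _) fun y _ hy => ?_
      rw [hG]
      simp only
      rw [if_neg hy, zero_pow two_ne_zero]
    rw [h2]
    refine Finset.sum_congr rfl fun v hv => ?_
    rw [hG]
    simp only
    rw [if_pos hv]
  rw [h1]
  have h3 := H358.sum_sub_av D (0 : V K) F
  rw [← ha] at h3
  have h4 : ∑ v ∈ box 0 D, F v ^ 2 = ∑ v ∈ box (0 : V K) D, (F v - a) ^ 2 +
      2 * a * ∑ v ∈ box (0 : V K) D, (F v - a) + ((box (0 : V K) D).card : ℝ) * a ^ 2 := by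
    rw [Finset.mul_sum, ← Finset.sum_add_distrib, ← nsmul_eq_mul, ← Finset.sum_const,
      ← Finset.sum_add_distrib]
    exact Finset.sum_congr rfl fun v _ => by ring
  rw [h4, h3, mul_zero, add_zero]
  have : 0 ≤ ((box (0 : V K) D).card : ℝ) * a ^ 2 := by positivity
  linarith

lemma trp_sum {D : ℕ} (hK : 2 * D < K) (hn : 2 * D < n) (x : V n) (F : V n → ℝ) :
    ∑ v ∈ box (0 : V K) D, trp D (0 : V K) x F v ^ 2 ≤ ∑ v, F v ^ 2 := by
  have h1 : ∑ v ∈ box (0 : V K) D, trp D (0 : V K) x F v ^ 2 = ∑ v ∈ box x D, F v ^ 2 := by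
    rw [sum_box hK, sum_box hn]
    refine Finset.sum_congr rfl fun ζ hζ => ?_
    unfold H733.Vt.trp
    rw [zz_ip hK hζ]
  rw [h1]
  exact Finset.sum_le_sum_of_subset_of_nonneg (Finset.subset_univ _) fun _ _ _ => sq_nonneg _

lemma wv_abs (hA : Nf A) (u g : V n → ℝ) {q : ℝ} (hq : qf A u ≤ q ^ 2) (hq0 : 0 ≤ q) :
    |wv A u ⬝ᵥ g| ≤ q * (1 + ∑ x, g x ^ 2) := by
  have h1 : (wv A u ⬝ᵥ g) ^ 2 ≤ (∑ x, wv A u x ^ 2) * ∑ x, g x ^ 2 :=
    Finset.sum_mul_sq_le_sq_mul_sq _ _ _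
  have h2 : ∑ x, wv A u x ^ 2 = qf A u := by
    rw [← wv_self hA]
    exact Finset.sum_congr rfl fun x _ => pow_two _
  have hg : 0 ≤ ∑ x, g x ^ 2 := Finset.sum_nonneg fun _ _ => sq_nonneg _
  refine abs_le_of_sq_le_sq ?_ (by positivity)
  rw [h2] at h1
  refine h1.trans ?_
  have h3 : qf A u * ∑ x, g x ^ 2 ≤ q ^ 2 * ∑ x, g x ^ 2 := mul_le_mul_of_nonneg_right hq hg
  refine h3.trans ?_
  rw [mul_pow]
  refine mul_le_mul_of_nonneg_left ?_ (by positivity)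
  nlinarith

/-! ### truncation of window functionals -/

/-- **truncation error** -/
theorem trunc_err {J : Type*} [Fintype J] {f : (J → ℝ) → ℝ} (hf : Measurable f)
    {B : Matrix J (V n) ℝ} (hA : Nf A) (hW : 1 ≤ W) (hn : (n : ℝ) ^ 2 ≤ W)
    (hP : ∀ g, |f (B *ᵥ g)| ≤ 5 * W ^ 2 * (1 + ∑ x, g x ^ 2)) {u : V n → ℝ} {q : ℝ}
    (hq : qf A u ≤ q ^ 2) (hq0 : 0 ≤ q) {lam : ℝ} (hlam : 0 < lam) :
    |∫ g, f (B *ᵥ g) * (wv A u ⬝ᵥ g) ∂(gau (V n)) -
      ∫ g, tc lam (f (B *ᵥ g)) * (wv A u ⬝ᵥ g) ∂(gau (V n))| ≤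
      4 * 10 ^ 8 * W ^ 8 * q / lam := by
  have hfm : Measurable fun g : V n → ℝ => f (B *ᵥ g) := hf.comp (H552.meas_mulVec B)
  have hwm : Measurable fun g : V n → ℝ => wv A u ⬝ᵥ g := H846.La.measurable_dot _
  have i1 : Integrable (fun g : V n → ℝ => f (B *ᵥ g) * (wv A u ⬝ᵥ g)) (gau (V n)) := by
    refine ((H375.int_sum_pow (I := V n) 2).const_mul (5 * W ^ 2 * q)).mono'
      (hfm.mul hwm).aestronglyMeasurable (Filter.Eventually.of_forall fun g => ?_)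
    rw [Real.norm_eq_abs, abs_mul]
    refine (mul_le_mul (hP g) (wv_abs hA u g hq hq0) (abs_nonneg _) (by positivity)).trans
      (le_of_eq ?_)
    ring
  have i2 : Integrable (fun g : V n → ℝ => tc lam (f (B *ᵥ g)) * (wv A u ⬝ᵥ g)) (gau (V n)) := by
    refine ((H375.int_sum_pow (I := V n) 2).const_mul (5 * W ^ 2 * q)).mono'
      (((measurable_tc lam).comp hfm).mul hwm).aestronglyMeasurable
      (Filter.Eventually.of_forall fun g => ?_)
    rw [Real.norm_eq_abs, abs_mul]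
    refine (mul_le_mul ((abs_tc_le' hlam.le _).trans (hP g)) (wv_abs hA u g hq hq0)
      (abs_nonneg _) (by positivity)).trans (le_of_eq ?_)
    ring
  rw [← integral_sub i1 i2]
  have h1 : ‖∫ g, (f (B *ᵥ g) * (wv A u ⬝ᵥ g) - tc lam (f (B *ᵥ g)) * (wv A u ⬝ᵥ g))
      ∂(gau (V n))‖ ≤ ∫ g, 25 * W ^ 4 * q / lam * (1 + ∑ x, g x ^ 2) ^ 4 ∂(gau (V n)) := by
    refine norm_integral_le_of_norm_le ((H375.int_sum_pow (I := V n) 4).const_mul _)
      (Filter.Eventually.of_forall fun g => ?_)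
    have hS : 1 ≤ 1 + ∑ x, g x ^ 2 := by
      have : 0 ≤ ∑ x, g x ^ 2 := Finset.sum_nonneg fun _ _ => sq_nonneg _
      linarith
    set S := 1 + ∑ x, g x ^ 2 with hSd
    rw [← sub_mul, Real.norm_eq_abs, abs_mul]
    have h2 : |f (B *ᵥ g) - tc lam (f (B *ᵥ g))| ≤ (5 * W ^ 2 * S) ^ 2 / lam := by
      refine (sub_tc_le hlam _).trans (div_le_div_of_nonneg_right ?_ hlam.le)
      rw [← sq_abs]
      exact pow_le_pow_left₀ (abs_nonneg _) (hP g) 2
    calc |f (B *ᵥ g) - tc lam (f (B *ᵥ g))| * |wv A u ⬝ᵥ g|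
        ≤ (5 * W ^ 2 * S) ^ 2 / lam * (q * S) :=
          mul_le_mul h2 (wv_abs hA u g hq hq0) (abs_nonneg _) (by positivity)
      _ = 25 * W ^ 4 * q / lam * S ^ 3 := by
          field_simp
          ring
      _ ≤ 25 * W ^ 4 * q / lam * S ^ 4 :=
          mul_le_mul_of_nonneg_left (pow_le_pow_right₀ hS (by norm_num)) (by positivity)
  rw [Real.norm_eq_abs] at h1
  refine h1.trans ?_
  rw [integral_const_mul]
  have h3 := H375.mom_four (I := V n)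
  rw [cardVr] at h3
  have h4 : ((n : ℝ) ^ 2 + 1) ^ 4 ≤ (2 * W) ^ 4 := pow_le_pow_left₀ (by positivity) (by linarith) 4
  calc 25 * W ^ 4 * q / lam * ∫ g : V n → ℝ, (1 + ∑ x, g x ^ 2) ^ 4 ∂(gau (V n))
      ≤ 25 * W ^ 4 * q / lam * (10 ^ 6 * (2 * W) ^ 4) := by
        refine mul_le_mul_of_nonneg_left (h3.trans ?_) (by positivity)
        exact mul_le_mul_of_nonneg_left h4 (by norm_num)
    _ = 4 * 10 ^ 8 * W ^ 8 * q / lam := by
        field_simp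
        ring

end gen

/-! ### the window functional of the remainder -/

section loc

variable {N l n : ℕ} [NeZero N] [NeZero (N / l)] [NeZero n] {b T : ℝ}

lemma V0x_cs (hb : 0 ≤ b) (hl : l ∣ N) (hT : 0 < T) (hN : Nf (acl N l b T T)) (x : V (N / l)) :
    Bld (V0x N l b T x) := by
  intro F a
  unfold V0x
  rw [H159.Mx_cs hb hl hT]
  have e : (fun y => F y + a) = F + fun _ => a := rfl
  rw [e, mulVec_add, Nf.mul_const hN, add_zero]

lemma rL_crude (hb : 0 ≤ b) (hl : l ∣ N) (hT : 0 < T) (h1 : oT N l b T ≤ 1 / 2)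
    (hN : Nf (acl N l b T T)) {D : ℕ} (hD : 2 * D < N / l) (hD' : 2 * D < n) (x : V n)
    (F : V n → ℝ) :
    |gl (V0x N l b T 0) D x F| ≤
      2 * (T * (l : ℝ) ^ 2) * ∑ v, F v ^ 2 + 3 * (T * (l : ℝ) ^ 2) + 2 := by
  unfold gl
  refine (V0x_crude hb hl hT h1 0 _).trans ?_
  have hν : 0 ≤ T * (l : ℝ) ^ 2 := by positivity
  have h2 := cut_qf hN hν (qf_acl_le (N := N) (l := l) (b := b) hb hl hT) D
    (trp D (0 : V (N / l)) x F)
  have h3 := mul_le_mul_of_nonneg_left (trp_sum (K := N / l) hD hD' x F) hν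
  linarith

/-- the crude bound of the block sum -/
lemma Phj_crude (hb : 0 ≤ b) (hl : l ∣ N) (hT : 0 < T) (h1 : oT N l b T ≤ 1 / 2)
    (hN : Nf (acl N l b T T)) {D m : ℕ} (hm : 1 ≤ m) (hD : 2 * D < N / l) (hD' : 2 * (D + m) < n)
    {A : Matrix (V n) (V n) ℝ} {c W : ℝ} (hA : Dom A (T * (l : ℝ) ^ 2) c) (hW : 1 ≤ W)
    (hν : (T * (l : ℝ) ^ 2)⁻¹ ≤ W) (hν1 : T * (l : ℝ) ^ 2 ≤ 1)
    (hνm : T * (l : ℝ) ^ 2 * (m : ℝ) ^ 2 ≤ 1) (hc : c⁻¹ ≤ W) (hn : (n : ℝ) ^ 2 ≤ W) (j : ℕ)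
    (g : V n → ℝ) :
    |Phj (V0x N l b T 0) D m j ((iw (D + m) (0 : V n) * pin A) *ᵥ g)| ≤
      5 * W ^ 2 * (1 + ∑ x, g x ^ 2) := by
  set ν := T * (l : ℝ) ^ 2 with hνd
  have hν0 : 0 < ν := hA.hν
  rw [← mulVec_mulVec, Phj_iw (V0x_cs hb hl hT hN 0)]
  set F := pin A *ᵥ g with hF
  have hS : 0 ≤ ∑ x, g x ^ 2 := Finset.sum_nonneg fun _ _ => sq_nonneg _
  have h2 : ∀ ζ ∈ blk m, |((ζ.1 : ℝ) / m) ^ j * gl (V0x N l b T 0) D (ip n ζ) F| ≤
      2 * ν * (2 * W ^ 2 * ∑ x, g x ^ 2) + 3 * ν + 2 := by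
    intro ζ hζ
    rw [abs_mul]
    have h3 := blk_le hm hζ j
    have h4 := rL_crude (N := N) (l := l) (b := b) (n := n) hb hl hT h1 hN hD (by omega)
      (ip n ζ) F
    have h5 := pin_norm hA hW hν hc hn g
    rw [← hF] at h5
    have h6 := mul_le_mul_of_nonneg_left h5 (show 0 ≤ 2 * ν by positivity)
    calc |((ζ.1 : ℝ) / m) ^ j| * |gl (V0x N l b T 0) D (ip n ζ) F|
        ≤ 1 * |gl (V0x N l b T 0) D (ip n ζ) F| :=
          mul_le_mul_of_nonneg_right h3 (abs_nonneg _)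
      _ ≤ _ := by
          rw [one_mul]
          linarith
  refine (Finset.abs_sum_le_sum_abs _ _).trans ((Finset.sum_le_sum h2).trans ?_)
  rw [Finset.sum_const, nsmul_eq_mul, card_blk]
  have hm2 : (m : ℝ) ^ 2 ≤ W := by
    have h7 : (m : ℝ) ^ 2 ≤ ν⁻¹ := by
      rw [← one_div, le_div_iff₀ hν0]
      linarith
    exact h7.trans hν
  have h8 : (m : ℝ) ^ 2 * (2 * ν * (2 * W ^ 2 * ∑ x, g x ^ 2) + 3 * ν + 2) =
      (ν * (m : ℝ) ^ 2) * (4 * W ^ 2 * ∑ x, g x ^ 2) + (m : ℝ) ^ 2 * (3 * ν + 2) := by ring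
  rw [h8]
  have h9 : (ν * (m : ℝ) ^ 2) * (4 * W ^ 2 * ∑ x, g x ^ 2) ≤ 1 * (4 * W ^ 2 * ∑ x, g x ^ 2) :=
    mul_le_mul_of_nonneg_right hνm (by positivity)
  have h10 : (m : ℝ) ^ 2 * (3 * ν + 2) ≤ W * 5 :=
    mul_le_mul hm2 (by linarith) (by positivity) (by linarith)
  have h11 : W ≤ W ^ 2 := by nlinarith
  nlinarith [mul_nonneg (sq_nonneg W) hS]

/-- twice the letter -/
lemma two_aq (hb : 0 ≤ b) (hl : l ∣ N) (hT : 0 < T) :
    2 * aq N l b T = ∫ g, Mx N l b T 0 (pin (acl N l b T T) *ᵥ g) *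
      (wv (acl N l b T T) (w0 (N / l)) ⬝ᵥ g) ∂(gau (V (N / l))) := by
  have hA : TI (acl N l b T T) := ti_acl hb hl hT (le_refl T)
  have i1 : ∀ z, Integrable (fun g : V (N / l) → ℝ => w0 (N / l) z *
      (Mx N l b T 0 (pin (acl N l b T T) *ᵥ g) *
        (acl N l b T T *ᵥ (pin (acl N l b T T) *ᵥ g)) z)) (gau (V (N / l))) := fun z =>
    (H708.egr_integrable ((egr_mv (egr_Mx hb hl hT 0) _).mul
      (egr_mv (egr_lin' _ z) _))).const_mul _
  have e1 : ∀ z : V (N / l), (z.1.valMinAbs : ℝ) ^ 2 * qz N l b T z =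
      -∫ g, w0 (N / l) z * (Mx N l b T 0 (pin (acl N l b T T) *ᵥ g) *
        (acl N l b T T *ᵥ (pin (acl N l b T T) *ᵥ g)) z) ∂(gau (V (N / l))) := by
    intro z
    rw [integral_const_mul]
    unfold qz w0
    ring
  unfold aq
  rw [Finset.sum_congr rfl fun z _ => e1 z, Finset.sum_neg_distrib,
    ← integral_finsetSum _ fun z _ => i1 z]
  have e2 : ∫ g, ∑ z, w0 (N / l) z * (Mx N l b T 0 (pin (acl N l b T T) *ᵥ g) *
        (acl N l b T T *ᵥ (pin (acl N l b T T) *ᵥ g)) z) ∂(gau (V (N / l))) =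
      ∫ g, Mx N l b T 0 (pin (acl N l b T T) *ᵥ g) *
      (wv (acl N l b T T) (w0 (N / l)) ⬝ᵥ g) ∂(gau (V (N / l))) := by
    refine integral_congr_ae (Filter.Eventually.of_forall fun g => ?_)
    simp only
    rw [wv_dot hA, Finset.mul_sum]
    exact Finset.sum_congr rfl fun z _ => by ring
  rw [e2]
  ring

end loc

/-- **the letter through the window**: error `e0 W²` -/
theorem two_aq_loc {B M l : ℕ} [NeZero B] [NeZero M] [NeZero (B / l)] [NeZero (M / l)]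
    {b T : ℝ} {D0 m : ℕ} {c e0 W : ℝ} (hb : 0 ≤ b) (hT : 0 < T) (hlB : l ∣ B)
    (h : P6t B M l b T D0 m c e0 W) (he0 : 0 ≤ e0) (hW : 1 ≤ W) (hν1 : T * (l : ℝ) ^ 2 ≤ 1) :
    |2 * aq M l b T - ∫ g, gl (Mx B l b T 0) D0 0 (pin (acl M l b T T) *ᵥ g) *
      (wv (acl M l b T T) (w0 (M / l)) ⬝ᵥ g) ∂(gau (V (M / l)))| ≤ e0 * W ^ 2 := by
  have hN : Nf (acl M l b T T) := nf_dom h.dom
  rw [two_aq hb h.hl hT]
  have ew : EGr fun g : V (M / l) → ℝ => wv (acl M l b T T) (w0 (M / l)) ⬝ᵥ g := by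
    have e : (fun g : V (M / l) → ℝ => wv (acl M l b T T) (w0 (M / l)) ⬝ᵥ g) =
      fun g => ∑ x, wv (acl M l b T T) (w0 (M / l)) x * g x := rfl
    rw [e]
    exact H159.egr_sum _ fun x _ => (H159.egr_coord x).cmul _
  have eM : EGr fun g : V (M / l) → ℝ => Mx M l b T 0 (pin (acl M l b T T) *ᵥ g) :=
    egr_mv (egr_Mx hb h.hl hT 0) _
  have eG : EGr fun g : V (M / l) → ℝ => gl (Mx B l b T 0) D0 0 (pin (acl M l b T T) *ᵥ g) :=
    egr_mv (egr_gl (egr_Mx hb hlB hT 0) D0 0) _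
  have eD := eM.sub eG
  rw [← integral_sub (H708.egr_integrable (eM.mul ew)) (H708.egr_integrable (eG.mul ew))]
  have e1 : ∀ g : V (M / l) → ℝ, Mx M l b T 0 (pin (acl M l b T T) *ᵥ g) *
      (wv (acl M l b T T) (w0 (M / l)) ⬝ᵥ g) - gl (Mx B l b T 0) D0 0
        (pin (acl M l b T T) *ᵥ g) * (wv (acl M l b T T) (w0 (M / l)) ⬝ᵥ g) =
      (Mx M l b T 0 (pin (acl M l b T T) *ᵥ g) - gl (Mx B l b T 0) D0 0
        (pin (acl M l b T T) *ᵥ g)) * (wv (acl M l b T T) (w0 (M / l)) ⬝ᵥ g) := fun g => by ring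
  simp only [e1]
  have sqe : ∀ {Φ : (V (M / l) → ℝ) → ℝ}, EGr Φ → Integrable (fun g => Φ g ^ 2)
      (gau (V (M / l))) := fun hΦ => by
    have := H708.egr_integrable (hΦ.mul hΦ)
    simpa only [← pow_two] using this
  have h1 := H552.int_cs (sqe eD) (sqe ew) (H708.egr_integrable (eD.mul ew))
  have h2 : ∫ g, (wv (acl M l b T T) (w0 (M / l)) ⬝ᵥ g) ^ 2 ∂(gau (V (M / l))) ≤
      (W ^ 2) ^ 2 := by
    refine le_trans (le_of_eq ?_) (qf_w0 h.dom hW hν1 h.W)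
    rw [← wv_self hN]
    have h4 : wv (acl M l b T T) (w0 (M / l)) ⬝ᵥ wv (acl M l b T T) (w0 (M / l)) =
      ∑ i, wv (acl M l b T T) (w0 (M / l)) i * wv (acl M l b T T) (w0 (M / l)) i := rfl
    rw [h4, ← H663.gau_lin_mul]
    refine integral_congr_ae (Filter.Eventually.of_forall fun g => ?_)
    simp only
    rw [pow_two]
    rfl
  have h5 := h.loc 0
  refine abs_le_of_sq_le_sq ?_ (by positivity)
  refine h1.trans ?_
  rw [mul_pow]
  exact mul_le_mul h5 h2 (integral_nonneg fun _ => sq_nonneg _) (by positivity)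

end

end Vale.Agent.P159.H462
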