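import Vale.Agent.P159.H462.Q6

/-!
P159 (helper462), P#, **(P6)**, part 7: the `L2` size of the block sum on the base torus.
-/

set_option linter.unusedSectionVars false
set_option linter.unusedVariables false

namespace Vale.Agent.P159.H462

open Finset MeasureTheory Matrix
open Vale.Agent.P159.H37
open Vale.Agent.P159.H43 (omT omH)
open Vale.Agent.P159.H363 (pin ti_pin sym_pin Nf sh sh_mulVec gau_permE sh_eq acl ti_acl Rcl
  Rcl_nonneg wm_MC n2 n2_nonneg n2_sq n2_le n2_add_le n2_sub_le n2_const_mul n2_sum_le n2_mono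
  n2_le_const memLp_bdd n2_congr)
open Vale.Agent.P159.TM.Spec (V)
open Vale.Agent.P159.TM.SpecC (Tor wT)
open Vale.Agent.P159.TM.H764 (EE)
open Vale.Agent.P159.H864 (TI sym MC)
open Vale.Agent.P159.H963 (Pn)
open Vale.Agent.P159.H358 (cutm av cutm_add continuous_cutm av_add cutm_congr sh_cutm)
open Vale.Agent.P159.H733.Torg (ip ip_zero val_ip ip_inj)
open Vale.Agent.P159.H733.Vt (zb trp iw iw_mulVec trp_iw rz Jz mem_zb add_mem_zb zb_mono ip_add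
  ip_mem_box zz zz_mem zz_ip measurable_rz trp_sh zero_mem_zb sum_box card_zb add_ip_zz)

noncomputable section

/-! ### `L2` norms of real functions -/

section l2

variable {I : Type*} [Fintype I]

lemma memLp_egr {Φ : (I → ℝ) → ℝ} (h : EGr Φ) : MemLp (fun g => (Φ g : ℂ)) 2 (gau I) := by
  have hm : Measurable fun g => (Φ g : ℂ) := Complex.measurable_ofReal.comp h.meas
  refine (memLp_two_iff_integrable_sq_norm hm.aestronglyMeasurable).2 ?_
  have h1 := H708.egr_integrable (h.mul h)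
  refine h1.congr (Filter.Eventually.of_forall fun g => ?_)
  simp only
  rw [Complex.norm_real, Real.norm_eq_abs, sq_abs, pow_two]

lemma n2_egr {Φ : (I → ℝ) → ℝ} (h : EGr Φ) {c : ℝ} (hc : 0 ≤ c) :
    n2 (gau I) (fun g => (Φ g : ℂ)) ≤ c ↔ ∫ g, Φ g ^ 2 ∂(gau I) ≤ c ^ 2 := by
  rw [n2_le (memLp_egr h) hc]
  have e : ∀ g, ‖(Φ g : ℂ)‖ ^ 2 = Φ g ^ 2 := fun g => by
    rw [Complex.norm_real, Real.norm_eq_abs, sq_abs]
  simp only [e]

/-- domination of the growth -/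
lemma egr_le {Φ Ψ : (I → ℝ) → ℝ} (hm : Measurable Φ) (hΨ : EGr Ψ) (h : ∀ g, |Φ g| ≤ Ψ g) :
    EGr Φ := by
  obtain ⟨C, hC, hb⟩ := hΨ.bdd
  exact ⟨hm, C, hC, fun g => (h g).trans ((le_abs_self _).trans (hb g))⟩

end l2

section base

variable {N l : ℕ} [NeZero N] [NeZero (N / l)] {b T : ℝ}

lemma egr_Rcl (hb : 0 ≤ b) (hl : l ∣ N) (hT : 0 < T) (G : V (N / l) → ℝ)
    (C : Matrix (V (N / l)) (V (N / l)) ℝ) :
    EGr fun g : V (N / l) → ℝ => Rcl N l b T T (C *ᵥ g + G) := by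
  have hm : Measurable fun g : V (N / l) → ℝ => Rcl N l b T T (C *ᵥ g + G) :=
    ((H363.continuous_Rcl hb hl hT (le_refl T)).comp
      ((Continuous.matrix_mulVec continuous_const continuous_id).add
        continuous_const)).measurable
  have h1 : EGr fun g : V (N / l) → ℝ => 1 / 2 * qf (acl N l b T T) (G + C *ᵥ g) :=
    (H159.egr_lin (H159.egr_qf (acl N l b T T)) G C).cmul (1 / 2)
  refine egr_le hm h1 fun g => ?_
  rw [abs_of_nonneg (Rcl_nonneg hb hl hT (le_refl T) _), add_comm G]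
  refine (Rcl_le_qf hb hl hT _).trans (le_of_eq ?_)
  ring

/-- the window functional on its own torus -/
lemma gl_self {D : ℕ} (x : V (N / l)) (F : V (N / l) → ℝ) :
    cutm D 0 (trp D (0 : V (N / l)) x F) = sh x (cutm D x F) := by
  have h1 := sh_cutm D x (0 : V (N / l)) F
  rw [zero_add] at h1
  rw [h1]
  refine cutm_congr fun v hv => ?_
  unfold H733.Vt.trp H363.sh
  have h2 := add_ip_zz hv
  rw [zero_add] at h2
  rw [h2, add_comm]

lemma gl_V0x (hb : 0 ≤ b) (hl : l ∣ N) (hT : 0 < T) (D : ℕ) (x : V (N / l))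
    (F : V (N / l) → ℝ) :
    gl (V0x N l b T 0) D x F = V0x N l b T x F +
      -(Mx N l b T x F - gl (Mx N l b T 0) D x F) +
      ((acl N l b T T *ᵥ cutm D x F) x - (acl N l b T T *ᵥ F) x) := by
  have h1 : (acl N l b T T *ᵥ cutm D 0 (trp D (0 : V (N / l)) x F)) 0 =
      (acl N l b T T *ᵥ cutm D x F) x := by
    rw [gl_self, ← sh_mulVec (ti_acl hb hl hT (le_refl T))]
    unfold H363.sh
    rw [zero_add]
  unfold gl V0x
  rw [h1]
  ring

/-- block weights as a field -/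
def gb (n : ℕ) [NeZero n] (m : ℕ) (a : ℤ × ℤ → ℝ) (x : V n) : ℝ :=
  ∑ ζ ∈ blk m, if ip n ζ = x then a ζ else 0

lemma sum_gb {n : ℕ} [NeZero n] (m : ℕ) (a : ℤ × ℤ → ℝ) (f : V n → ℝ) :
    ∑ x, gb n m a x * f x = ∑ ζ ∈ blk m, a ζ * f (ip n ζ) := by
  unfold gb
  simp only [Finset.sum_mul]
  rw [Finset.sum_comm]
  refine Finset.sum_congr rfl fun ζ _ => ?_
  simp only [ite_mul, zero_mul, Finset.sum_ite_eq, Finset.mem_univ, if_true]

lemma sum_gbC {n : ℕ} [NeZero n] (m : ℕ) (a : ℤ × ℤ → ℝ) (f : V n → ℂ) :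
    ∑ x, (gb n m a x : ℂ) * f x = ∑ ζ ∈ blk m, (a ζ : ℂ) * f (ip n ζ) := by
  unfold gb
  simp only [Complex.ofReal_sum, Finset.sum_mul]
  rw [Finset.sum_comm]
  refine Finset.sum_congr rfl fun ζ _ => ?_
  have e : ∀ x : V n, (((if ip n ζ = x then a ζ else 0 : ℝ)) : ℂ) * f x =
      if ip n ζ = x then (a ζ : ℂ) * f x else 0 := fun x => by
    split_ifs <;> simp
  rw [Finset.sum_congr rfl fun x _ => e x]
  simp only [Finset.sum_ite_eq, Finset.mem_univ, if_true]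

lemma gb_ip {n : ℕ} [NeZero n] {m : ℕ} (hm : 2 * m < n) (a : ℤ × ℤ → ℝ) {ζ : ℤ × ℤ}
    (hζ : ζ ∈ blk m) : gb n m a (ip n ζ) = a ζ := by
  unfold gb
  rw [Finset.sum_eq_single ζ]
  · rw [if_pos rfl]
  · intro ξ hξ hne
    rw [if_neg fun h => hne ?_]
    have h1 := mem_zb.1 (blk_zb hζ)
    have h2 := mem_zb.1 (blk_zb hξ)
    exact ip_inj hm h2.1 h2.2 h1.1 h1.2 h
  · intro h
    exact absurd hζ h

lemma sum_gb_sq {n : ℕ} [NeZero n] {m : ℕ} (hm : 2 * m < n) {a : ℤ × ℤ → ℝ}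
    (ha : ∀ ζ ∈ blk m, |a ζ| ≤ 1) : ∑ x, gb n m a x ^ 2 ≤ (m : ℝ) ^ 2 := by
  have h1 : ∑ x, gb n m a x ^ 2 = ∑ x, gb n m a x * gb n m a x :=
    Finset.sum_congr rfl fun _ _ => pow_two _
  rw [h1, sum_gb]
  have h2 : ∀ ζ ∈ blk m, a ζ * gb n m a (ip n ζ) ≤ 1 := by
    intro ζ hζ
    rw [gb_ip hm a hζ, ← pow_two, ← sq_abs]
    exact pow_le_one₀ (abs_nonneg _) (ha ζ hζ)
  refine (Finset.sum_le_sum h2).trans (le_of_eq ?_)
  rw [Finset.sum_const, nsmul_eq_mul, card_blk, mul_one]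

end base

/-- **the size of the block sum on the base torus** -/
theorem Phj_L2 {N1 N2 N3 l : ℕ} [NeZero N1] [NeZero N2] [NeZero N3] [NeZero (N1 / l)]
    [NeZero (N2 / l)] [NeZero (N3 / l)] {b T : ℝ} {D0 m : ℕ}
    {c W e0 δ εA Yu εH η12 η23 : ℝ} (h : P6h N1 N2 N3 l b T D0 m c W e0 δ εA Yu εH η12 η23)
    (j : ℕ) :
    ∫ g, Phj (V0x N1 l b T 0) D0 m j ((iw (D0 + m) (0 : V (N1 / l)) *
      pin (acl N1 l b T T)) *ᵥ g) ^ 2 ∂(gau (V (N1 / l))) ≤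
      R6 N1 l b T δ εA Yu εH W e0 ^ 2 := by
  have hb := h.hb
  have hT := h.hT
  have hl := h.t1.hl
  have h1 := h.oT1
  have hδ := h.hδ
  have hεA := h.hεA
  have hYu := h.hYu
  have he0 := h.he0
  have hW := h.W1
  have hν : 0 < T * (l : ℝ) ^ 2 := h.t1.dom.hν
  have hN : Nf (acl N1 l b T T) := nf_dom h.t1.dom
  have hw := wm_MC (N := N1) (l := l) (b := b) hb hl hT (le_refl T)
  have hH0 := H43.omH_nonneg hw
  have hT0 : 0 ≤ oT N1 l b T := H43.omT_nonneg hw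
  have hHT : omH (wT b N1) (MC N1 l T T) ≤ oT N1 l b T := by
    have hE := H43.omT_eq hw
    have hom : 0 ≤ H896.om (wT b N1) (MC N1 l T T) 1 :=
      (norm_nonneg _).trans (H43.norm_Phq_om hw 1 (0 : V N1 → ℝ))
    have eo : oT N1 l b T = omT (wT b N1) (MC N1 l T T) := rfl
    rw [eo]
    linarith
  have hεH : 0 ≤ εH := hH0.trans h.oH
  have hm2 : (m : ℝ) ^ 2 ≤ W := by
    have h7 : (m : ℝ) ^ 2 ≤ (T * (l : ℝ) ^ 2)⁻¹ := by
      rw [← one_div, le_div_iff₀ hν]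
      have := h.hνm
      linarith
    exact h7.trans h.Wν
  set A := acl N1 l b T T with hA
  set P := pin A with hP
  set γ := gau (V (N1 / l)) with hγ
  -- weights
  obtain ⟨a, ha⟩ : ∃ a : ℤ × ℤ → ℝ, a = fun ζ => ((ζ.1 : ℝ) / m) ^ j := ⟨_, rfl⟩
  have ha1 : ∀ ζ ∈ blk m, |a ζ| ≤ 1 := fun ζ hζ => by
    rw [ha]
    exact blk_le h.hm hζ j
  have hfit := h.t1.fit
  have hsq := sum_gb_sq (n := N1 / l) (m := m) (by omega) ha1
  set G := gb (N1 / l) m a with hG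
  have hνG : T * (l : ℝ) ^ 2 * ∑ x, G x ^ 2 ≤ 1 :=
    (mul_le_mul_of_nonneg_left hsq hν.le).trans h.hνm
  -- the three pieces
  obtain ⟨X, hX⟩ : ∃ X : (V (N1 / l) → ℝ) → ℝ, X = fun g =>
    ∑ ζ ∈ blk m, a ζ * V0x N1 l b T (ip _ ζ) (P *ᵥ g) := ⟨_, rfl⟩
  obtain ⟨Y, hY⟩ : ∃ Y : ℤ × ℤ → (V (N1 / l) → ℝ) → ℝ, Y = fun ζ g =>
    Mx N1 l b T (ip _ ζ) (P *ᵥ g) - gl (Mx N1 l b T 0) D0 (ip _ ζ) (P *ᵥ g) := ⟨_, rfl⟩
  obtain ⟨Z, hZ⟩ : ∃ Z : ℤ × ℤ → (V (N1 / l) → ℝ) → ℝ, Z = fun ζ g =>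
    (A *ᵥ cutm D0 (ip _ ζ) (P *ᵥ g)) (ip _ ζ) - (A *ᵥ (P *ᵥ g)) (ip _ ζ) := ⟨_, rfl⟩
  have eX : EGr X := by
    rw [hX]
    exact H159.egr_sum _ fun ζ _ => (egr_mv (egr_V0x hb hl hT _) P).cmul _
  have eY : ∀ ζ, EGr (Y ζ) := fun ζ => by
    rw [hY]
    exact (egr_mv (egr_Mx hb hl hT _) P).sub (egr_mv (egr_gl (egr_Mx hb hl hT 0) D0 _) P)
  have eZ : ∀ ζ, EGr (Z ζ) := fun ζ => by
    have e : Z ζ = fun g => ((A * cL (N1 / l) D0 (ip (N1 / l) ζ)) *ᵥ (P *ᵥ g)) 0 -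
        (A *ᵥ (P *ᵥ g)) (ip _ ζ) := by
      funext g
      rw [hZ]
      simp only
      rw [← mulVec_mulVec (P *ᵥ g) A, cL_mulVec, gl_self, ← sh_mulVec hN.ti]
      unfold H363.sh
      rw [zero_add]
    rw [e]
    exact (egr_mv (egr_mv (H159.egr_coord 0) _) P).sub (egr_mv (egr_lin' A _) P)
  have split : ∀ g, Phj (V0x N1 l b T 0) D0 m j ((iw (D0 + m) (0 : V (N1 / l)) * P) *ᵥ g) =
      X g + ∑ ζ ∈ blk m, a ζ * (-(Y ζ g) + Z ζ g) := by
    intro g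
    rw [← mulVec_mulVec, Phj_iw (V0x_cs hb hl hT hN 0), hX, ← Finset.sum_add_distrib]
    refine Finset.sum_congr rfl fun ζ _ => ?_
    rw [gl_V0x hb hl hT, hY, hZ, ha]
    ring
  have eR : EGr fun g => ∑ ζ ∈ blk m, a ζ * (-(Y ζ g) + Z ζ g) :=
    H159.egr_sum _ fun ζ _ => ((eY ζ).neg.add (eZ ζ)).cmul _
  have eF : EGr fun g => Phj (V0x N1 l b T 0) D0 m j
      ((iw (D0 + m) (0 : V (N1 / l)) * P) *ᵥ g) := by
    have := eX.add eR
    simp only [split]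
    exact this
  have hR0 : 0 ≤ R6 N1 l b T δ εA Yu εH W e0 := by
    unfold R6
    positivity
  refine (n2_egr eF hR0).1 ?_
  have e1 : (fun g => ((Phj (V0x N1 l b T 0) D0 m j
      ((iw (D0 + m) (0 : V (N1 / l)) * P) *ᵥ g) : ℝ) : ℂ)) = fun g => (X g : ℂ) +
        ((∑ ζ ∈ blk m, a ζ * (-(Y ζ g) + Z ζ g) : ℝ) : ℂ) := by
    funext g
    rw [split]
    push_cast
    ring
  rw [e1]
  refine (n2_add_le (memLp_egr eX) (memLp_egr eR)).trans ?_
  -- the errors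
  have s1 : n2 γ (fun g => ((∑ ζ ∈ blk m, a ζ * (-(Y ζ g) + Z ζ g) : ℝ) : ℂ)) ≤
      W * e0 + εA := by
    have e2 : (fun g => ((∑ ζ ∈ blk m, a ζ * (-(Y ζ g) + Z ζ g) : ℝ) : ℂ)) = fun g =>
        ∑ ζ ∈ blk m, ((a ζ * (-(Y ζ g) + Z ζ g) : ℝ) : ℂ) := by
      funext g
      push_cast
      rfl
    rw [e2]
    refine (n2_sum_le _ fun ζ _ => memLp_egr (((eY ζ).neg.add (eZ ζ)).cmul (a ζ))).trans ?_
    have h3 : ∀ ζ ∈ blk m, n2 γ (fun g => ((a ζ * (-(Y ζ g) + Z ζ g) : ℝ) : ℂ)) ≤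
        e0 + T * (l : ℝ) ^ 2 * εA := by
      intro ζ hζ
      have e3 : (fun g => ((a ζ * (-(Y ζ g) + Z ζ g) : ℝ) : ℂ)) = fun g =>
          (a ζ : ℂ) * ((Z ζ g : ℂ) - (Y ζ g : ℂ)) := by
        funext g
        push_cast
        ring
      rw [e3, n2_const_mul]
      have h4 : n2 γ (fun g => (Z ζ g : ℂ) - (Y ζ g : ℂ)) ≤ e0 + T * (l : ℝ) ^ 2 * εA := by
        refine (n2_sub_le (memLp_egr (eZ ζ)) (memLp_egr (eY ζ))).trans ?_
        have h5 : n2 γ (fun g => (Y ζ g : ℂ)) ≤ e0 := by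
          refine (n2_egr (eY ζ) he0).2 ?_
          have := h.t1.loc (ip _ ζ)
          rw [hY]
          exact this
        have h6 : n2 γ (fun g => (Z ζ g : ℂ)) ≤ T * (l : ℝ) ^ 2 * εA := by
          refine (n2_egr (eZ ζ) (by positivity)).2 ?_
          have := h.out (ip _ ζ)
          rw [hZ]
          exact this
        linarith
      have h7 : ‖(a ζ : ℂ)‖ ≤ 1 := by
        rw [Complex.norm_real, Real.norm_eq_abs]
        exact ha1 ζ hζ
      calc ‖(a ζ : ℂ)‖ * n2 γ (fun g => (Z ζ g : ℂ) - (Y ζ g : ℂ))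
          ≤ 1 * n2 γ (fun g => (Z ζ g : ℂ) - (Y ζ g : ℂ)) :=
            mul_le_mul_of_nonneg_right h7 (n2_nonneg _)
        _ ≤ _ := by rw [one_mul]; exact h4
    refine (Finset.sum_le_sum h3).trans ?_
    rw [Finset.sum_const, nsmul_eq_mul, card_blk, mul_add]
    have h8 := mul_le_mul_of_nonneg_right hm2 he0
    have h9 := mul_le_mul_of_nonneg_right h.hνm hεA
    have h10 : (m : ℝ) ^ 2 * (T * (l : ℝ) ^ 2 * εA) = T * (l : ℝ) ^ 2 * (m : ℝ) ^ 2 * εA := by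
      ring
    rw [h10]
    linarith
  -- the main part
  have s2 : n2 γ (fun g => (X g : ℂ)) ≤ 4 * δ + 7 * oT N1 l b T * Yu + 5 * εH := by
    obtain ⟨Rp, hRp⟩ : ∃ Rp : (V (N1 / l) → ℝ) → ℝ, Rp = fun g =>
      Rcl N1 l b T T (P *ᵥ g + G) := ⟨_, rfl⟩
    obtain ⟨Rm, hRm⟩ : ∃ Rm : (V (N1 / l) → ℝ) → ℝ, Rm = fun g =>
      Rcl N1 l b T T (P *ᵥ g + -G) := ⟨_, rfl⟩
    have eRp : EGr Rp := by
      rw [hRp]
      exact egr_Rcl hb hl hT G P
    have eRm : EGr Rm := by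
      rw [hRm]
      exact egr_Rcl hb hl hT (-G) P
    obtain ⟨U, hU⟩ : ∃ U : (V (N1 / l) → ℝ) → ℂ, U = fun g =>
      ∑ ζ ∈ blk m, (a ζ : ℂ) * H889.uc N1 l b T (ip _ ζ) (P *ᵥ g) := ⟨_, rfl⟩
    have mu : ∀ x, MemLp (fun g => H889.uc N1 l b T x (P *ᵥ g)) 2 γ := fun x =>
      memLp_bdd (((H889.continuous_uc hb hT x).comp
        (Continuous.matrix_mulVec continuous_const continuous_id)).aestronglyMeasurable)
        fun g => H889.norm_uc_le hb hT hl x _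
    have mU : MemLp U 2 γ := by
      rw [hU]
      exact H363.memLp_sum _ fun ζ _ => (mu _).const_mul _
    -- pointwise
    have hpt : ∀ g, |X g| ≤ 3 / 2 * (Rp g + Rm g) +
        (2 * Real.pi * oT N1 l b T * ‖U g‖ + 5 * εH) := by
      intro g
      have h3 := V0x_le_uc (N := N1) (l := l) hb hl hT h1 (P *ᵥ g) G
      rw [hG, sum_gb, sum_gbC, ← hG] at h3
      have e2 : X g = ∑ ζ ∈ blk m, a ζ * V0x N1 l b T (ip _ ζ) (P *ᵥ g) := by rw [hX]
      have e3 : U g = ∑ ζ ∈ blk m, (a ζ : ℂ) * H889.uc N1 l b T (ip _ ζ) (P *ᵥ g) := by rw [hU]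
      rw [← e2, ← e3] at h3
      have r1 : 0 ≤ Rp g := by
        rw [hRp]
        exact Rcl_nonneg hb hl hT (le_refl T) _
      have r2 : 0 ≤ Rm g := by
        rw [hRm]
        exact Rcl_nonneg hb hl hT (le_refl T) _
      have e4 : Rcl N1 l b T T (P *ᵥ g + G) = Rp g := by rw [hRp]
      have e5 : Rcl N1 l b T T (P *ᵥ g - G) = Rm g := by
        rw [hRm, sub_eq_add_neg]
      rw [e4, e5] at h3
      refine h3.trans ?_
      have h4 : (1 + omH (wT b N1) (MC N1 l T T)) * (Rp g + Rm g) ≤ 3 / 2 * (Rp g + Rm g) :=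
        mul_le_mul_of_nonneg_right (by linarith) (by linarith)
      have h5 : omH (wT b N1) (MC N1 l T T) * (T * (l : ℝ) ^ 2 * ∑ x, G x ^ 2 +
          8 * oT N1 l b T) ≤ εH * 5 :=
        mul_le_mul h.oH (by linarith) (by positivity) hεH
      have h6 : oT N1 l b T * (2 * Real.pi * ‖U g‖) = 2 * Real.pi * oT N1 l b T * ‖U g‖ := by ring
      rw [h6]
      linarith
    -- norms
    have nRp : n2 γ (fun g => (Rp g : ℂ)) ≤ δ := by
      refine (n2_egr eRp hδ).2 ?_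
      rw [hRp]
      exact h.typ G hνG
    have nRm : n2 γ (fun g => (Rm g : ℂ)) ≤ δ := by
      refine (n2_egr eRm hδ).2 ?_
      rw [hRm]
      refine h.typ (-G) ?_
      simpa only [Pi.neg_apply, neg_sq] using hνG
    have nU : n2 γ U ≤ Yu := by
      rw [hU]
      refine (n2_sum_le _ fun ζ _ => (mu _).const_mul (a ζ : ℂ)).trans ?_
      have h3 : ∀ ζ ∈ blk m, n2 γ (fun g => (a ζ : ℂ) * H889.uc N1 l b T (ip _ ζ) (P *ᵥ g)) ≤
          T * (l : ℝ) ^ 2 * Yu := by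
        intro ζ hζ
        rw [n2_const_mul]
        have h4 : n2 γ (fun g => H889.uc N1 l b T (ip _ ζ) (P *ᵥ g)) ≤ T * (l : ℝ) ^ 2 * Yu :=
          (n2_le (mu _) (by positivity)).2 (h.uc _)
        have h7 : ‖(a ζ : ℂ)‖ ≤ 1 := by
          rw [Complex.norm_real, Real.norm_eq_abs]
          exact ha1 ζ hζ
        calc ‖(a ζ : ℂ)‖ * n2 γ (fun g => H889.uc N1 l b T (ip _ ζ) (P *ᵥ g))
            ≤ 1 * (T * (l : ℝ) ^ 2 * Yu) := mul_le_mul h7 h4 (n2_nonneg _) zero_le_one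
          _ = _ := one_mul _
      refine (Finset.sum_le_sum h3).trans ?_
      rw [Finset.sum_const, nsmul_eq_mul, card_blk]
      have h9 := mul_le_mul_of_nonneg_right h.hνm hYu
      have h10 : (m : ℝ) ^ 2 * (T * (l : ℝ) ^ 2 * Yu) = T * (l : ℝ) ^ 2 * (m : ℝ) ^ 2 * Yu := by
        ring
      rw [h10]
      linarith
    -- the majorant
    have mRp := memLp_egr eRp
    have mRm := memLp_egr eRm
    have mN : MemLp (fun g => ((‖U g‖ : ℝ) : ℂ)) 2 γ := by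
      refine (memLp_two_iff_integrable_sq_norm
        (Complex.measurable_ofReal.comp_aemeasurable
          mU.1.norm.aemeasurable).aestronglyMeasurable).2 ?_
      have := (memLp_two_iff_integrable_sq_norm mU.1).1 mU
      refine this.congr (Filter.Eventually.of_forall fun g => ?_)
      show ‖U g‖ ^ 2 = ‖((‖U g‖ : ℝ) : ℂ)‖ ^ 2
      rw [Complex.norm_real, norm_norm]
    have nN : n2 γ (fun g => ((‖U g‖ : ℝ) : ℂ)) ≤ Yu :=
      (n2_mono mU fun g => by rw [Complex.norm_real, norm_norm]).trans nU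
    have mc : MemLp (fun _ : V (N1 / l) → ℝ => ((5 * εH : ℝ) : ℂ)) 2 γ := memLp_const _
    have nc : n2 γ (fun _ : V (N1 / l) → ℝ => ((5 * εH : ℝ) : ℂ)) ≤ 5 * εH := by
      refine n2_le_const mc.1 (by positivity) fun _ => ?_
      rw [Complex.norm_real, Real.norm_eq_abs, abs_of_nonneg (by positivity)]
    have hπ := Real.pi_pos
    have m1 : MemLp (fun g => ((3 / 2 : ℝ) : ℂ) * ((Rp g : ℂ) + (Rm g : ℂ))) 2 γ :=
      (mRp.add mRm).const_mul _
    have m2 : MemLp (fun g => ((2 * Real.pi * oT N1 l b T : ℝ) : ℂ) * ((‖U g‖ : ℝ) : ℂ) +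
        ((5 * εH : ℝ) : ℂ)) 2 γ := (mN.const_mul _).add mc
    have n1 : n2 γ (fun g => ((3 / 2 : ℝ) : ℂ) * ((Rp g : ℂ) + (Rm g : ℂ))) ≤ 3 * δ := by
      rw [n2_const_mul, Complex.norm_real, Real.norm_eq_abs, abs_of_pos (by norm_num)]
      have := n2_add_le mRp mRm
      linarith
    have n2' : n2 γ (fun g => ((2 * Real.pi * oT N1 l b T : ℝ) : ℂ) * ((‖U g‖ : ℝ) : ℂ) +
        ((5 * εH : ℝ) : ℂ)) ≤ 7 * oT N1 l b T * Yu + 5 * εH := by
      refine (n2_add_le (mN.const_mul _) mc).trans ?_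
      rw [n2_const_mul, Complex.norm_real, Real.norm_eq_abs, abs_of_nonneg (by positivity)]
      have h3 : 2 * Real.pi * oT N1 l b T * n2 γ (fun g => ((‖U g‖ : ℝ) : ℂ)) ≤
          7 * oT N1 l b T * Yu := by
        refine mul_le_mul ?_ nN (n2_nonneg _) (by positivity)
        refine mul_le_mul_of_nonneg_right ?_ hT0
        have := Real.pi_lt_d2
        linarith
      linarith
    refine (n2_mono (m1.add m2) fun g => ?_).trans ((n2_add_le m1 m2).trans (by linarith))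
    have r1 : 0 ≤ Rp g := by
      rw [hRp]
      exact Rcl_nonneg hb hl hT (le_refl T) _
    have r2 : 0 ≤ Rm g := by
      rw [hRm]
      exact Rcl_nonneg hb hl hT (le_refl T) _
    have e2 : ((3 / 2 : ℝ) : ℂ) * ((Rp g : ℂ) + (Rm g : ℂ)) +
        (((2 * Real.pi * oT N1 l b T : ℝ) : ℂ) * ((‖U g‖ : ℝ) : ℂ) + ((5 * εH : ℝ) : ℂ)) =
        ((3 / 2 * (Rp g + Rm g) + (2 * Real.pi * oT N1 l b T * ‖U g‖ + 5 * εH) : ℝ) : ℂ) := by
      push_cast
      ring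
    rw [Pi.add_apply, e2, Complex.norm_real, Complex.norm_real, Real.norm_eq_abs,
      Real.norm_eq_abs]
    exact (hpt g).trans (le_abs_self _)
  unfold R6
  linarith

end

end Vale.Agent.P159.H462
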