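import Vale.Agent.P159.H462.Q7

/-!
P159 (helper462), P#, **(P6)**, part 8: **the torus change of the letter `aq`**.
-/

set_option linter.unusedSectionVars false
set_option linter.unusedVariables false

namespace Vale.Agent.P159.H462

open Finset MeasureTheory Matrix
open Vale.Agent.P159.H37
open Vale.Agent.P159.H43 (omT omH)
open Vale.Agent.P159.H363 (pin ti_pin Nf acl ti_acl)
open Vale.Agent.P159.TM.Spec (V)
open Vale.Agent.P159.TM.SpecC (Tor wT)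
open Vale.Agent.P159.H864 (TI sym MC)
open Vale.Agent.P159.H733.Torg (ip ip_zero)
open Vale.Agent.P159.H733.Vt (zb iw iw_mulVec Jz zero_mem_zb)

noncomputable section

/-- a window functional against the whole field on one torus -/
def Ij (N l n : ℕ) [NeZero N] [NeZero (N / l)] [NeZero n] (b T : ℝ) (D m j : ℕ)
    (A : Matrix (V n) (V n) ℝ) : ℝ :=
  ∫ g, Phj (V0x N l b T 0) D m j ((iw (D + m) (0 : V n) * pin A) *ᵥ g) *
    (wv A (bx n (D + m) (Gp j)) ⬝ᵥ g) ∂(gau (V n))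

/-- the same, truncated -/
def It (N l n : ℕ) [NeZero N] [NeZero (N / l)] [NeZero n] (b T lam : ℝ) (D m j : ℕ)
    (A : Matrix (V n) (V n) ℝ) : ℝ :=
  ∫ g, tc lam (Phj (V0x N l b T 0) D m j ((iw (D + m) (0 : V n) * pin A) *ᵥ g)) *
    (wv A (bx n (D + m) (Gp j)) ⬝ᵥ g) ∂(gau (V n))

/-- the sizes of the weights -/
def qj (D m j : ℕ) : ℝ := (2 * ((D + m : ℕ) : ℝ) + 1) * ((D + m : ℕ) : ℝ) ^ (2 - j) / m

lemma qj_pos {D m : ℕ} (hm : 1 ≤ m) (j : ℕ) : 0 < qj D m j := by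
  unfold qj
  have h1 : (0 : ℝ) < m := by exact_mod_cast hm
  have h2 : (0 : ℝ) < ((D + m : ℕ) : ℝ) := by
    have : 0 < D + m := by omega
    exact_mod_cast this
  positivity

lemma qj_sum {D m : ℕ} (hm : 1 ≤ m) :
    qj D m 0 + 2 * m * qj D m 1 ≤ 9 * ((D + m : ℕ) : ℝ) ^ 3 / m := by
  have h1 : (1 : ℝ) ≤ m := by exact_mod_cast hm
  have h2 : (m : ℝ) ≤ ((D + m : ℕ) : ℝ) := by
    have : m ≤ D + m := by omega
    exact_mod_cast this
  have hm0 : (0 : ℝ) < m := by linarith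
  unfold qj
  simp only [Nat.sub_zero, show 2 - 1 = 1 from rfl, pow_one]
  set d : ℝ := ((D + m : ℕ) : ℝ) with hd
  have e : (2 * d + 1) * d ^ 2 / m + 2 * m * ((2 * d + 1) * d / m) =
      ((2 * d + 1) * d ^ 2 + 2 * m * ((2 * d + 1) * d)) / m := by
    field_simp
  rw [e]
  refine div_le_div_of_nonneg_right ?_ hm0.le
  have h3 : 2 * d + 1 ≤ 3 * d := by linarith
  have h4 : (2 * d + 1) * d ^ 2 ≤ 3 * d * d ^ 2 :=
    mul_le_mul_of_nonneg_right h3 (by positivity)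
  have h5 : 2 * m * ((2 * d + 1) * d) ≤ 2 * d * (3 * d * d) := by
    refine mul_le_mul (by linarith) (mul_le_mul_of_nonneg_right h3 (by linarith))
      (by nlinarith) (by linarith)
  nlinarith

section one

variable {N l n : ℕ} [NeZero N] [NeZero (N / l)] [NeZero n] {b T : ℝ}

lemma qf_bx {A : Matrix (V n) (V n) ℝ} {c : ℝ} {D m : ℕ} (hm : 1 ≤ m)
    (hA : Dom A (T * (l : ℝ) ^ 2) c) (hνm : T * (l : ℝ) ^ 2 * (m : ℝ) ^ 2 ≤ 1)
    (hD : 2 * (D + m) < n) (j : ℕ) : qf A (bx n (D + m) (Gp j)) ≤ qj D m j ^ 2 := by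
  have hν := hA.hν
  have h1 := (qf_dom hA (bx n (D + m) (Gp j))).trans
    (mul_le_mul_of_nonneg_left (sum_bx hD j) hν.le)
  refine h1.trans ?_
  have hm0 : (0 : ℝ) < m := by exact_mod_cast hm
  have h2 : T * (l : ℝ) ^ 2 ≤ 1 / (m : ℝ) ^ 2 := by
    rw [le_div_iff₀ (by positivity)]
    exact hνm
  unfold qj
  rw [div_pow, mul_pow]
  calc T * (l : ℝ) ^ 2 * ((2 * ((D + m : ℕ) : ℝ) + 1) ^ 2 * (((D + m : ℕ) : ℝ) ^ (2 - j)) ^ 2)
      ≤ 1 / (m : ℝ) ^ 2 *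
        ((2 * ((D + m : ℕ) : ℝ) + 1) ^ 2 * (((D + m : ℕ) : ℝ) ^ (2 - j)) ^ 2) :=
        mul_le_mul_of_nonneg_right h2 (by positivity)
    _ = _ := by ring

lemma Ij_It (hb : 0 ≤ b) (hl : l ∣ N) (hT : 0 < T) (h1 : oT N l b T ≤ 1 / 2)
    (hN : Nf (acl N l b T T)) {D m : ℕ} (hm : 1 ≤ m) (hD : 2 * D < N / l) (hD' : 2 * (D + m) < n)
    {A : Matrix (V n) (V n) ℝ} {c W : ℝ} (hA : Dom A (T * (l : ℝ) ^ 2) c) (hW : 1 ≤ W)
    (hν : (T * (l : ℝ) ^ 2)⁻¹ ≤ W) (hν1 : T * (l : ℝ) ^ 2 ≤ 1)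
    (hνm : T * (l : ℝ) ^ 2 * (m : ℝ) ^ 2 ≤ 1) (hc : c⁻¹ ≤ W) (hn : (n : ℝ) ^ 2 ≤ W)
    {lam : ℝ} (hlam : 0 < lam) (j : ℕ) :
    |Ij N l n b T D m j A - It N l n b T lam D m j A| ≤
      4 * 10 ^ 8 * W ^ 8 * qj D m j / lam := by
  have h := trunc_err (f := Phj (V0x N l b T 0) D m j)
    (B := iw (D + m) (0 : V n) * pin A) (measurable_Phj (egr_V0x hb hl hT 0).meas D m j)
    (nf_dom hA) hW hn (Phj_crude hb hl hT h1 hN hm hD hD' hA hW hν hν1 hνm hc hn j)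
    (qf_bx hm hA hνm hD' j) (qj_pos hm j).le hlam
  exact h

end one

/-- pure numbers -/
lemma num8 {W e0 Λ lam R η23 ρ p s : ℝ} (hW : 1 ≤ W) (he0 : 0 ≤ e0) (hΛ : 1 ≤ Λ)
    (hlam : 1 ≤ lam) (hR0 : 0 ≤ R) (hη23 : 0 ≤ η23) (hη8 : η23 ≤ 1 / 8) (hρ0 : 0 ≤ ρ)
    (hρW : ρ ^ 3 ≤ W ^ 2) (hp0 : 0 ≤ p) (hs0 : 0 ≤ s) :
    e0 * W ^ 2 + 9 / 2 * ρ ^ 3 * (8 * 10 ^ 8 * W ^ 8 / lam + 16 * η23 *
      (2 * Λ * R + 2 * Λ * (lam * p) + 8 * (lam * s))) ≤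
    1000 * η23 * ρ ^ 3 * Λ * R +
      10 ^ 10 * W ^ 16 * Λ * (e0 + lam * s + lam * p + 1 / lam) := by
  have hl0 : 0 < lam := by linarith
  have hΛ0 : 0 < Λ := by linarith
  have hW2 : W ^ 2 ≤ W ^ 16 := pow_le_pow_right₀ hW (by norm_num)
  have hW10 : W ^ 10 ≤ W ^ 16 := pow_le_pow_right₀ hW (by norm_num)
  have hW16 : 0 ≤ W ^ 16 := by positivity
  have hr : 0 ≤ ρ ^ 3 := by positivity
  have h1l : 0 ≤ 1 / lam := by positivity
  have hlp : 0 ≤ lam * p := by positivity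
  have hls : 0 ≤ lam * s := by positivity
  have hηρ : η23 * ρ ^ 3 ≤ 1 / 8 * W ^ 16 :=
    mul_le_mul hη8 (hρW.trans hW2) hr (by norm_num)
  have e4 : 9 / 2 * ρ ^ 3 * (8 * 10 ^ 8 * W ^ 8 / lam + 16 * η23 *
      (2 * Λ * R + 2 * Λ * (lam * p) + 8 * (lam * s))) = 144 * (η23 * ρ ^ 3 * Λ * R) +
      (144 * (η23 * ρ ^ 3 * (Λ * (lam * p))) + 576 * (η23 * ρ ^ 3 * (lam * s)) +
        36 * 10 ^ 8 * (W ^ 8 * ρ ^ 3 * (1 / lam))) := by
    rw [div_eq_mul_one_div (8 * 10 ^ 8 * W ^ 8) lam]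
    ring
  rw [e4]
  have g1 : 0 ≤ η23 * ρ ^ 3 * Λ * R := by positivity
  have g2 : e0 * W ^ 2 ≤ W ^ 16 * Λ * e0 := by
    have h1 : e0 * W ^ 2 ≤ e0 * W ^ 16 := mul_le_mul_of_nonneg_left hW2 he0
    have h2 : e0 * W ^ 16 * 1 ≤ e0 * W ^ 16 * Λ := mul_le_mul_of_nonneg_left hΛ (by positivity)
    linarith
  have g3 : η23 * ρ ^ 3 * (Λ * (lam * p)) ≤ 1 / 8 * W ^ 16 * (Λ * (lam * p)) :=
    mul_le_mul_of_nonneg_right hηρ (by positivity)
  have g4 : η23 * ρ ^ 3 * (lam * s) ≤ 1 / 8 * W ^ 16 * (lam * s) :=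
    mul_le_mul_of_nonneg_right hηρ hls
  have g4' : W ^ 16 * (lam * s) * 1 ≤ W ^ 16 * (lam * s) * Λ :=
    mul_le_mul_of_nonneg_left hΛ (by positivity)
  have g5 : W ^ 8 * ρ ^ 3 * (1 / lam) ≤ W ^ 16 * (1 / lam) := by
    refine mul_le_mul_of_nonneg_right ?_ h1l
    calc W ^ 8 * ρ ^ 3 ≤ W ^ 8 * W ^ 2 := mul_le_mul_of_nonneg_left hρW (by positivity)
      _ = W ^ 10 := by ring
      _ ≤ W ^ 16 := hW10
  have g5' : W ^ 16 * (1 / lam) * 1 ≤ W ^ 16 * (1 / lam) * Λ :=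
    mul_le_mul_of_nonneg_left hΛ (by positivity)
  have n1 : 0 ≤ W ^ 16 * Λ * e0 := by positivity
  have n2 : 0 ≤ W ^ 16 * (lam * s) * Λ := by positivity
  have n3 : 0 ≤ W ^ 16 * (Λ * (lam * p)) := by positivity
  have n4 : 0 ≤ W ^ 16 * (1 / lam) * Λ := by positivity
  have e5 : 1000 * η23 * ρ ^ 3 * Λ * R +
      10 ^ 10 * W ^ 16 * Λ * (e0 + lam * s + lam * p + 1 / lam) =
      1000 * (η23 * ρ ^ 3 * Λ * R) + (10 ^ 10 * (W ^ 16 * Λ * e0) +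
        10 ^ 10 * (W ^ 16 * (lam * s) * Λ) + 10 ^ 10 * (W ^ 16 * (Λ * (lam * p))) +
        10 ^ 10 * (W ^ 16 * (1 / lam) * Λ)) := by ring
  rw [e5]
  linarith

section main

variable {N1 N2 N3 l : ℕ} [NeZero N1] [NeZero N2] [NeZero N3] [NeZero (N1 / l)]
  [NeZero (N2 / l)] [NeZero (N3 / l)] {b T : ℝ} {D0 m : ℕ}
  {c W e0 δ εA Yu εH η12 η23 : ℝ}

/-- the letter as block sums -/
theorem aq_Ij {B M : ℕ} [NeZero B] [NeZero M] [NeZero (B / l)] [NeZero (M / l)]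
    (hb : 0 ≤ b) (hT : 0 < T) (hlB : l ∣ B) (hB : Nf (acl B l b T T))
    (h : P6t B M l b T D0 m c e0 W) (he0 : 0 ≤ e0) (hW : 1 ≤ W) (hν1 : T * (l : ℝ) ^ 2 ≤ 1)
    (hm : 1 ≤ m) :
    |(m : ℝ) ^ 2 * (2 * aq M l b T) - (Ij B l (M / l) b T D0 m 0 (acl M l b T T) -
      2 * m * Ij B l (M / l) b T D0 m 1 (acl M l b T T) - Lc (acl B l b T T) D0 m)| ≤
      (m : ℝ) ^ 2 * (e0 * W ^ 2) := by
  have hfit := h.fit
  have hA : Nf (acl M l b T T) := nf_dom h.dom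
  have h1 := int_struct (n := M / l) hA hB (egr_V0x hb hlB hT 0) (V0x_cs hb hlB hT hB 0) hm
    (D := D0) (by omega)
  have e : (fun F : V (B / l) → ℝ => V0x B l b T 0 F - lnf (acl B l b T T) F) =
      Mx B l b T 0 := by
    funext F
    unfold V0x lnf
    ring
  rw [e] at h1
  have h2 := two_aq_loc hb hT hlB h he0 hW hν1
  have h3 : Ij B l (M / l) b T D0 m 0 (acl M l b T T) -
      2 * m * Ij B l (M / l) b T D0 m 1 (acl M l b T T) - Lc (acl B l b T T) D0 m =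
      (m : ℝ) ^ 2 * ∫ g, gl (Mx B l b T 0) D0 0 (pin (acl M l b T T) *ᵥ g) *
        (wv (acl M l b T T) (w0 (M / l)) ⬝ᵥ g) ∂(gau (V (M / l))) := h1.symm
  rw [h3, ← mul_sub, abs_mul, abs_of_nonneg (by positivity)]
  exact mul_le_mul_of_nonneg_left h2 (by positivity)

/-- the size of the truncated functional on the second torus -/
lemma tc_L2 (h : P6h N1 N2 N3 l b T D0 m c W e0 δ εA Yu εH η12 η23) {lam : ℝ} (hlam : 0 < lam)
    (j : ℕ) :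
    ∫ g, tc lam (Phj (V0x N1 l b T 0) D0 m j ((iw (D0 + m) (0 : V (N2 / l)) *
      pin (acl N2 l b T T)) *ᵥ g)) ^ 2 ∂(gau (V (N2 / l))) ≤
      4 * R6 N1 l b T δ εA Yu εH W e0 ^ 2 + 2 * lam ^ 2 * (4 : ℝ) ^ (-(1 / (2 * η12))) := by
  have hb := h.hb
  have hT := h.hT
  have hl := h.t1.hl
  have hN : Nf (acl N1 l b T T) := nf_dom h.t1.dom
  obtain ⟨H, hH, hG, hS⟩ := h.h12
  have hmf : Measurable (Phj (V0x N1 l b T 0) D0 m j) :=
    measurable_Phj (egr_V0x hb hl hT 0).meas D0 m j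
  have hmt : Measurable fun u => tc lam (Phj (V0x N1 l b T 0) D0 m j u) ^ 2 :=
    ((measurable_tc lam).comp hmf).pow_const 2
  have key := H552.hs_le hH hG h.η12p h.η12s (κ := 4) (by norm_num) hS
    (f := fun u => tc lam (Phj (V0x N1 l b T 0) D0 m j u) ^ 2) hmt (fun _ => sq_nonneg _)
    (B := lam ^ 2) (fun u => by
      rw [← sq_abs]
      exact pow_le_pow_left₀ (abs_nonneg _) (abs_tc_le hlam.le _) 2)
  refine key.trans ?_
  have h1 : ∫ g, tc lam (Phj (V0x N1 l b T 0) D0 m j ((iw (D0 + m) (0 : V (N1 / l)) *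
      pin (acl N1 l b T T)) *ᵥ g)) ^ 2 ∂(gau (V (N1 / l))) ≤
      R6 N1 l b T δ εA Yu εH W e0 ^ 2 := by
    refine le_trans ?_ (Phj_L2 h j)
    have eF : EGr fun g => Phj (V0x N1 l b T 0) D0 m j
        ((iw (D0 + m) (0 : V (N1 / l)) * pin (acl N1 l b T T)) *ᵥ g) := by
      have e : (fun g : V (N1 / l) → ℝ => Phj (V0x N1 l b T 0) D0 m j
          ((iw (D0 + m) (0 : V (N1 / l)) * pin (acl N1 l b T T)) *ᵥ g)) = fun g =>
          ∑ ζ ∈ blk m, ((ζ.1 : ℝ) / m) ^ j *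
            gl (V0x N1 l b T 0) D0 (ip (N1 / l) ζ) (pin (acl N1 l b T T) *ᵥ g) := by
        funext g
        rw [← mulVec_mulVec, Phj_iw (V0x_cs hb hl hT hN 0)]
      rw [e]
      exact H159.egr_sum _ fun ζ _ => (egr_mv (egr_gl (egr_V0x hb hl hT 0) D0 _) _).cmul _
    have i1 := H708.egr_integrable (eF.mul eF)
    simp only [← pow_two] at i1
    exact integral_mono_of_nonneg (Filter.Eventually.of_forall fun _ => sq_nonneg _) i1
      (Filter.Eventually.of_forall fun g => tc_sq_le hlam.le _)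
  linarith

/-- **one functional on the two tori** -/
theorem Ij_sub (h : P6h N1 N2 N3 l b T D0 m c W e0 δ εA Yu εH η12 η23) {Λ lam : ℝ}
    (hΛ : 1 ≤ Λ) (hlam : 1 ≤ lam) (j : ℕ) :
    |Ij N1 l (N2 / l) b T D0 m j (acl N2 l b T T) -
      Ij N1 l (N3 / l) b T D0 m j (acl N3 l b T T)| ≤
      qj D0 m j * (8 * 10 ^ 8 * W ^ 8 / lam + 16 * η23 *
        (2 * Λ * R6 N1 l b T δ εA Yu εH W e0 +
          2 * Λ * (lam * (4 : ℝ) ^ (-(1 / (4 * η12)))) + 8 * (lam * Real.exp (-(Λ / 2))))) := by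
  have hb := h.hb
  have hT := h.hT
  have hl := h.t1.hl
  have h1 := h.oT1
  have hm := h.hm
  have hN : Nf (acl N1 l b T T) := nf_dom h.t1.dom
  have f1 := h.t1.fit
  have f2 := h.t2.fit
  have f3 := h.t3.fit
  have hl0 : 0 < lam := by linarith
  have hΛ0 : 0 < Λ := by linarith
  have hη := h.η12p
  have hη23 := h.η23p
  have hR0 : 0 ≤ R6 N1 l b T δ εA Yu εH W e0 := by
    have hw := H363.wm_MC (N := N1) (l := l) (b := b) hb hl hT (le_refl T)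
    have := H43.omH_nonneg hw
    have hT0 : 0 ≤ oT N1 l b T := H43.omT_nonneg hw
    have hεH : 0 ≤ εH := this.trans h.oH
    have := h.hδ
    have := h.hYu
    have := h.hεA
    have := h.W1
    have := h.he0
    unfold R6
    positivity
  set R := R6 N1 l b T δ εA Yu εH W e0 with hR
  have t2 := Ij_It (n := N2 / l) hb hl hT h1 hN hm (D := D0) (by omega) (by omega) h.t2.dom h.W1
    h.Wν h.ν1 h.hνm h.Wc h.t2.W hl0 j
  have t3 := Ij_It (n := N3 / l) hb hl hT h1 hN hm (D := D0) (by omega) (by omega) h.t3.dom h.W1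
    h.Wν h.ν1 h.hνm h.Wc h.t3.W hl0 j
  -- the change of the law
  obtain ⟨H, hH, hG, hS⟩ := h.h23
  have hq := qj_pos (D := D0) hm j
  have hmf : Measurable fun u => tc lam (Phj (V0x N1 l b T 0) D0 m j u) :=
    (measurable_tc lam).comp (measurable_Phj (egr_V0x hb hl hT 0).meas D0 m j)
  have q2 := qf_bx (n := N2 / l) (D := D0) hm h.t2.dom h.hνm (by omega) j
  have q3 := qf_bx (n := N3 / l) (D := D0) hm h.t3.dom h.hνm (by omega) j
  have hww : (iw (D0 + m) (0 : V (N2 / l)) * pin (acl N2 l b T T)) *ᵥ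
      wv (acl N2 l b T T) (bx (N2 / l) (D0 + m) (Gp j)) =
      (iw (D0 + m) (0 : V (N3 / l)) * pin (acl N3 l b T T)) *ᵥ
      wv (acl N3 l b T T) (bx (N3 / l) (D0 + m) (Gp j)) := by
    rw [iw_wv (nf_dom h.t2.dom), iw_wv (nf_dom h.t3.dom)]
    funext ζ
    rw [iw_mulVec, iw_mulVec, zero_add, zero_add, bx_ip (by omega) _ ζ.2, bx_ip (by omega) _ ζ.2]
    have z2 := bx_ip (n := N2 / l) (D1 := D0 + m) (by omega) (Gp j) (zero_mem_zb _)
    have z3 := bx_ip (n := N3 / l) (D1 := D0 + m) (by omega) (Gp j) (zero_mem_zb _)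
    rw [ip_zero] at z2 z3
    rw [z2, z3]
  have key := H846.La.law_x hH hG hη23 h.η23s hS hww hmf (lam := lam)
    (fun u => abs_tc_le hl0.le _) (v := 2 * qj D0 m j) (by positivity) (by
      rw [wv_self (nf_dom h.t2.dom), wv_self (nf_dom h.t3.dom)]
      nlinarith) hΛ0.le
  -- the square root
  have hroot : √(Λ ^ 2 * ∫ g, tc lam (Phj (V0x N1 l b T 0) D0 m j
      ((iw (D0 + m) (0 : V (N2 / l)) * pin (acl N2 l b T T)) *ᵥ g)) ^ 2 ∂(gau (V (N2 / l))) +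
      64 * lam ^ 2 * Real.exp (-Λ)) ≤
      2 * Λ * R + 2 * Λ * (lam * (4 : ℝ) ^ (-(1 / (4 * η12)))) +
        8 * (lam * Real.exp (-(Λ / 2))) := by
    refine Real.sqrt_le_iff.2 ⟨by positivity, ?_⟩
    have h2 := mul_le_mul_of_nonneg_left (tc_L2 h hl0 j) (sq_nonneg Λ)
    rw [← hR] at h2
    have e1 : (4 : ℝ) ^ (-(1 / (2 * η12))) = ((4 : ℝ) ^ (-(1 / (4 * η12)))) ^ 2 := by
      rw [← Real.rpow_natCast, ← Real.rpow_mul (by norm_num)]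
      congr 1
      push_cast
      field_simp
      norm_num
    have e2 : Real.exp (-Λ) = Real.exp (-(Λ / 2)) ^ 2 := by
      rw [← Real.exp_nat_mul]
      congr 1
      push_cast
      ring
    rw [e1] at h2
    rw [e2]
    set p : ℝ := (4 : ℝ) ^ (-(1 / (4 * η12))) with hp
    set s : ℝ := Real.exp (-(Λ / 2)) with hs
    have hp0 : 0 ≤ p := by positivity
    have hs0 : 0 ≤ s := by positivity
    have a1 : 0 ≤ 2 * Λ * R := by positivity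
    have a2 : 0 ≤ 2 * Λ * (lam * p) := by positivity
    have a3 : 0 ≤ 8 * (lam * s) := by positivity
    have e3 : Λ ^ 2 * (4 * R ^ 2 + 2 * lam ^ 2 * p ^ 2) + 64 * lam ^ 2 * s ^ 2 ≤
        (2 * Λ * R) ^ 2 + (2 * Λ * (lam * p)) ^ 2 + (8 * (lam * s)) ^ 2 := by
      have : 0 ≤ Λ ^ 2 * (lam ^ 2 * p ^ 2) := by positivity
      nlinarith
    have e4 : (2 * Λ * R) ^ 2 + (2 * Λ * (lam * p)) ^ 2 + (8 * (lam * s)) ^ 2 ≤
        (2 * Λ * R + 2 * Λ * (lam * p) + 8 * (lam * s)) ^ 2 := by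
      nlinarith [mul_nonneg a1 a2, mul_nonneg a1 a3, mul_nonneg a2 a3]
    linarith
  have key2 : |It N1 l (N3 / l) b T lam D0 m j (acl N3 l b T T) -
      It N1 l (N2 / l) b T lam D0 m j (acl N2 l b T T)| ≤ 8 * η23 * (2 * qj D0 m j) *
      (2 * Λ * R + 2 * Λ * (lam * (4 : ℝ) ^ (-(1 / (4 * η12)))) +
        8 * (lam * Real.exp (-(Λ / 2)))) :=
    key.trans (mul_le_mul_of_nonneg_left hroot (by positivity))
  have e1 : Ij N1 l (N2 / l) b T D0 m j (acl N2 l b T T) -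
      Ij N1 l (N3 / l) b T D0 m j (acl N3 l b T T) =
      (Ij N1 l (N2 / l) b T D0 m j (acl N2 l b T T) -
        It N1 l (N2 / l) b T lam D0 m j (acl N2 l b T T)) +
      (It N1 l (N2 / l) b T lam D0 m j (acl N2 l b T T) -
        It N1 l (N3 / l) b T lam D0 m j (acl N3 l b T T)) +
      (It N1 l (N3 / l) b T lam D0 m j (acl N3 l b T T) -
        Ij N1 l (N3 / l) b T D0 m j (acl N3 l b T T)) := by ring
  rw [e1]
  refine (abs_add_le _ _).trans ((add_le_add (abs_add_le _ _) le_rfl).trans ?_)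
  rw [abs_sub_comm (It N1 l (N2 / l) b T lam D0 m j (acl N2 l b T T)),
    abs_sub_comm (It N1 l (N3 / l) b T lam D0 m j (acl N3 l b T T))
      (Ij N1 l (N3 / l) b T D0 m j (acl N3 l b T T))]
  refine (add_le_add (add_le_add t2 key2) t3).trans (le_of_eq ?_)
  ring

/-- before the numbers -/
lemma aq_pre (h : P6h N1 N2 N3 l b T D0 m c W e0 δ εA Yu εH η12 η23) {Λ lam : ℝ}
    (hΛ : 1 ≤ Λ) (hlam : 1 ≤ lam) (hR0 : 0 ≤ R6 N1 l b T δ εA Yu εH W e0) :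
    |aq N2 l b T - aq N3 l b T| ≤ e0 * W ^ 2 + 9 / 2 * (((D0 : ℝ) + m) / m) ^ 3 *
      (8 * 10 ^ 8 * W ^ 8 / lam + 16 * η23 *
        (2 * Λ * R6 N1 l b T δ εA Yu εH W e0 +
          2 * Λ * (lam * (4 : ℝ) ^ (-(1 / (4 * η12)))) + 8 * (lam * Real.exp (-(Λ / 2))))) := by
  have hT := h.hT
  have hm := h.hm
  have hN : Nf (acl N1 l b T T) := nf_dom h.t1.dom
  have hl0 : 0 < lam := by linarith
  have hη23 := h.η23p
  have a2 := aq_Ij h.hb hT h.t1.hl hN h.t2 h.he0 h.W1 h.ν1 hm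
  have a3 := aq_Ij h.hb hT h.t1.hl hN h.t3 h.he0 h.W1 h.ν1 hm
  have d0 := Ij_sub h hΛ hlam 0
  have d1 := Ij_sub h hΛ hlam 1
  have hW := h.W1
  have hm1 : (1 : ℝ) ≤ m := by exact_mod_cast hm
  have hm0 : (0 : ℝ) < m := by linarith
  have hX0 : 0 ≤ 8 * 10 ^ 8 * W ^ 8 / lam + 16 * η23 *
        (2 * Λ * R6 N1 l b T δ εA Yu εH W e0 +
          2 * Λ * (lam * (4 : ℝ) ^ (-(1 / (4 * η12)))) + 8 * (lam * Real.exp (-(Λ / 2)))) := by
    positivity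
  obtain ⟨X, hX⟩ : ∃ X : ℝ, 8 * 10 ^ 8 * W ^ 8 / lam + 16 * η23 *
        (2 * Λ * R6 N1 l b T δ εA Yu εH W e0 +
          2 * Λ * (lam * (4 : ℝ) ^ (-(1 / (4 * η12)))) + 8 * (lam * Real.exp (-(Λ / 2)))) = X :=
    ⟨_, rfl⟩
  rw [hX] at hX0 d0 d1
  rw [hX]
  have c1' : |2 * m * (Ij N1 l (N2 / l) b T D0 m 1 (acl N2 l b T T) -
      Ij N1 l (N3 / l) b T D0 m 1 (acl N3 l b T T))| ≤ 2 * m * (qj D0 m 1 * X) := by
    rw [abs_mul, abs_of_nonneg (by positivity)]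
    exact mul_le_mul_of_nonneg_left d1 (by positivity)
  have hq := mul_le_mul_of_nonneg_right (qj_sum (D := D0) hm) hX0
  obtain ⟨I20, h20⟩ : ∃ I, Ij N1 l (N2 / l) b T D0 m 0 (acl N2 l b T T) = I := ⟨_, rfl⟩
  obtain ⟨I21, h21⟩ : ∃ I, Ij N1 l (N2 / l) b T D0 m 1 (acl N2 l b T T) = I := ⟨_, rfl⟩
  obtain ⟨I30, h30⟩ : ∃ I, Ij N1 l (N3 / l) b T D0 m 0 (acl N3 l b T T) = I := ⟨_, rfl⟩
  obtain ⟨I31, h31⟩ : ∃ I, Ij N1 l (N3 / l) b T D0 m 1 (acl N3 l b T T) = I := ⟨_, rfl⟩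
  rw [h20, h21] at a2
  rw [h30, h31] at a3
  rw [h20, h30] at d0
  rw [h21, h31] at c1'
  set ρ : ℝ := ((D0 : ℝ) + m) / m with hρ
  have hdρ : ((D0 + m : ℕ) : ℝ) = ρ * m := by
    rw [hρ]
    push_cast
    field_simp
  rw [hdρ] at hq
  have e2 : 9 * (ρ * m) ^ 3 / m * X = (m : ℝ) ^ 2 * (9 * ρ ^ 3 * X) := by
    field_simp
  rw [e2] at hq
  have hsum : (m : ℝ) ^ 2 * (2 * |aq N2 l b T - aq N3 l b T|) ≤
      (m : ℝ) ^ 2 * (2 * (e0 * W ^ 2 + 9 / 2 * ρ ^ 3 * X)) := by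
    have e1 : (m : ℝ) ^ 2 * (2 * |aq N2 l b T - aq N3 l b T|) =
        |(m : ℝ) ^ 2 * (2 * aq N2 l b T) - (m : ℝ) ^ 2 * (2 * aq N3 l b T)| := by
      rw [← mul_sub, ← mul_sub, abs_mul, abs_mul, abs_of_nonneg (sq_nonneg (m : ℝ)), abs_two]
    have e3 : (m : ℝ) ^ 2 * (2 * (e0 * W ^ 2 + 9 / 2 * ρ ^ 3 * X)) =
        2 * ((m : ℝ) ^ 2 * (e0 * W ^ 2)) + (m : ℝ) ^ 2 * (9 * ρ ^ 3 * X) := by ring
    have b2 := abs_le.1 a2
    have b3 := abs_le.1 a3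
    have c0 := abs_le.1 d0
    have c2 := abs_le.1 c1'
    rw [e1, e3, abs_le]
    constructor
    · linarith [b2.1, b3.2, c0.1, c2.2]
    · linarith [b2.2, b3.1, c0.2, c2.1]
  have hm2 : (0 : ℝ) < (m : ℝ) ^ 2 := by positivity
  have := le_of_mul_le_mul_left hsum hm2
  linarith

lemma R6_nonneg (h : P6h N1 N2 N3 l b T D0 m c W e0 δ εA Yu εH η12 η23) :
    0 ≤ R6 N1 l b T δ εA Yu εH W e0 := by
  have hw := H363.wm_MC (N := N1) (l := l) (b := b) h.hb h.t1.hl h.hT (le_refl T)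
  have h0 := H43.omH_nonneg hw
  have hT0 : 0 ≤ oT N1 l b T := H43.omT_nonneg hw
  have hεH : 0 ≤ εH := h0.trans h.oH
  have := h.hδ
  have := h.hYu
  have := h.hεA
  have := h.W1
  have := h.he0
  unfold R6
  positivity

lemma rho_le (h : P6h N1 N2 N3 l b T D0 m c W e0 δ εA Yu εH η12 η23) :
    (((D0 : ℝ) + m) / m) ^ 3 ≤ W ^ 2 := by
  have hm1 : (1 : ℝ) ≤ m := by exact_mod_cast h.hm
  have hD0 : (0 : ℝ) ≤ D0 := Nat.cast_nonneg _
  have f2 := h.t2.fit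
  have hW := h.W1
  have h1 : ((D0 : ℝ) + m) / m ≤ (D0 : ℝ) + m := div_le_self (by linarith) hm1
  have h2 : ((D0 : ℝ) + m) ^ 2 ≤ W := by
    have h3 : (D0 : ℝ) + m ≤ ((N2 / l : ℕ) : ℝ) := by
      have : D0 + m ≤ N2 / l := by omega
      exact_mod_cast this
    exact (pow_le_pow_left₀ (by linarith) h3 2).trans h.t2.W
  have h4 : (D0 : ℝ) + m ≤ W := by nlinarith
  calc (((D0 : ℝ) + m) / m) ^ 3 ≤ ((D0 : ℝ) + m) ^ 3 :=
        pow_le_pow_left₀ (by positivity) h1 3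
    _ = ((D0 : ℝ) + m) ^ 2 * ((D0 : ℝ) + m) := by ring
    _ ≤ W * W := mul_le_mul h2 h4 (by linarith) (by linarith)
    _ = W ^ 2 := by ring

/-- **(P6): the torus change of the sharp letter** -/
theorem aq_torus (h : P6h N1 N2 N3 l b T D0 m c W e0 δ εA Yu εH η12 η23) {Λ lam : ℝ}
    (hΛ : 1 ≤ Λ) (hlam : 1 ≤ lam) :
    |aq N2 l b T - aq N3 l b T| ≤
      1000 * η23 * (((D0 : ℝ) + m) / m) ^ 3 * Λ * R6 N1 l b T δ εA Yu εH W e0 +
        10 ^ 10 * W ^ 16 * Λ * E6 W e0 η12 Λ lam := by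
  have hη8 : η23 ≤ 1 / 8 := by
    have := h.η23s
    linarith
  have h1 := aq_pre h hΛ hlam (R6_nonneg h)
  have hρ0 : 0 ≤ ((D0 : ℝ) + m) / m := by positivity
  exact h1.trans (num8 h.W1 h.he0 hΛ hlam (R6_nonneg h) h.η23p hη8 hρ0 (rho_le h)
    (Real.rpow_nonneg (by norm_num) _) (Real.exp_pos _).le)

end main

end

end Vale.Agent.P159.H462
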